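import Vale.Agent.P319E.Cv0

namespace Vale.Agent.P319E

open NumberField Complex MeasureTheory Filter Topology IsDedekindDomain
open scoped Classical Real nonZeroDivisors

noncomputable section

variable {K : Type} [Field K] [NumberField K]

theorem conv_mu_zero : mu (0 : Ideal (𝓞 K)) = 0 := if_neg not_squarefree_zero

theorem conv_mu_one : mu (1 : Ideal (𝓞 K)) = 1 := by
  rw [mu, if_pos squarefree_one, UniqueFactorizationMonoid.normalizedFactors_one]; simp

theorem conv_mu_prime {P : Ideal (𝓞 K)} (hP : Prime P) (I : Ideal (𝓞 K)) :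
    mu (P * I) = if P ∣ I then 0 else -mu I := by
  split_ifs with h
  · exact if_neg fun c => hP.not_isUnit (c P (mul_dvd_mul_left P h))
  · have h0 : I ≠ 0 := fun c => h (c ▸ dvd_zero P)
    by_cases k : Squarefree I
    · rw [mu, mu, if_pos k, if_pos (squarefree_mul_iff.2
        ⟨hP.irreducible.isRelPrime_iff_not_dvd.2 h, hP.squarefree, k⟩),
        UniqueFactorizationMonoid.normalizedFactors_mul hP.ne_zero h0,
        UniqueFactorizationMonoid.normalizedFactors_irreducible hP.irreducible, Multiset.card_add,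
        Multiset.card_singleton, pow_add]
      ring
    · rw [mu, mu, if_neg k, if_neg fun c => k c.of_mul_right, neg_zero]

/-- removing one prime from a Moebius sum -/
theorem conv_step {P : Ideal (𝓞 K)} (hP : Prime P) {h : Ideal (𝓞 K) → ℂ}
    (hs : Summable fun I => (mu I : ℂ) * h I) :
    ∑' I, (mu I : ℂ) * h I = ∑' I, if P ∣ I then 0 else (mu I : ℂ) * (h I - h (P * I)) := by
  have s1 : Summable fun I => if P ∣ I then (mu I : ℂ) * h I else 0 :=
    (hs.indicator {I | P ∣ I}).congr fun I => by simp only [Set.indicator_apply]; rfl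
  have inj := mul_right_injective₀ hP.ne_zero
  have h1 := (inj.hasSum_iff (f := fun I => if P ∣ I then (mu I : ℂ) * h I else 0)
    fun I hI => if_neg fun ⟨c, hc⟩ => hI ⟨c, hc.symm⟩).2 s1.hasSum
  have h2 := ((hs.hasSum.sub s1.hasSum).add h1).tsum_eq
  rw [sub_add_cancel] at h2
  rw [← h2]
  refine tsum_congr fun I => ?_
  simp only [Function.comp, dvd_mul_right, if_true, conv_mu_prime hP]
  split_ifs <;> push_cast <;> ring

theorem conv_summ {s : ℂ} (hs : 1 < s.re) :
    Summable fun I : Ideal (𝓞 K) => ‖(mu I : ℂ) * ((nm I : ℝ) : ℂ) ^ (-s)‖ :=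
  (cv_summ hs).of_nonneg_of_le (fun _ => norm_nonneg _) fun I => by
    rw [norm_mul, norm_real]
    exact mul_le_of_le_one_left (norm_nonneg _) (abs_mu_le I)

theorem conv_Mc_one (s : ℂ) : Mc K 1 s = ∑' I : Ideal (𝓞 K), (mu I : ℂ) * ((nm I : ℝ) : ℂ) ^ (-s) := by
  simp only [Mc, Nat.cast_one, Ideal.span_singleton_one, ← Ideal.one_eq_top, isCoprime_one_right,
    if_true]

theorem conv_div {I : Ideal (𝓞 K)} (h0 : I ≠ 0) (h1 : I ≠ 1) :
    ∑' B : Ideal (𝓞 K), (mu B : ℂ) * (if B ∣ I then 1 else 0) = 0 := by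
  obtain ⟨P, hP, hd⟩ := WfDvdMonoid.exists_irreducible_factor (fun c => h1 (isUnit_iff_eq_one.1 c)) h0
  have hP' := hP.prime
  rw [conv_step hP' (summable_of_hasFiniteSupport
    ((Ideal.finite_setOfPred_absNorm_le (S := 𝓞 K) (Ideal.absNorm I)).subset fun B hB => ?_))]
  · refine (tsum_congr fun B => ?_).trans tsum_zero
    by_cases k : P ∣ B
    · exact if_pos k
    · rw [if_neg k, if_congr (show P * B ∣ I ↔ B ∣ I from ⟨(dvd_mul_left _ _).trans,
        (hP.isRelPrime_iff_not_dvd.2 k).mul_dvd hd⟩) rfl rfl, sub_self, mul_zero]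
  · have : B ∣ I := by
      by_contra c
      exact hB (by simp only [if_neg c, mul_zero])
    exact Nat.le_of_dvd (Nat.pos_of_ne_zero (Ideal.absNorm_eq_zero_iff.not.2 h0)) (map_dvd _ this)

theorem mob_one {s : ℂ} (hs : 1 < s.re) : Zc K s * Mc K 1 s = 1 := by
  have e : ∀ B : Ideal (𝓞 K), (mu B : ℂ) * ((nm (if B = 0 then 1 else B) : ℝ) : ℂ) ^ (-s) =
      (mu B : ℂ) * ((nm B : ℝ) : ℂ) ^ (-s) := fun B => by
    split_ifs with h
    · rw [h, conv_mu_zero, ofReal_zero, zero_mul, zero_mul]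
    · rfl
  have e2 : ∀ I B : Ideal (𝓞 K), (if (if B = 0 then 1 else B) ∣ I then (mu B : ℂ) else 0) =
      (mu B : ℂ) * (if B ∣ I then 1 else 0) := fun I B => by
    by_cases h : B = 0
    · rw [h, conv_mu_zero, ofReal_zero, zero_mul, ite_self]
    · rw [if_neg h, mul_ite, mul_one, mul_zero]
  have h := cv_conv hs (fun B : Ideal (𝓞 K) => if B = 0 then 1 else B)
    (fun B => by split_ifs with h; exacts [one_ne_zero, h]) (fun B => (mu B : ℂ))
    (by simpa only [e] using conv_summ hs)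
  simp only [e, e2] at h
  rw [mul_comm, conv_Mc_one, h, tsum_eq_single 1, tsum_eq_single 1]
  · simp [conv_mu_one, cv_nm_one, -Ideal.one_eq_top]
  · intro B hB
    rw [if_neg fun c => hB (isUnit_iff_eq_one.1 (isUnit_of_dvd_one c)), mul_zero]
  · intro I hI
    by_cases k : I = 0
    · have : s ≠ 0 := fun c => by rw [c, zero_re] at hs; linarith
      rw [k, cv_nm_zero, ofReal_zero, zero_cpow (neg_ne_zero.2 this), zero_mul]
    · rw [conv_div k hI, mul_zero]

theorem conv_id (J : Ideal (𝓞 K)) (hJ : J ≠ 0) : ∃ E : ℂ → ℂ, Differentiable ℂ E ∧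
    ∀ s : ℂ, 1 < s.re → Mc K 1 s = (∑' I : Ideal (𝓞 K), (mu I : ℂ) *
      if IsCoprime I J then ((nm I : ℝ) : ℂ) ^ (-s) else 0) * E s := by
  induction J using UniqueFactorizationMonoid.induction_on_prime with
  | h₁ => exact absurd rfl hJ
  | h₂ I h =>
    obtain rfl : I = 1 := isUnit_iff_eq_one.1 h
    exact ⟨fun _ => 1, differentiable_const _, fun s _ => by
      simp only [conv_Mc_one, isCoprime_one_right, if_true, mul_one]⟩
  | h₃ J P hJ0 hP ih =>
    obtain ⟨E, hE, h⟩ := ih hJ0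
    have cp : ∀ I : Ideal (𝓞 K), IsCoprime P I ↔ ¬ P ∣ I := fun I => by
      have := Ideal.IsPrime.isMaximal ((Ideal.prime_iff_isPrime hP.ne_zero).1 hP) hP.ne_zero
      rw [Ideal.dvd_iff_le]
      exact ⟨fun a b => hP.not_isUnit (a.isUnit_of_dvd' dvd_rfl (Ideal.dvd_iff_le.2 b)), fun a =>
        Ideal.isCoprime_iff_sup_eq.2 (this.out.2 _ (left_lt_sup.2 a))⟩
    by_cases k : P ∣ J
    · refine ⟨E, hE, fun s hs => ?_⟩
      rw [h s hs]
      congr 1
      refine tsum_congr fun I => ?_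
      rw [if_congr (show IsCoprime I (P * J) ↔ IsCoprime I J from ⟨fun a => a.of_mul_right_right,
        fun a => (a.of_isCoprime_of_dvd_right k).mul_right a⟩) rfl rfl]
    · refine ⟨fun s => (1 - ((nm P : ℝ) : ℂ) ^ (-s)) * E s, Differentiable.mul (fun s =>
        (differentiableAt_const _).sub (differentiableAt_id.neg.const_cpow (Or.inl (ofReal_ne_zero.2
          (one_pos.trans_le (one_le_nm hP.ne_zero)).ne')))) hE, fun s hs => ?_⟩
      rw [h s hs, ← mul_assoc]
      refine congrArg (· * E s) ?_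
      rw [← tsum_mul_right, conv_step hP]
      · refine tsum_congr fun I => ?_
        simp only [IsCoprime.mul_left_iff, IsCoprime.mul_right_iff, isCoprime_comm (x := I) (y := P),
          cp, k, cv_mul]
        by_cases a : P ∣ I <;> by_cases b : IsCoprime I J <;> simp [a, b]
        ring
      · refine .of_norm ((conv_summ hs).of_nonneg_of_le (fun _ => norm_nonneg _) fun I => ?_)
        split_ifs
        · rfl
        · rw [mul_zero, norm_zero]; exact norm_nonneg _

theorem mob_id {M : ℕ} (hM : M ≠ 0) : ∃ E : ℂ → ℂ, Differentiable ℂ E ∧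
    ∀ s : ℂ, 1 < s.re → Zc K s * Mc K M s * E s = 1 := by
  obtain ⟨E, hE, h⟩ := conv_id (Ideal.span {(M : 𝓞 K)})
    (Ideal.span_singleton_eq_bot.not.2 (Nat.cast_ne_zero.2 hM))
  refine ⟨E, hE, fun s hs => ?_⟩
  rw [← mob_one (K := K) hs, h s hs, mul_assoc, Mc]
  simp only [mul_ite, mul_zero]

theorem Zc_ge {s : ℂ} (hs : 2 ≤ s.re) : Real.exp (-(2 * Module.finrank ℚ K)) ≤ ‖Zc K s‖ := by
  have h1 := congrArg (‖·‖) (mob_one (K := K) (s := s) (by linarith))
  have h2 : ‖Mc K 1 s‖ ≤ Real.exp (2 * Module.finrank ℚ K) := by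
    rw [conv_Mc_one]
    refine (tsum_of_norm_bounded (summable_nm (σ := s.re) (by linarith)).hasSum fun I => ?_).trans
      (Zr_le hs)
    rw [norm_mul, norm_real, cv_norm _ (by linarith)]
    exact mul_le_of_le_one_left (Real.rpow_nonneg (nm_nonneg I) _) (abs_mu_le I)
  simp only [norm_mul, norm_one] at h1
  rw [Real.exp_neg, inv_le_iff_one_le_mul₀ (Real.exp_pos _), ← h1]
  exact mul_le_mul_of_nonneg_left h2 (norm_nonneg _)

theorem Zc_ofReal (σ : ℝ) : Zc K σ = Zr K σ := by
  rw [Zc, Zr, ofReal_tsum]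
  exact tsum_congr fun I => by rw [ofReal_cpow (nm_nonneg I), ofReal_neg]

end

end Vale.Agent.P319E
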