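import Mathlib

namespace Vale.Agent.P319E

open NumberField Complex MeasureTheory Filter Topology IsDedekindDomain
open scoped Classical Real nonZeroDivisors

noncomputable section

/-- the smoothing weight -/
def Wr (x : ℝ) : ℝ := Real.exp (-(Real.log x) ^ 2)

/-- Mellin transform of the weight times `X ^ s` -/
def Phi (X : ℝ) (s : ℂ) : ℂ := ((√π : ℝ) : ℂ) * Complex.exp (s ^ 2 / 4) * (X : ℂ) ^ s

/-- the main term -/
def Main (X : ℝ) : ℝ := ∫ x in Set.Ioi (1 : ℝ), Wr (x / X)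

/-- smoothed count of the primes `l = 1 mod m` -/
def Ap (m : ℕ) (X : ℝ) : ℝ :=
  ∑' l : ℕ, if l.Prime ∧ m ∣ l - 1 then Real.log l * Wr (l / X) else 0

section

variable {K : Type} [Field K] [NumberField K]

/-- norm of an ideal as a real number -/
def nm (I : Ideal (𝓞 K)) : ℝ := (Ideal.absNorm I : ℝ)

/-- Moebius function of an ideal -/
def mu (I : Ideal (𝓞 K)) : ℝ :=
  if Squarefree I then (-1) ^ (UniqueFactorizationMonoid.normalizedFactors I).card else 0

variable (K)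

/-- Dedekind zeta function as a sum over ideals (the zero ideal contributes `0`) -/
def Zc (s : ℂ) : ℂ := ∑' I : Ideal (𝓞 K), ((nm I : ℝ) : ℂ) ^ (-s)

def Zr (σ : ℝ) : ℝ := ∑' I : Ideal (𝓞 K), nm I ^ (-σ)

def Mc (M : ℕ) (s : ℂ) : ℂ := ∑' I : Ideal (𝓞 K),
  if IsCoprime I (Ideal.span {(M : 𝓞 K)}) then (mu I : ℂ) * ((nm I : ℝ) : ℂ) ^ (-s) else 0

def MobSum (M : ℕ) (X : ℝ) : ℝ := ∑' I : Ideal (𝓞 K),
  if IsCoprime I (Ideal.span {(M : 𝓞 K)}) then mu I * Wr (nm I / X) else 0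

/-- the (non-uniform) Moebius bound -/
def MobBound (θ : ℝ) : Prop :=
  ∃ (M : ℕ) (C : ℝ), M ≠ 0 ∧ ∀ X : ℝ, 1 ≤ X → |MobSum K M X| ≤ C * X ^ θ

/-- `- zeta' / zeta` as a sum over prime powers -/
def Lc (s : ℂ) : ℂ := ∑' p : HeightOneSpectrum (𝓞 K) × ℕ,
  (Real.log (nm p.1.asIdeal) : ℂ) * ((nm p.1.asIdeal ^ (p.2 + 1) : ℝ) : ℂ) ^ (-s)

/-- smoothed Chebyshev function -/
def Psi (X : ℝ) : ℝ := ∑' p : HeightOneSpectrum (𝓞 K) × ℕ,
  Real.log (nm p.1.asIdeal) * Wr (nm p.1.asIdeal ^ (p.2 + 1) / X)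

/-- the size parameter -/
def lD : ℝ := Real.log |(discr K : ℝ)| + Module.finrank ℚ K

/-- nonzero fractional ideals -/
abbrev FI : Type := (FractionalIdeal (𝓞 K)⁰ K)ˣ

variable {K}

/-- the dual fractional ideal for the trace form -/
def dualU (A : FI K) : FI K :=
  Units.mk0 (FractionalIdeal.dual ℤ ℚ A.1) (FractionalIdeal.dual_ne_zero ℤ ℚ A.ne_zero)

/-- covolume -/
def cov (A : FI K) : ℝ := ((FractionalIdeal.absNorm A.1 : ℚ) : ℝ) * √|(discr K : ℝ)|

/-- the Gaussian -/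
def gs (y : InfinitePlace K → ℝ) (a : K) : ℝ := Real.exp (-(2 * π) * ∑ w, y w * (w a) ^ 2)

/-- theta series without the constant term -/
def th (A : FI K) (y : InfinitePlace K → ℝ) : ℝ :=
  ∑' a : K, if a ∈ A.1 ∧ a ≠ 0 then gs y a else 0

/-- the ideals `I` with `I * A` principal -/
def Cl (A : FI K) (I : Ideal (𝓞 K)) : Prop :=
  ∃ a : K, (I : FractionalIdeal (𝓞 K)⁰ K) * A.1 = FractionalIdeal.spanSingleton (𝓞 K)⁰ a

/-- zeta function of an ideal class -/
def Zcl (A : FI K) (σ : ℝ) : ℝ := ∑' I : Ideal (𝓞 K), if Cl A I then nm I ^ (-σ) else 0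

/-- the scaling vector in the coordinates given by a fundamental system of units -/
def yy (c : InfinitePlace K → ℝ) : InfinitePlace K → ℝ :=
  fun w => (mixedEmbedding.fundamentalCone.expMapBasis c w) ^ 2

/-- the box for the unit lattice -/
def Box (K : Type) [Field K] [NumberField K] : Set (InfinitePlace K → ℝ) :=
  {c | ∀ i, i ≠ Units.dirichletUnitTheorem.w₀ → c i ∈ Set.Ico (0 : ℝ) 1}

/-- symmetric weight for the unit lattice -/
def bt (c : InfinitePlace K → ℝ) : ℝ :=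
  ((if c ∈ Box K then 1 else 0) + (if -c ∈ Box K then 1 else 0)) / 2

/-- logarithm of the covolume of the scaled lattice -/
def lam (A : FI K) (c : InfinitePlace K → ℝ) : ℝ :=
  Module.finrank ℚ K * c Units.dirichletUnitTheorem.w₀ + Real.log (cov A)

/-- the entire part of the Hecke integral -/
def PP (A : FI K) (s : ℂ) : ℂ :=
  ∫ c in {c | 0 < lam A c}, ((bt c * th A (yy c) : ℝ) : ℂ) * Complex.exp (s * lam A c)

/-- the archimedean factor -/
def gam (K : Type) [Field K] [NumberField K] (σ : ℝ) : ℝ :=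
  (Real.Gamma σ * (2 * π) ^ (-σ)) ^ Fintype.card (InfinitePlace K) * |(discr K : ℝ)| ^ (σ / 2)

end

end

end Vale.Agent.P319E
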