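import Vale.Agent.P319E.Disc

namespace Vale.Agent.P319E

open NumberField Complex MeasureTheory Filter Topology IsDedekindDomain
open scoped Classical Real nonZeroDivisors

noncomputable section

theorem fld_lD {L : Type} [Field L] [NumberField L] {ζ α : L} {m q c : ℕ} (hm : 0 < m)
    (hq : 0 < q) (hc : 1 ≤ c) (hζ : ζ ^ m = 1) (hα : α ^ q = c)
    (h : Algebra.adjoin ℚ {ζ, α} = ⊤) :
    lD L ≤ 3 * (Module.finrank ℚ L : ℝ) ^ 2 * (1 + Real.log c) := by
  have c1 : (1 : ℝ) ≤ c := by exact_mod_cast hc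
  have i1 : IsIntegral ℤ ζ := IsIntegral.of_pow hm (hζ ▸ isIntegral_one)
  have i2 : IsIntegral ℤ α := IsIntegral.of_pow hq (hα ▸ isIntegral_natCast c)
  refine lD_le (S := {x | IsIntegral ℤ x ∧ ∀ φ : L →+* ℂ, ‖φ x‖ ≤ c}) c1 ?_ (fun a ha => ha.1)
    fun a ha => ha.2
  refine top_le_iff.1 ?_
  rw [← Algebra.top_toSubmodule, ← h, Algebra.adjoin_eq_span, Submodule.span_le]
  intro x hx
  obtain ⟨i, j, rfl⟩ := (Submonoid.mem_closure_pair _ _ _).1 hx
  have e : ζ ^ i * α ^ j = ((c : ℚ) ^ (j / q)) • (ζ ^ i * α ^ (j % q)) := by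
    conv_lhs => rw [← Nat.div_add_mod j q, pow_add, pow_mul, hα]
    rw [Algebra.smul_def, map_pow, map_natCast]
    ring
  rw [e]
  refine Submodule.smul_mem _ _ (Submodule.subset_span ⟨(i1.pow _).mul (i2.pow _), fun φ => ?_⟩)
  have a1 : ‖φ ζ‖ = 1 := Complex.norm_eq_one_of_pow_eq_one (by rw [← map_pow, hζ, map_one]) hm.ne'
  have a2 : ‖φ α‖ ^ q = c := by rw [← norm_pow, ← map_pow, hα, map_natCast, Complex.norm_natCast]
  have a3 : 1 ≤ ‖φ α‖ := (one_le_pow_iff_of_nonneg (norm_nonneg _) hq.ne').1 (a2 ▸ c1)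
  rw [map_mul, map_pow, map_pow, norm_mul, norm_pow, norm_pow, a1, one_pow, one_mul, ← a2]
  exact pow_le_pow_right₀ a3 (Nat.mod_lt _ hq).le

theorem fld_top {F E : Type} [Field F] [Field E] [Algebra F E] {S : Set E}
    [FiniteDimensional F (IntermediateField.adjoin F S)]
    {T : Set (IntermediateField.adjoin F S)} (h : S ⊆ Subtype.val '' T) :
    Algebra.adjoin F T = ⊤ := by
  refine IntermediateField.adjoin_eq_top_iff.1 (IntermediateField.lift_injective _ ?_)
  rw [IntermediateField.lift_adjoin, IntermediateField.lift_top]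
  refine le_antisymm (IntermediateField.adjoin_le_iff.2 ?_) (IntermediateField.adjoin.mono _ _ _ h)
  rintro _ ⟨x, -, rfl⟩
  exact x.2

theorem fld_tot {q : ℕ} (hq : q.Prime) (hq2 : q ≠ 2) :
    (Nat.lcm 12 q).totient ≤ 4 * q ∧ q.Coprime (Nat.lcm 12 q).totient := by
  by_cases h3 : q = 3
  · subst h3
    decide
  · have c2 : q.Coprime 2 := (Nat.coprime_primes hq Nat.prime_two).2 hq2
    have c3 : q.Coprime 3 := (Nat.coprime_primes hq Nat.prime_three).2 h3
    have c : Nat.Coprime 12 q := ((c2.pow_right 2).mul_right c3).symm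
    rw [c.lcm_eq_mul, Nat.totient_mul c, Nat.totient_prime hq,
      show Nat.totient 12 = 2 ^ 2 by decide]
    refine ⟨by omega, (c2.pow_right 2).mul_right ?_⟩
    exact (Nat.coprime_self_sub_right hq.one_le).2 (Nat.coprime_one_right _)

theorem fields {p q : ℕ} (hp : p.Prime) (hq : q.Prime) (hq2 : q ≠ 2) :
    ∃ (K L : IntermediateField ℚ ℂ) (_ : NumberField K) (_ : NumberField L) (ζ₀ : K) (ζ α : L),
      IsGalois ℚ L ∧ IsPrimitiveRoot ζ₀ (Nat.lcm 12 q) ∧ IsPrimitiveRoot ζ (Nat.lcm 12 q) ∧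
      α ^ q = p ∧ (∀ τ : L ≃ₐ[ℚ] L, τ ζ = ζ → τ α = α → τ = 1) ∧
      2 * Module.finrank ℚ K ≤ Module.finrank ℚ L ∧ Module.finrank ℚ L ≤ 4 * q ^ 2 ∧
      lD K ≤ 48 * (q : ℝ) ^ 4 * (1 + Real.log p) ∧ lD L ≤ 48 * (q : ℝ) ^ 4 * (1 + Real.log p) := by
  have := Fact.mk hp
  obtain ⟨t1, t2⟩ := fld_tot hq hq2
  have hqm : q ∣ Nat.lcm 12 q := Nat.dvd_lcm_right _ _
  have m0 : 0 < Nat.lcm 12 q := Nat.lcm_pos (by norm_num) hq.pos
  generalize Nat.lcm 12 q = m at *
  have : NeZero m := ⟨m0.ne'⟩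
  obtain ⟨z, hz⟩ : ∃ z : ℂ, IsPrimitiveRoot z m := ⟨_, Complex.isPrimitiveRoot_exp m m0.ne'⟩
  obtain ⟨a, ha⟩ := IsAlgClosed.exists_pow_nat_eq (p : ℂ) hq.pos
  have a0 : a ≠ 0 := fun h => by
    rw [h, zero_pow hq.ne_zero, eq_comm, Nat.cast_eq_zero] at ha
    exact hp.ne_zero ha
  have iz : IsIntegral ℚ z := IsIntegral.of_pow m0 (hz.pow_eq_one ▸ isIntegral_one)
  have ia : IsIntegral ℚ a := IsIntegral.of_pow hq.pos (ha ▸ isIntegral_natCast p)
  have fK := IntermediateField.adjoin.finiteDimensional iz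
  have fL : FiniteDimensional ℚ (IntermediateField.adjoin ℚ ({z, a} : Set ℂ)) :=
    IntermediateField.finiteDimensional_adjoin fun x hx => by
      rcases hx with rfl | rfl
      exacts [iz, ia]
  have nK : NumberField (IntermediateField.adjoin ℚ ({z} : Set ℂ)) := ⟨⟩
  have nL : NumberField (IntermediateField.adjoin ℚ ({z, a} : Set ℂ)) := ⟨⟩
  have zK : z ∈ IntermediateField.adjoin ℚ ({z} : Set ℂ) :=
    IntermediateField.subset_adjoin _ _ (by simp)
  have zL : z ∈ IntermediateField.adjoin ℚ ({z, a} : Set ℂ) :=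
    IntermediateField.subset_adjoin _ _ (by simp)
  have aL : a ∈ IntermediateField.adjoin ℚ ({z, a} : Set ℂ) :=
    IntermediateField.subset_adjoin _ _ (by simp)
  have p1 : IsPrimitiveRoot (⟨z, zK⟩ : IntermediateField.adjoin ℚ ({z} : Set ℂ)) m :=
    IsPrimitiveRoot.coe_submonoidClass_iff.1 hz
  have p2 : IsPrimitiveRoot (⟨z, zL⟩ : IntermediateField.adjoin ℚ ({z, a} : Set ℂ)) m :=
    IsPrimitiveRoot.coe_submonoidClass_iff.1 hz
  have p3 : (⟨a, aL⟩ : IntermediateField.adjoin ℚ ({z, a} : Set ℂ)) ^ q = p :=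
    Subtype.ext (by simpa using ha)
  have tK : Algebra.adjoin ℚ ({⟨z, zK⟩, 1} : Set (IntermediateField.adjoin ℚ ({z} : Set ℂ))) = ⊤ :=
    fld_top (by simp [Set.image_insert_eq])
  have tL : Algebra.adjoin ℚ
      ({⟨z, zL⟩, ⟨a, aL⟩} : Set (IntermediateField.adjoin ℚ ({z, a} : Set ℂ))) = ⊤ :=
    fld_top (by simp [Set.image_insert_eq])
  have d1 : Module.finrank ℚ (IntermediateField.adjoin ℚ ({z} : Set ℂ)) = m.totient := by
    rw [IntermediateField.adjoin.finrank iz, ← Polynomial.cyclotomic_eq_minpoly_rat hz m0,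
      Polynomial.natDegree_cyclotomic]
  have d2 : Module.finrank ℚ (IntermediateField.adjoin ℚ ({a} : Set ℂ)) = q := by
    have irr : Irreducible (Polynomial.X ^ q - Polynomial.C (p : ℚ)) :=
      X_pow_sub_C_irreducible_of_prime hq fun b hb => by
        have := congrArg (padicValRat p) hb
        rw [padicValRat.pow, padicValRat.self hp.one_lt] at this
        exact hq.one_lt.ne' (by exact_mod_cast Int.eq_one_of_mul_eq_one_right (by positivity) this)
    rw [IntermediateField.adjoin.finrank ia, ← minpoly.eq_of_irreducible_of_monic irr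
      (by simp [ha]) (Polynomial.monic_X_pow_sub_C _ hq.ne_zero), Polynomial.natDegree_X_pow_sub_C]
  have d3 : Module.finrank ℚ (IntermediateField.adjoin ℚ ({z, a} : Set ℂ)) ≤ 4 * q ^ 2 := by
    rw [← Set.singleton_union, IntermediateField.adjoin_union]
    refine (IntermediateField.finrank_sup_le _ _).trans ?_
    rw [d1, d2, sq, ← mul_assoc]
    exact Nat.mul_le_mul_right _ t1
  have d4 : 2 * Module.finrank ℚ (IntermediateField.adjoin ℚ ({z} : Set ℂ)) ≤
      Module.finrank ℚ (IntermediateField.adjoin ℚ ({z, a} : Set ℂ)) := by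
    have e1 := IntermediateField.finrank_dvd_of_le_right
      (IntermediateField.adjoin.mono ℚ ({z} : Set ℂ) {z, a} (by simp))
    have e2 := IntermediateField.finrank_dvd_of_le_right
      (IntermediateField.adjoin.mono ℚ ({a} : Set ℂ) {z, a} (by simp))
    rw [d2] at e2
    rw [d1] at e1 ⊢
    exact (Nat.mul_le_mul_right _ hq.two_le).trans
      (Nat.le_of_dvd Module.finrank_pos (t2.mul_dvd_of_dvd_of_dvd e2 e1))
  have lp : 0 ≤ Real.log p := Real.log_natCast_nonneg p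
  have fin : ∀ {n : ℕ} {x y : ℝ}, n ≤ 4 * q ^ 2 → 0 ≤ y → y ≤ Real.log p →
      x ≤ 3 * (n : ℝ) ^ 2 * (1 + y) → x ≤ 48 * (q : ℝ) ^ 4 * (1 + Real.log p) :=
    fun {n x y} hn h0 hy hx => by
      have : (n : ℝ) ≤ 4 * (q : ℝ) ^ 2 := by exact_mod_cast hn
      calc x ≤ _ := hx
        _ ≤ 3 * (4 * (q : ℝ) ^ 2) ^ 2 * (1 + Real.log p) := by gcongr
        _ = _ := by ring
  have nor : Normal ℚ (IntermediateField.adjoin ℚ ({z, a} : Set ℂ)) := by
    have f1 := Polynomial.monic_X_pow_sub_C (1 : ℚ) m0.ne'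
    have f2 := Polynomial.monic_X_pow_sub_C (p : ℚ) hq.ne_zero
    have e : IntermediateField.adjoin ℚ ({z, a} : Set ℂ) = IntermediateField.adjoin ℚ
        (((Polynomial.X ^ m - Polynomial.C 1) * (Polynomial.X ^ q - Polynomial.C (p : ℚ))).rootSet
          ℂ) := by
      refine le_antisymm (IntermediateField.adjoin.mono _ _ _ fun x hx => ?_)
        (IntermediateField.adjoin_le_iff.2 fun x hx => ?_)
      · rw [(f1.mul f2).mem_rootSet]
        rcases hx with rfl | rfl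
        · simp [hz.pow_eq_one]
        · simp [ha]
      · rw [(f1.mul f2).mem_rootSet] at hx
        have hx' : x ^ m = 1 ∨ x ^ q = p := by simpa [sub_eq_zero] using hx
        rcases hx' with h | h
        · obtain ⟨i, -, rfl⟩ := hz.eq_pow_of_pow_eq_one h
          exact pow_mem zL i
        · obtain ⟨c, hc⟩ := hqm
          obtain ⟨i, -, hi⟩ := hz.eq_pow_of_pow_eq_one (ξ := x / a) (by
            rw [hc, pow_mul, div_pow, h, ← ha, div_self (pow_ne_zero _ a0), one_pow])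
          rw [← div_mul_cancel₀ x a0, ← hi]
          exact mul_mem (pow_mem zL i) aL
    rw [e]
    exact Normal.of_isSplittingField _
      (hFEp := IntermediateField.adjoin_rootSet_isSplittingField (IsAlgClosed.splits _))
  refine ⟨_, _, nK, nL, ⟨z, zK⟩, ⟨z, zL⟩, ⟨a, aL⟩, ⟨⟩, p1, p2, p3, fun τ h1 h2 => ?_, d4, d3,
    fin (by omega) (Real.log_natCast_nonneg 1) (by simpa using lp)
      (fld_lD (c := 1) m0 one_pos le_rfl p1.pow_eq_one (by simp) tK),
    fin d3 lp le_rfl (fld_lD m0 hq.pos hp.one_le p2.pow_eq_one p3 tL)⟩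
  refine AlgEquiv.coe_toAlgHom_injective (AlgHom.ext_of_adjoin_eq_top tL ?_)
  rintro x (rfl | rfl)
  exacts [h1, h2]

end

end Vale.Agent.P319E
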