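import Vale.Agent.P319E.Defs
import Vale.Agent.P026.Wb
import Vale.Agent.P026.GamB

namespace Vale.Agent.P319E

open NumberField Complex MeasureTheory Filter Topology IsDedekindDomain
open scoped Classical Real nonZeroDivisors

noncomputable section

theorem Wr_pos (x : ℝ) : 0 < Wr x := Real.exp_pos _

theorem Wr_le_one (x : ℝ) : Wr x ≤ 1 := by
  unfold Wr
  rw [Real.exp_le_one_iff]
  nlinarith [sq_nonneg (Real.log x)]

theorem Wr_le (a : ℝ) {x : ℝ} (hx : 0 < x) : Wr x ≤ Real.exp (a ^ 2 / 4) * x ^ (-a) := by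
  unfold Wr
  rw [Real.rpow_def_of_pos hx, ← Real.exp_add, Real.exp_le_exp]
  nlinarith [sq_nonneg (Real.log x - a / 2)]

theorem W_eq (x : ℝ) : Vale.Agent.P026.W 0 x = (Wr x : ℂ) := by
  simp [Vale.Agent.P026.W, Wr]

theorem norm_Phi {X : ℝ} (hX : 0 < X) (s : ℂ) :
    ‖Phi X s‖ = √π * Real.exp ((s.re ^ 2 - s.im ^ 2) / 4) * X ^ s.re := by
  unfold Phi
  rw [norm_mul, norm_mul, norm_cpow_eq_rpow_re_of_pos hX, Complex.norm_exp, Complex.norm_real,
    Real.norm_of_nonneg (Real.sqrt_nonneg _)]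
  congr 3
  have : (s ^ 2 / 4).re = (s ^ 2).re / 4 := by
    rw [show (4 : ℂ) = ((4 : ℝ) : ℂ) by norm_num, Complex.div_ofReal_re]
  rw [this, sq, mul_re]; ring

theorem differentiable_Phi {X : ℝ} (hX : 0 < X) : Differentiable ℂ (Phi X) := by
  unfold Phi
  have h : Differentiable ℂ fun s : ℂ => (X : ℂ) ^ s := fun s =>
    differentiableAt_id.const_cpow (Or.inl (ofReal_ne_zero.2 hX.ne'))
  exact (by fun_prop : Differentiable ℂ fun s : ℂ => ((√π : ℝ) : ℂ) * cexp (s ^ 2 / 4)).mul h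

theorem mel_inv {y X : ℝ} (hy : 0 < y) (hX : 0 < X) :
    (Wr (y / X) : ℂ) = 1 / (2 * π) * ∫ τ : ℝ, (y : ℂ) ^ (-(2 + τ * I)) * Phi X (2 + τ * I) := by
  rw [← W_eq, Vale.Agent.P026.W_inv_mellin 0 2 (div_pos hy hX)]
  congr 1
  refine integral_congr_ae (.of_forall fun τ => ?_)
  have e : ((y / X : ℝ) : ℂ) ^ (-((2 : ℝ) + τ * I : ℂ)) =
      (y : ℂ) ^ (-(2 + τ * I : ℂ)) * (X : ℂ) ^ (2 + τ * I : ℂ) := by
    rw [Vale.Agent.P026.wb_cpow (div_pos hy hX), Vale.Agent.P026.wb_cpow hy,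
      Vale.Agent.P026.wb_cpow hX, ← Complex.exp_add, Real.log_div hy.ne' hX.ne']
    congr 1; push_cast; ring
  simp only [e, Phi, add_zero]
  push_cast; ring

theorem mel_cont {X : ℝ} (hX : 0 < X) : Continuous fun τ : ℝ => Phi X (2 + τ * I) :=
  (differentiable_Phi hX).continuous.comp (by fun_prop)

theorem mel_norm {X : ℝ} (hX : 0 < X) (τ : ℝ) :
    ‖Phi X (2 + τ * I)‖ = √π * Real.exp 1 * X ^ (2 : ℝ) * Real.exp (-(1 / 4) * τ ^ 2) := by
  rw [norm_Phi hX]
  have h1 : (2 + τ * I : ℂ).re = 2 := by simp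
  have h2 : (2 + τ * I : ℂ).im = τ := by simp
  rw [h1, h2, show ((2 : ℝ) ^ 2 - τ ^ 2) / 4 = 1 + -(1 / 4) * τ ^ 2 by ring, Real.exp_add]; ring

theorem mel_int {X : ℝ} (hX : 0 < X) : Integrable fun τ : ℝ => Phi X (2 + τ * I) := by
  refine ((integrable_exp_neg_mul_sq (b := 1 / 4) (by norm_num)).const_mul
    (√π * Real.exp 1 * X ^ (2 : ℝ))).mono' (mel_cont hX).aestronglyMeasurable
    (.of_forall fun τ => (mel_norm hX τ).le)

theorem mel_ncpow {y : ℝ} (hy : 0 < y) (τ : ℝ) :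
    ‖(y : ℂ) ^ (-(2 + τ * I : ℂ))‖ = y ^ (-(2 : ℝ)) := by
  rw [norm_cpow_eq_rpow_re_of_pos hy]; simp

theorem mel_ccont {y : ℝ} (hy : 0 < y) : Continuous fun τ : ℝ => (y : ℂ) ^ (-(2 + τ * I : ℂ)) :=
  Continuous.const_cpow (by fun_prop) (Or.inl (ofReal_ne_zero.2 hy.ne'))

theorem mellin_sum {ι : Type} [Countable ι] {a : ι → ℂ} {y : ι → ℝ} (hy : ∀ i, 0 < y i)
    (hs : Summable fun i => ‖a i‖ * y i ^ (-(2 : ℝ))) {X : ℝ} (hX : 0 < X) :
    Summable (fun i => ‖a i‖ * Wr (y i / X)) ∧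
    Integrable (fun τ : ℝ => (∑' i, a i * (y i : ℂ) ^ (-(2 + τ * I))) * Phi X (2 + τ * I)) ∧
    ∑' i, a i * (Wr (y i / X) : ℂ) =
      1 / (2 * π) * ∫ τ : ℝ, (∑' i, a i * (y i : ℂ) ^ (-(2 + τ * I))) * Phi X (2 + τ * I) := by
  have nrm : ∀ i (τ : ℝ), ‖a i * (y i : ℂ) ^ (-(2 + τ * I : ℂ))‖ = ‖a i‖ * y i ^ (-(2 : ℝ)) :=
    fun i τ => by rw [norm_mul, mel_ncpow (hy i)]
  have cont : Continuous fun τ : ℝ => ∑' i, a i * (y i : ℂ) ^ (-(2 + τ * I : ℂ)) :=
    continuous_tsum (fun i => continuous_const.mul (mel_ccont (hy i))) hs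
      fun i τ => (nrm i τ).le
  refine ⟨?_, ?_, ?_⟩
  · refine (hs.mul_left (Real.exp (2 ^ 2 / 4) * X ^ (2 : ℝ))).of_nonneg_of_le
      (fun i => mul_nonneg (norm_nonneg _) (Wr_pos _).le) fun i => ?_
    have h := Wr_le 2 (div_pos (hy i) hX)
    rw [Vale.Agent.P026.wb_div (hy i).le hX] at h
    calc ‖a i‖ * Wr (y i / X) ≤ ‖a i‖ * (Real.exp (2 ^ 2 / 4) * (X ^ (2 : ℝ) * y i ^ (-(2 : ℝ)))) :=
          mul_le_mul_of_nonneg_left h (norm_nonneg _)
      _ = _ := by ring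
  · refine (mel_int hX).bdd_mul (c := ∑' i, ‖a i‖ * y i ^ (-(2 : ℝ))) cont.aestronglyMeasurable
      (.of_forall fun τ => ?_)
    refine (norm_tsum_le_tsum_norm ?_).trans (le_of_eq (tsum_congr fun i => nrm i τ))
    simpa only [nrm] using hs
  · set F : ι → ℝ → ℂ := fun i τ => a i * (y i : ℂ) ^ (-(2 + τ * I : ℂ)) * Phi X (2 + τ * I)
      with hF
    have it : ∀ i, Integrable (F i) := fun i =>
      (mel_int hX).bdd_mul (c := ‖a i‖ * y i ^ (-(2 : ℝ)))
        (continuous_const.mul (mel_ccont (hy i))).aestronglyMeasurable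
        (.of_forall fun τ => (nrm i τ).le)
    have sm : Summable fun i => ∫ τ, ‖F i τ‖ := by
      refine (hs.mul_right (∫ τ : ℝ, ‖Phi X (2 + τ * I)‖)).congr fun i => ?_
      simp only [hF, norm_mul (a i * _), nrm, integral_const_mul]
    have h := (hasSum_integral_of_summable_integral_norm it sm).tsum_eq
    simp only [hF, tsum_mul_right] at h
    rw [← h, ← tsum_mul_left]
    refine tsum_congr fun i => ?_
    rw [mel_inv (hy i) hX]
    simp only [mul_assoc (a i), integral_const_mul]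
    ring

theorem mel_Wint {X : ℝ} (hX : 0 < X) : IntegrableOn (fun x => Wr (x / X)) (Set.Ioi (1 : ℝ)) := by
  have h1 : IntegrableOn (fun x : ℝ => Real.exp (2 ^ 2 / 4) * X ^ (2 : ℝ) * x ^ (-(2 : ℝ)))
      (Set.Ioi (1 : ℝ)) := (integrableOn_Ioi_rpow_of_lt (by norm_num) one_pos).const_mul _
  refine h1.mono' ?_ ((ae_restrict_iff' measurableSet_Ioi).2 (.of_forall fun x hx => ?_))
  · refine Measurable.aestronglyMeasurable ?_
    unfold Wr; fun_prop
  · have hx0 : 0 < x := one_pos.trans hx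
    have h := Wr_le 2 (div_pos hx0 hX)
    rw [Vale.Agent.P026.wb_div hx0.le hX] at h
    rw [Real.norm_of_nonneg (Wr_pos _).le]
    exact h.trans (le_of_eq (by ring))

theorem main_eq {X : ℝ} (hX : 0 < X) :
    Integrable (fun τ : ℝ => 1 / (2 + τ * I - 1) * Phi X (2 + τ * I)) ∧
    (Main X : ℂ) = 1 / (2 * π) * ∫ τ : ℝ, 1 / (2 + τ * I - 1) * Phi X (2 + τ * I) := by
  have ne : ∀ τ : ℝ, (2 + τ * I - 1 : ℂ) ≠ 0 := fun τ h => by
    have := congrArg Complex.re h; simp at this; norm_num at this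
  constructor
  · refine (mel_int hX).bdd_mul (c := 1) ?_ (.of_forall fun τ => ?_)
    · exact (Continuous.div continuous_const (by fun_prop) ne).aestronglyMeasurable
    · rw [norm_div, norm_one]
      refine div_le_one_of_le₀ ?_ (norm_nonneg _)
      refine le_trans (le_of_eq ?_) (re_le_norm _)
      simp; norm_num
  · have e1 : (Main X : ℂ) = ∫ x in Set.Ioi (1 : ℝ), 1 / (2 * π) *
        ∫ τ : ℝ, (x : ℂ) ^ (-(2 + τ * I)) * Phi X (2 + τ * I) := by
      unfold Main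
      rw [← integral_complex_ofReal]
      exact setIntegral_congr_fun measurableSet_Ioi fun x hx => mel_inv (one_pos.trans hx) hX
    rw [e1, integral_const_mul]
    congr 1
    rw [integral_integral_swap]
    · refine integral_congr_ae (.of_forall fun τ => ?_)
      simp only [integral_mul_const]
      congr 1
      rw [integral_Ioi_cpow_of_lt (by simp) one_pos]
      simp only [ofReal_one, one_cpow]
      rw [show -(2 + (τ : ℂ) * I) + 1 = -(2 + τ * I - 1) by ring, neg_div_neg_eq]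
    · have hp := ((integrableOn_Ioi_rpow_of_lt (a := -2) (by norm_num) one_pos).mul_prod
        (mel_int hX).norm)
      refine hp.mono' ?_ ?_
      · refine Measurable.aestronglyMeasurable ?_
        exact ((measurable_ofReal.comp measurable_fst).pow (by fun_prop)).mul
          ((mel_cont hX).measurable.comp measurable_snd)
      · have : ∀ᵐ z : ℝ × ℝ ∂((volume.restrict (Set.Ioi (1 : ℝ))).prod volume), 1 < z.1 :=
          Measure.quasiMeasurePreserving_fst.ae
            ((ae_restrict_iff' measurableSet_Ioi).2 (.of_forall fun x hx => hx))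
        filter_upwards [this] with z hz
        simp only [Function.uncurry]
        rw [norm_mul, mel_ncpow (one_pos.trans hz)]

theorem main_ge {X : ℝ} (hX : 1 ≤ X) : X / 2 ≤ Main X := by
  have hX0 : 0 < X := one_pos.trans_le hX
  have h1 : ∫ x in Set.Ioc X (2 * X), Wr (x / X) ≤ Main X :=
    setIntegral_mono_set (mel_Wint hX0) (.of_forall fun x => (Wr_pos _).le)
      (LE.le.eventuallyLE fun x hx => lt_of_le_of_lt hX hx.1)
  refine le_trans ?_ h1
  have h2 : ∫ _ in Set.Ioc X (2 * X), (1 / 2 : ℝ) = X / 2 := by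
    rw [setIntegral_const, Real.volume_real_Ioc_of_le (by linarith), smul_eq_mul]; ring
  rw [← h2]
  refine setIntegral_mono_on (by simp) ((mel_Wint hX0).mono_set
    fun x hx => lt_of_le_of_lt hX hx.1) measurableSet_Ioc fun x hx => ?_
  have a1 : 1 ≤ x / X := (one_le_div hX0).2 hx.1.le
  have a2 : x / X ≤ 2 := (div_le_iff₀ hX0).2 hx.2
  have l0 : 0 ≤ Real.log (x / X) := Real.log_nonneg a1
  have l1 : Real.log (x / X) ≤ Real.log 2 := Real.log_le_log (by linarith) a2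
  have l2 := Real.log_two_lt_d9
  unfold Wr
  rw [show (1 / 2 : ℝ) = Real.exp (-Real.log 2) by
    rw [Real.exp_neg, Real.exp_log two_pos]; norm_num, Real.exp_le_exp]
  nlinarith

end

end Vale.Agent.P319E
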