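import Vale.Agent.P319E.Mel

namespace Vale.Agent.P319E

open Complex MeasureTheory Filter Topology
open scoped Classical Real

noncomputable section

theorem tl_term {X : ℝ} (hX : 0 < X) (a : ℝ) {l : ℕ} (hl : l ≠ 0) :
    Real.log l * Wr (l / X) ≤ Real.exp (a ^ 2 / 4) * X ^ a * (l : ℝ) ^ (1 - a) := by
  have l0 : (0 : ℝ) < l := by positivity
  have h := Wr_le a (div_pos l0 hX)
  rw [Vale.Agent.P026.wb_div l0.le hX] at h
  have h2 : Real.log l ≤ l := (Real.log_le_sub_one_of_pos l0).trans (by linarith)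
  calc Real.log l * Wr (l / X) ≤ l * (Real.exp (a ^ 2 / 4) * (X ^ a * (l : ℝ) ^ (-a))) :=
        mul_le_mul h2 h (Wr_pos _).le l0.le
    _ = _ := by rw [sub_eq_add_neg, Real.rpow_add l0, Real.rpow_one]; ring

theorem tl_nonneg (X : ℝ) (l : ℕ) : 0 ≤ Real.log l * Wr (l / X) :=
  mul_nonneg (Real.log_natCast_nonneg l) (Wr_pos _).le

theorem tl_summable {X : ℝ} (hX : 0 < X) : Summable fun l : ℕ => Real.log l * Wr (l / X) := by
  refine (((Real.summable_nat_rpow (p := 1 - 3)).2 (by norm_num)).mul_left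
    (Real.exp (3 ^ 2 / 4) * X ^ (3 : ℝ))).of_nonneg_of_le (tl_nonneg X) fun l => ?_
  rcases eq_or_ne l 0 with rfl | hl
  · simp; positivity
  · exact tl_term hX 3 hl

theorem tl_tail : ∃ C : ℝ, 0 < C ∧ ∀ X : ℝ, 1 ≤ X →
    ∑' l : ℕ, (if X ^ 3 < (l : ℝ) then Real.log l * Wr (l / X) else 0) ≤ C := by
  have hs := ((Real.summable_nat_rpow (p := -(3 / 2))).2 (by norm_num)).mul_left
    (Real.exp (4 ^ 2 / 4))
  refine ⟨(∑' l : ℕ, Real.exp (4 ^ 2 / 4) * (l : ℝ) ^ (-(3 / 2) : ℝ)) + 1,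
    add_pos_of_nonneg_of_pos (tsum_nonneg fun l => by positivity) one_pos, fun X hX => ?_⟩
  have hX0 : 0 < X := one_pos.trans_le hX
  have le : ∀ l : ℕ, (if X ^ 3 < (l : ℝ) then Real.log l * Wr (l / X) else 0) ≤
      Real.exp (4 ^ 2 / 4) * (l : ℝ) ^ (-(3 / 2) : ℝ) := fun l => by
    split_ifs with h
    · have l0 : (0 : ℝ) < l := (pow_pos hX0 3).trans h
      refine (tl_term hX0 4 (by exact_mod_cast l0.ne')).trans ?_
      rw [mul_assoc]
      refine mul_le_mul_of_nonneg_left ?_ (Real.exp_pos _).le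
      have h1 : X ^ (4 : ℝ) ≤ (l : ℝ) ^ (3 / 2 : ℝ) := by
        calc X ^ (4 : ℝ) ≤ X ^ ((3 : ℕ) * (3 / 2) : ℝ) :=
              Real.rpow_le_rpow_of_exponent_le hX (by norm_num)
          _ = (X ^ 3) ^ (3 / 2 : ℝ) := by rw [Real.rpow_mul hX0.le, Real.rpow_natCast]
          _ ≤ _ := Real.rpow_le_rpow (by positivity) h.le (by norm_num)
      calc X ^ (4 : ℝ) * (l : ℝ) ^ (1 - 4 : ℝ) ≤ (l : ℝ) ^ (3 / 2 : ℝ) * (l : ℝ) ^ (1 - 4 : ℝ) := by
            gcongr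
        _ = _ := by rw [← Real.rpow_add l0]; norm_num
    · positivity
  have nn : ∀ l : ℕ, 0 ≤ (if X ^ 3 < (l : ℝ) then Real.log l * Wr (l / X) else 0) := fun l => by
    split_ifs
    · exact tl_nonneg X l
    · exact le_rfl
  exact ((hs.of_nonneg_of_le nn le).tsum_le_tsum le hs).trans (by linarith)

theorem tl_num {c C σ : ℝ} (hc : 0 < c) (hσ : σ < 1) (e : ℕ) : ∃ a : ℕ, ∀ N : ℝ, 2 ≤ N →
    C * N ^ e * (N ^ a) ^ σ < c * N ^ a := by
  obtain ⟨b, hb⟩ := pow_unbounded_of_one_lt (C / c) (one_lt_two (α := ℝ))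
  obtain ⟨a, ha⟩ := exists_nat_ge (((e + b : ℕ) : ℝ) / (1 - σ))
  refine ⟨a, fun N hN => ?_⟩
  have N0 : 0 < N := by linarith
  have h1 : ((e + b : ℕ) : ℝ) ≤ a * (1 - σ) := (div_le_iff₀ (by linarith)).1 ha
  have h2 : N ^ e * 2 ^ b ≤ (N ^ a) ^ (1 - σ) := by
    calc N ^ e * 2 ^ b ≤ N ^ e * N ^ b := by gcongr
      _ = N ^ ((e + b : ℕ) : ℝ) := by rw [Real.rpow_natCast, pow_add]
      _ ≤ N ^ (a * (1 - σ)) := Real.rpow_le_rpow_of_exponent_le (by linarith) h1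
      _ = _ := by rw [Real.rpow_mul N0.le, Real.rpow_natCast]
  have h3 : C < c * 2 ^ b := by rw [div_lt_iff₀ hc] at hb; linarith
  have p1 : 0 < (N ^ a) ^ σ := by positivity
  have p2 : 0 < N ^ e := by positivity
  have e1 : N ^ a = (N ^ a) ^ (1 - σ) * (N ^ a) ^ σ := by
    rw [← Real.rpow_add (by positivity)]; simp
  calc C * N ^ e * (N ^ a) ^ σ < c * 2 ^ b * N ^ e * (N ^ a) ^ σ := by gcongr
    _ = c * ((N ^ e * 2 ^ b) * (N ^ a) ^ σ) := by ring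
    _ ≤ c * ((N ^ a) ^ (1 - σ) * (N ^ a) ^ σ) := by gcongr
    _ = _ := by rw [← e1]

theorem tl_log {p : ℕ} (hp : p ≠ 0) : Real.log p ≤ Nat.log 2 p + 1 := by
  have h : p < 2 ^ (Nat.log 2 p + 1) := Nat.lt_pow_succ_log_self one_lt_two p
  have h2 : (p : ℝ) ≤ 2 ^ (Nat.log 2 p + 1) := by exact_mod_cast h.le
  have h3 := Real.log_le_log (by positivity) h2
  rw [Real.log_pow] at h3
  have := Real.log_two_lt_d9
  push_cast at h3
  have : (0 : ℝ) ≤ Nat.log 2 p := by positivity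
  nlinarith

end

end Vale.Agent.P319E
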