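import Vale.Agent.P319E.Eul
import Vale.Agent.P319E.Mel
import Vale.Agent.P319E.Tail

namespace Vale.Agent.P319E

open NumberField Complex MeasureTheory Filter Topology IsDedekindDomain
open scoped Classical Real nonZeroDivisors

noncomputable section

theorem summable_Ap {X : ℝ} (hX : 0 < X) : Summable fun l : ℕ => Real.log l * Wr (l / X) :=
  tl_summable hX

theorem psib_nonneg {K : Type} [Field K] [NumberField K] (X : ℝ)
    (p : HeightOneSpectrum (𝓞 K) × ℕ) :
    0 ≤ Real.log (nm p.1.asIdeal) * Wr (nm p.1.asIdeal ^ (p.2 + 1) / X) :=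
  mul_nonneg (Real.log_nonneg (one_le_nm p.1.ne_bot)) (Wr_pos _).le

theorem psib_summ {K : Type} [Field K] [NumberField K] {X : ℝ} (hX : 0 < X) :
    Summable fun p : HeightOneSpectrum (𝓞 K) × ℕ =>
      Real.log (nm p.1.asIdeal) * Wr (nm p.1.asIdeal ^ (p.2 + 1) / X) := by
  refine ((summable_L (K := K) one_lt_two).mul_left
    (Real.exp (2 ^ 2 / 4) * X ^ (2 : ℝ))).of_nonneg_of_le (psib_nonneg X) fun p => ?_
  have n1 := one_le_nm p.1.ne_bot
  have h := Wr_le 2 (x := nm p.1.asIdeal ^ (p.2 + 1) / X) (by positivity)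
  rw [Vale.Agent.P026.wb_div (by positivity) hX] at h
  exact (mul_le_mul_of_nonneg_left h (Real.log_nonneg n1)).trans (le_of_eq (by ring))

theorem psib_term {N X : ℝ} (hN : 1 ≤ N) (hX : 0 < X) (k : ℕ) :
    Real.log N * Wr (N ^ k / X) ≤
      8 * Real.exp ((3 / 4) ^ 2 / 4) * X ^ (3 / 4 : ℝ) * N ^ (1 / 8 - 3 / 4 * k : ℝ) := by
  have N0 : 0 < N := by linarith
  have h := Wr_le (3 / 4) (x := N ^ k / X) (by positivity)
  rw [Vale.Agent.P026.wb_div (by positivity) hX, ← Real.rpow_natCast, ← Real.rpow_mul N0.le] at h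
  rw [← Real.rpow_natCast]
  refine (mul_le_mul (Real.log_le_rpow_div N0.le (show (0 : ℝ) < 1 / 8 by norm_num)) h (Wr_pos _).le
    (by positivity)).trans (le_of_eq ?_)
  rw [sub_eq_add_neg, Real.rpow_add N0, show (k : ℝ) * -(3 / 4) = -(3 / 4 * k) by ring]
  ring

theorem psib_dvd {K : Type} [Field K] [NumberField K] {m : ℕ} {ζ : K} (hm : 0 < m)
    (hζ : IsPrimitiveRoot ζ m) (P : HeightOneSpectrum (𝓞 K))
    (h : (Ideal.absNorm P.asIdeal).Coprime m) : m ∣ Ideal.absNorm P.asIdeal - 1 := by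
  have : NeZero m := ⟨hm.ne'⟩
  have := P.isMaximal
  have h1 : Ideal.absNorm P.asIdeal ≠ 1 := Ideal.absNorm_eq_one_iff.not.2 P.isPrime.ne_top
  have h2 := hζ.toInteger_isPrimitiveRoot.idealQuotient_mk h1 h
  let _ := Ideal.Quotient.field P.asIdeal
  have : Finite (𝓞 K ⧸ P.asIdeal) := Ideal.finiteQuotientOfFreeOfNeBot _ P.ne_bot
  let _ := Fintype.ofFinite (𝓞 K ⧸ P.asIdeal)
  rw [Ideal.absNorm_apply, Submodule.cardQuot_apply, Nat.card_eq_fintype_card]
  exact h2.dvd_of_pow_eq_one _ (FiniteField.pow_card_sub_one_eq_one _ (h2.ne_zero hm.ne'))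

theorem psi_upper : ∃ C : ℝ, 0 < C ∧ ∀ (K : Type) [Field K] [NumberField K] (m : ℕ) (ζ : K),
    0 < m → IsPrimitiveRoot ζ m → ∀ X : ℝ, 1 ≤ X →
      Psi K X ≤ Module.finrank ℚ K * Ap m X + C * Module.finrank ℚ K * m * X ^ (3 / 4 : ℝ) := by
  obtain ⟨r, hr⟩ : ∃ r : ℝ, r = 2 ^ (-(3 / 4) : ℝ) := ⟨_, rfl⟩
  have r0 : 0 ≤ r := by rw [hr]; positivity
  have r1 : r < 1 := hr ▸ Real.rpow_lt_one_of_one_lt_of_neg one_lt_two (by norm_num)
  have r2 : 0 < (1 - r)⁻¹ := inv_pos.2 (by linarith)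
  have s1 := (Real.summable_nat_rpow (p := -(5 / 4))).2 (by norm_num)
  obtain ⟨S, hS⟩ : ∃ S, S = ∑' l : ℕ, (l : ℝ) ^ (-(5 / 4) : ℝ) := ⟨_, rfl⟩
  have S0 : 0 ≤ S := hS ▸ tsum_nonneg fun _ => by positivity
  obtain ⟨c, hc⟩ : ∃ c : ℝ, c = 8 * Real.exp ((3 / 4) ^ 2 / 4) := ⟨_, rfl⟩
  have c0 : 0 < c := by rw [hc]; positivity
  refine ⟨c * (1 + (1 + (1 - r)⁻¹) * S), by positivity, fun K _ _ m ζ hm hζ X hX => ?_⟩
  have X0 : 0 < X := by linarith
  have sm := psib_summ (K := K) X0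
  have a0 : ∀ l : ℕ, 0 ≤ (if l.Prime ∧ m ∣ l - 1 then Real.log l * Wr (l / X) else 0) := fun l => by
    split_ifs
    exacts [tl_nonneg X l, le_rfl]
  have s2 : Summable fun l : ℕ => if l.Prime ∧ m ∣ l - 1 then Real.log l * Wr (l / X) else 0 :=
    (tl_summable X0).of_nonneg_of_le a0 fun l => by
      split_ifs
      exacts [le_rfl, tl_nonneg X l]
  have s3 := hasSum_sum_of_ne_finset_zero (L := SummationFilter.unconditional ℕ)
    (f := fun l : ℕ => if l ∣ m then (1 : ℝ) else 0) (s := m.divisors)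
    fun l hl => if_neg fun c => hl (Nat.mem_divisors.2 ⟨c, hm.ne'⟩)
  have s4 := s2.hasSum.add ((s3.add (s1.hasSum.mul_left (1 + (1 - r)⁻¹))).mul_left
    (c * X ^ (3 / 4 : ℝ)))
  have key := (fib (K := K) (F := fun P => ∑' k : ℕ, Real.log (nm P.asIdeal) *
    Wr (nm P.asIdeal ^ (k + 1) / X)) (fun P => tsum_nonneg fun k => psib_nonneg X (P, k))
    (fun l => add_nonneg (a0 l) (by positivity)) s4.summable fun P => by
      obtain ⟨l, f, h1, h2, h3, -⟩ := absNorm_prime P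
      have e1 : (Ideal.absNorm P.asIdeal).minFac = l := by rw [h3, h1.pow_minFac (by omega)]
      have l1 : (1 : ℝ) ≤ l := by exact_mod_cast h1.one_le
      have n1 := (eul_minFac P).2.2
      have n2 := eul_two_le P
      rw [e1] at n1 ⊢
      rw [(sm.prod_factor P).tsum_eq_zero_add]
      have t1 : ∑' k : ℕ, Real.log (nm P.asIdeal) * Wr (nm P.asIdeal ^ (k + 1 + 1) / X) ≤
          c * X ^ (3 / 4 : ℝ) * (l : ℝ) ^ (-(5 / 4) : ℝ) * (1 - r)⁻¹ := by
        refine hasSum_le (fun k => (psib_term (by linarith) X0 _).trans ?_)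
          ((summable_nat_add_iff 1).2 (sm.prod_factor P)).hasSum
          ((hasSum_geometric_of_lt_one r0 r1).mul_left _)
        rw [← hc, mul_assoc _ _ (r ^ k), show (1 / 8 - 3 / 4 * ((k + 1 + 1 : ℕ) : ℝ) : ℝ) =
          -(11 / 8) + -(3 / 4) * k by push_cast; ring, Real.rpow_add (by linarith),
          Real.rpow_mul (by linarith), Real.rpow_natCast, hr]
        gcongr _ * (?_ * ?_ ^ k)
        · exact (Real.rpow_le_rpow_of_nonpos (by linarith) n1 (by norm_num)).trans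
            (Real.rpow_le_rpow_of_exponent_le l1 (by norm_num))
        · exact Real.rpow_le_rpow_of_nonpos two_pos n2 (by norm_num)
      have t2 := psib_term (N := nm P.asIdeal) (by linarith) X0 (0 + 1)
      rw [← hc, show (1 / 8 - 3 / 4 * ((0 + 1 : ℕ) : ℝ) : ℝ) = -(5 / 8) by norm_num] at t2
      have p0 : 0 ≤ c * X ^ (3 / 4 : ℝ) := by positivity
      have p1 : 0 ≤ c * X ^ (3 / 4 : ℝ) * (l : ℝ) ^ (-(5 / 4) : ℝ) := by positivity
      have p2 := a0 l
      by_cases k1 : l ∣ m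
      · have := mul_le_mul_of_nonneg_left (Real.rpow_le_one_of_one_le_of_nonpos
          (show 1 ≤ nm P.asIdeal by linarith) (show (-(5 / 8) : ℝ) ≤ 0 by norm_num)) p0
        rw [if_pos k1]
        linarith
      rw [if_neg k1]
      by_cases k2 : f = 1
      · rw [k2, pow_one] at h3
        have k3 := psib_dvd hm hζ P (h3 ▸ (h1.coprime_iff_not_dvd.2 k1))
        rw [h3] at k3
        have k4 : Real.log (nm P.asIdeal) * Wr (nm P.asIdeal ^ (0 + 1) / X) =
            Real.log l * Wr (l / X) := by rw [zero_add, pow_one, nm, h3]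
        rw [if_pos ⟨h1, k3⟩]
        linarith
      · have k3 : nm P.asIdeal ^ (-(5 / 8) : ℝ) ≤ (l : ℝ) ^ (-(5 / 4) : ℝ) := by
          rw [nm, h3, Nat.cast_pow, ← Real.rpow_natCast, ← Real.rpow_mul (by linarith)]
          have : (2 : ℝ) ≤ f := by exact_mod_cast (show 2 ≤ f by omega)
          exact Real.rpow_le_rpow_of_exponent_le l1 (by linarith)
        have := mul_le_mul_of_nonneg_left k3 p0
        linarith).2
  rw [s4.tsum_eq, ← hS] at key
  rw [Psi, sm.tsum_prod, Ap]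
  refine key.trans ?_
  have m1 : (1 : ℝ) ≤ m := by exact_mod_cast hm
  have d : ∑ l ∈ m.divisors, (if l ∣ m then (1 : ℝ) else 0) ≤ m := by
    rw [Finset.sum_congr rfl fun l hl => if_pos (Nat.dvd_of_mem_divisors hl), Finset.sum_const,
      nsmul_eq_mul, mul_one]
    exact_mod_cast Nat.card_divisors_le_self m
  rw [mul_add]
  refine add_le_add le_rfl ?_
  calc _ ≤ Module.finrank ℚ K * (c * X ^ (3 / 4 : ℝ) * (m + (1 + (1 - r)⁻¹) * S * m)) := by
        gcongr _ * (_ * (?_ + ?_))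
        exact le_mul_of_one_le_right (by positivity) m1
    _ = _ := by ring

theorem psi_lower {K : Type} [Field K] [NumberField K] {S : ℕ → Prop} {N : ℕ}
    (hS : ∀ l, S l → l.Prime ∧
      N ≤ {P : HeightOneSpectrum (𝓞 K) | Ideal.absNorm P.asIdeal = l}.ncard)
    {X : ℝ} (hX : 0 < X) :
    N * ∑' l : ℕ, (if S l then Real.log l * Wr (l / X) else 0) ≤ Psi K X := by
  have fin : ∀ l : ℕ, {P : HeightOneSpectrum (𝓞 K) | Ideal.absNorm P.asIdeal = l}.Finite := fun l =>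
    (card_above l.minFac).1.subset fun P hP => congrArg Nat.minFac hP
  rw [← tsum_mul_left]
  refine Real.tsum_le_of_sum_le (fun l => mul_nonneg (Nat.cast_nonneg _) ?_) fun u => ?_
  · split_ifs
    exacts [tl_nonneg X l, le_rfl]
  calc _ ≤ ∑ l ∈ u, ∑ P ∈ (fin l).toFinset,
        Real.log (nm P.asIdeal) * Wr (nm P.asIdeal ^ (0 + 1) / X) := by
        refine Finset.sum_le_sum fun l _ => ?_
        rw [Finset.sum_congr rfl fun P hP => by
          rw [zero_add, pow_one, show nm P.asIdeal = l by rw [nm, (fin l).mem_toFinset.1 hP]],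
          Finset.sum_const, nsmul_eq_mul, ← Set.ncard_eq_toFinset_card _ (fin l)]
        split_ifs with h
        · exact mul_le_mul_of_nonneg_right (Nat.cast_le.2 (hS l h).2) (tl_nonneg X l)
        · rw [mul_zero]; exact mul_nonneg (Nat.cast_nonneg _) (tl_nonneg X l)
    _ ≤ _ := by
        rw [Finset.sum_sigma', ← Finset.sum_image (f := fun p : HeightOneSpectrum (𝓞 K) × ℕ =>
          Real.log (nm p.1.asIdeal) * Wr (nm p.1.asIdeal ^ (p.2 + 1) / X))
          (g := fun x : Σ _ : ℕ, HeightOneSpectrum (𝓞 K) => (x.2, 0))]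
        · exact (psib_summ hX).sum_le_tsum _ fun p _ => psib_nonneg X p
        · rintro ⟨a, P⟩ h1 ⟨b, Q⟩ h2 h
          obtain rfl : P = Q := (Prod.ext_iff.1 h).1
          obtain rfl : a = b := ((fin a).mem_toFinset.1 (Finset.mem_sigma.1 h1).2).symm.trans
            ((fin b).mem_toFinset.1 (Finset.mem_sigma.1 h2).2)
          rfl

theorem tail_Ap : ∃ C : ℝ, 0 < C ∧ ∀ X : ℝ, 1 ≤ X →
    ∑' l : ℕ, (if X ^ 3 < (l : ℝ) then Real.log l * Wr (l / X) else 0) ≤ C := tl_tail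

end

end Vale.Agent.P319E
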