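import Vale.Agent.P319E.Eul

namespace Vale.Agent.P319E

open NumberField Complex MeasureTheory Filter Topology IsDedekindDomain
open scoped Classical Real nonZeroDivisors

noncomputable section

theorem split_eq {S : Type} [CommRing S] [IsDomain S] {Q : Ideal S} (hQ : Q.IsPrime) {a b : S}
    {k : ℕ} (h : a ^ k = b ^ k) (hab : a - b ∈ Q) (hk : (k : S) ∉ Q) (hb : b ^ k ∉ Q) : a = b := by
  by_contra hne
  have h1 := geom_sum₂_mul a b k
  rw [h, sub_self, mul_eq_zero] at h1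
  have h2 := congrArg (Ideal.Quotient.mk Q) (h1.resolve_right (sub_ne_zero.2 hne))
  rw [RingHom.map_geom_sum₂, Ideal.Quotient.eq.2 hab, geom_sum₂_self, map_zero, ← map_pow,
    ← map_natCast (Ideal.Quotient.mk Q), ← map_mul, Ideal.Quotient.eq_zero_iff_mem] at h2
  rcases hQ.mem_or_mem h2 with h3 | h3
  · exact hk h3
  · exact hb (Q.mem_of_dvd (pow_dvd_pow b (Nat.sub_le _ _)) h3)

theorem split_nat {S : Type} [CommRing S] {Q : Ideal S} (hQ : Q.IsPrime) {l k : ℕ} (hl : l.Prime)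
    (hlQ : (l : S) ∈ Q) (hk : ¬l ∣ k) : (k : S) ∉ Q := fun h => by
  obtain ⟨u, v, e⟩ := Nat.Coprime.cast (R := S) ((Nat.Prime.coprime_iff_not_dvd hl).2 hk)
  exact hQ.ne_top ((Ideal.eq_top_iff_one _).2
    (e ▸ Q.add_mem (Q.mul_mem_left _ hlQ) (Q.mul_mem_left _ h)))

theorem split_count {L : Type} [Field L] [NumberField L] [IsGalois ℚ L] {m p q l : ℕ} {ζ α : L}
    (hp : p.Prime) (hq : q.Prime) (hl : l.Prime) (hqm : q ∣ m) (hm : m ∣ l - 1) (hlp : l ≠ p)
    (hζ : ζ ^ m = 1) (hα : α ^ q = p)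
    (hgen : ∀ τ : L ≃ₐ[ℚ] L, τ ζ = ζ → τ α = α → τ = 1)
    (hpow : ∃ x : ZMod l, x ^ q = p) :
    Module.finrank ℚ L ≤ {P : HeightOneSpectrum (𝓞 L) | Ideal.absNorm P.asIdeal = l}.ncard := by
  have := Fact.mk hl
  have l1 : 0 < l - 1 := Nat.sub_pos_of_lt hl.one_lt
  have m0 : 0 < m := Nat.pos_of_dvd_of_pos hm l1
  have lm : ¬l ∣ m := fun h => by
    have := Nat.le_of_dvd l1 (h.trans hm)
    omega
  have lq : ¬l ∣ q := fun h => lm (h.trans hqm)
  have lp : ¬l ∣ p := fun h => hlp ((Nat.prime_dvd_prime_iff_eq hl hp).1 h)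
  obtain ⟨z, rfl⟩ : ∃ z : 𝓞 L, (z : L) = ζ :=
    ⟨⟨ζ, IsIntegral.of_pow m0 (hζ ▸ isIntegral_one)⟩, rfl⟩
  obtain ⟨a, rfl⟩ : ∃ a : 𝓞 L, (a : L) = α :=
    ⟨⟨α, IsIntegral.of_pow hq.pos (hα ▸ isIntegral_natCast p)⟩, rfl⟩
  have hz : z ^ m = 1 := RingOfIntegers.ext (by simpa using hζ)
  have ha : a ^ q = p := RingOfIntegers.ext (by simpa using hα)
  have hs : ∀ (τ : L ≃ₐ[ℚ] L) (k : ℕ), τ • (k : 𝓞 L) = k := fun τ k =>
    map_natCast (MulSemiringAction.toRingHom _ (𝓞 L) τ) k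
  have key : ∀ Q : Ideal (𝓞 L), Q.IsPrime → (l : 𝓞 L) ∈ Q → ∀ τ τ' : L ≃ₐ[ℚ] L,
      τ • z - τ' • z ∈ Q → τ • a - τ' • a ∈ Q → τ = τ' := by
    intro Q hQ hlQ τ τ' h1 h2
    have e1 := split_eq hQ (k := m) (by rw [← smul_pow', ← smul_pow', hz, smul_one, smul_one]) h1
      (split_nat hQ hl hlQ lm) (by
        rw [← smul_pow', hz, smul_one]
        exact (Ideal.ne_top_iff_one _).1 hQ.ne_top)
    have e2 := split_eq hQ (k := q) (by rw [← smul_pow', ← smul_pow', ha, hs, hs]) h2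
      (split_nat hQ hl hlQ lq) (by
        rw [← smul_pow', ha, hs]
        exact split_nat hQ hl hlQ lp)
    have f1 : τ z = τ' z := congrArg (fun x : 𝓞 L => (x : L)) e1
    have f2 : τ a = τ' a := congrArg (fun x : 𝓞 L => (x : L)) e2
    have := hgen (τ'⁻¹ * τ) (by simp [f1]) (by simp [f2])
    exact (inv_mul_eq_one.1 this).symm
  have nrm : ∀ P : HeightOneSpectrum (𝓞 L), (l : 𝓞 L) ∈ P.asIdeal →
      Ideal.absNorm P.asIdeal = l ∧ ∀ x : 𝓞 L, ∃ n : ℕ, x - n ∈ P.asIdeal := by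
    intro P hP
    have hQ := P.isPrime
    have := P.isMaximal
    have : Finite (𝓞 L ⧸ P.asIdeal) := Ideal.finiteQuotientOfFreeOfNeBot _ P.ne_bot
    letI := Ideal.Quotient.field P.asIdeal
    have := Fintype.ofFinite (𝓞 L ⧸ P.asIdeal)
    have : CharP (𝓞 L ⧸ P.asIdeal) l := (CharP.charP_iff_prime_eq_zero hl).2 (by
      rw [← map_natCast (Ideal.Quotient.mk P.asIdeal), Ideal.Quotient.eq_zero_iff_mem]
      exact hP)
    obtain ⟨σ, hσ⟩ := IsArithFrobAt.exists_of_isInvariant ℤ (L ≃ₐ[ℚ] L) P.asIdeal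
    have hu : P.asIdeal.under ℤ = Ideal.span {(l : ℤ)} := by
      refine ((Int.ideal_span_isMaximal_of_prime l).eq_of_le (Ideal.IsPrime.ne_top inferInstance)
        ?_).symm
      rw [Ideal.span_singleton_le_iff_mem, Ideal.mem_under]
      simpa using hP
    have fr : ∀ x : 𝓞 L, Ideal.Quotient.mk P.asIdeal (σ • x) =
        Ideal.Quotient.mk P.asIdeal x ^ l := fun x => by
      have := hσ.mk_apply x
      rwa [hu, Int.card_ideal_quot] at this
    have pl : ∀ y : 𝓞 L ⧸ P.asIdeal, y ^ (l - 1) = 1 → y ^ l = y := fun y hy => by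
      rw [← Nat.sub_add_cancel hl.one_le, pow_succ, hy, one_mul]
    have σ1 : σ = 1 := by
      refine key _ hQ hP _ _ ?_ ?_
      · rw [one_smul, ← Ideal.Quotient.eq, fr]
        obtain ⟨c, hc⟩ := hm
        exact pl _ (by rw [hc, pow_mul, ← map_pow, hz, map_one, one_pow])
      · rw [one_smul, ← Ideal.Quotient.eq, fr]
        obtain ⟨c, hc⟩ := hqm.trans hm
        obtain ⟨x, hx⟩ := hpow
        have x0 : x ≠ 0 := fun h => by
          rw [h, zero_pow hq.ne_zero, eq_comm, ZMod.natCast_eq_zero_iff] at hx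
          exact lp hx
        refine pl _ ?_
        have := congrArg (ZMod.castHom (dvd_refl l) (𝓞 L ⧸ P.asIdeal))
          (ZMod.pow_card_sub_one_eq_one x0)
        rw [hc, pow_mul, hx, map_pow, map_natCast, map_one] at this
        rw [hc, pow_mul, ← map_pow, ha, map_natCast, this]
    have all : ∀ y : 𝓞 L ⧸ P.asIdeal, y ^ l = y := fun y => by
      obtain ⟨x, rfl⟩ := Ideal.Quotient.mk_surjective y
      rw [← fr, σ1, one_smul]
    have c1 : Fintype.card (𝓞 L ⧸ P.asIdeal) ≤ l := by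
      have := Polynomial.card_le_degree_of_subset_roots
        (p := (Polynomial.X ^ l - Polynomial.X : Polynomial (𝓞 L ⧸ P.asIdeal))) (Z := Finset.univ)
        fun y _ => by
          rw [Polynomial.mem_roots (FiniteField.X_pow_card_sub_X_ne_zero _ hl.one_lt)]
          simp [all y]
      rwa [FiniteField.X_pow_card_sub_X_natDegree_eq _ hl.one_lt] at this
    have inj := (ZMod.castHom (dvd_refl l) (𝓞 L ⧸ P.asIdeal)).injective
    have c2 : Fintype.card (ZMod l) = Fintype.card (𝓞 L ⧸ P.asIdeal) :=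
      le_antisymm (Fintype.card_le_of_injective _ inj) (by rwa [ZMod.card])
    refine ⟨by rw [Ideal.absNorm_apply, Submodule.cardQuot_apply, Nat.card_eq_fintype_card, ← c2,
      ZMod.card], fun x => ?_⟩
    obtain ⟨n, hn⟩ := ((Fintype.bijective_iff_injective_and_card _).2 ⟨inj, c2⟩).2
      (Ideal.Quotient.mk P.asIdeal x)
    obtain ⟨n, rfl⟩ := ZMod.natCast_zmod_surjective n
    exact ⟨n, by rw [← Ideal.Quotient.eq, ← hn, map_natCast, map_natCast]⟩
  obtain ⟨Q, hQ, hQl⟩ := Ideal.exists_ideal_over_prime_of_isIntegral_of_isDomain (S := 𝓞 L)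
    (Ideal.span {(l : ℤ)}) (by
      rw [(RingHom.injective_iff_ker_eq_bot _).1 (algebraMap ℤ (𝓞 L)).injective_int]
      exact bot_le)
  have hlQ : (l : 𝓞 L) ∈ Q := by
    have : (l : ℤ) ∈ Q.comap (algebraMap ℤ (𝓞 L)) := hQl ▸ Ideal.mem_span_singleton_self _
    simpa using this
  have l0 : (l : 𝓞 L) ≠ 0 := Nat.cast_ne_zero.2 hl.ne_zero
  have hm' : ∀ τ : L ≃ₐ[ℚ] L, (l : 𝓞 L) ∈ Q.comap (MulSemiringAction.toRingHom _ (𝓞 L) τ) :=
    fun τ => by rw [Ideal.mem_comap, map_natCast]; exact hlQ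
  let f : (L ≃ₐ[ℚ] L) → HeightOneSpectrum (𝓞 L) := fun τ =>
    ⟨Q.comap (MulSemiringAction.toRingHom _ (𝓞 L) τ), Ideal.comap_isPrime _ _, fun h =>
      l0 (by simpa [h] using hm' τ)⟩
  have finj : Function.Injective f := fun τ τ' h => by
    have : ∀ x : 𝓞 L, τ • x - τ' • x ∈ Q := fun x => by
      obtain ⟨n, hn⟩ := (nrm (f τ) (hm' τ)).2 x
      have h1 : τ • (x - n) ∈ Q := hn
      have h2 : τ' • (x - n) ∈ Q := (h ▸ hn : x - n ∈ (f τ').asIdeal)
      rw [smul_sub, hs] at h1 h2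
      simpa using Q.sub_mem h1 h2
    exact key Q hQ hlQ _ _ (this z) (this a)
  have fin : {P : HeightOneSpectrum (𝓞 L) | Ideal.absNorm P.asIdeal = l}.Finite :=
    (card_above (K := L) l).1.subset fun P (hP : _ = l) => by
      rw [Set.mem_setOf_eq, hP, hl.minFac_eq]
  rw [← IsGalois.card_aut_eq_finrank, ← Set.ncard_univ, ← Set.ncard_image_of_injective _ finj]
  refine Set.ncard_le_ncard ?_ fin
  rintro _ ⟨τ, -, rfl⟩
  exact (nrm _ (hm' τ)).1

end

end Vale.Agent.P319E
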