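import Vale.Agent.P319E.PNT
import Vale.Agent.P319E.PsiB
import Vale.Agent.P319E.Split
import Vale.Agent.P319E.Fld
import Vale.Agent.P319E.Tail

namespace Vale.Agent.P319E

open NumberField Complex MeasureTheory Filter Topology IsDedekindDomain
open scoped Classical Real nonZeroDivisors

noncomputable section

theorem fin_mono {K : Type} [Field K] [NumberField K] {θ θ' : ℝ} (h : θ ≤ θ')
    (H : MobBound K θ) : MobBound K θ' := by
  obtain ⟨M, C, hM, H⟩ := H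
  refine ⟨M, |C|, hM, fun X hX => (H X hX).trans ?_⟩
  exact mul_le_mul (le_abs_self C) (Real.rpow_le_rpow_of_exponent_le hX h)
    (Real.rpow_nonneg (by linarith) _) (abs_nonneg C)

theorem fin_Ap {m p : ℕ} {X : ℝ} (hX : 0 < X) : Ap m X ≤
    (∑' l : ℕ, if l.Prime ∧ m ∣ l - 1 ∧ l ≠ p ∧ (l : ℝ) ≤ X ^ 3 then
      Real.log l * Wr (l / X) else 0) + Real.log p +
    ∑' l : ℕ, (if X ^ 3 < (l : ℝ) then Real.log l * Wr (l / X) else 0) := by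
  have s : ∀ (P : ℕ → Prop) [DecidablePred P],
      Summable fun l : ℕ => if P l then Real.log l * Wr (l / X) else 0 := fun P _ =>
    (tl_summable hX).of_nonneg_of_le (fun l => by split_ifs; exacts [tl_nonneg X l, le_rfl])
      fun l => by split_ifs; exacts [le_rfl, tl_nonneg X l]
  have h1 := (((s fun l => l.Prime ∧ m ∣ l - 1 ∧ l ≠ p ∧ (l : ℝ) ≤ X ^ 3).hasSum.add
    (hasSum_ite_eq p (Real.log p))).add (s fun l => X ^ 3 < (l : ℝ)).hasSum)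
  refine hasSum_le (fun l => ?_) (s fun l => l.Prime ∧ m ∣ l - 1).hasSum h1
  have a0 := tl_nonneg X l
  have a1 := Real.log_natCast_nonneg p
  have a2 : Real.log l * Wr (l / X) ≤ Real.log l :=
    mul_le_of_le_one_right (Real.log_natCast_nonneg l) (Wr_le_one _)
  by_cases c1 : l = p
  · subst c1
    split_ifs <;> first | contradiction | linarith
  · by_cases c2 : X ^ 3 < (l : ℝ)
    · rw [if_pos c2, if_neg c1]
      split_ifs <;> linarith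
    · rw [if_neg c2, if_neg c1]
      simp [c1, not_lt.1 c2]

theorem fin_num {C₁ C₂ C₃ k n m q N lp dK dL S A pK pL M X Y Z : ℝ} (c1 : 0 < C₁) (c2 : 0 < C₂)
    (c3 : 0 < C₃) (r1 : 2 * k ≤ n) (r2 : n ≤ 4 * q ^ 2) (r0 : 0 ≤ k) (r3 : m ≤ 12 * q)
    (m0 : 0 ≤ m) (q1 : 1 ≤ q) (N1 : q ≤ N) (N2 : 1 + lp ≤ N) (N3 : 2 ≤ N) (l0 : 0 ≤ lp)
    (d1 : dK ≤ 48 * q ^ 4 * (1 + lp)) (d2 : dL ≤ 48 * q ^ 4 * (1 + lp)) (s0 : 0 ≤ S)
    (y1 : Z ≤ Y) (y2 : 1 ≤ Y) (y3 : 0 ≤ Z) (a1 : n * S ≤ pL) (a2 : A ≤ S + lp + C₃)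
    (a4 : pK ≤ k * A + C₂ * k * m * Z) (a5 : -(C₁ * dK * Y) ≤ pK - M)
    (a6 : pL - M ≤ C₁ * dL * Y) (a7 : X / 2 ≤ M)
    (ha : (72 * C₁ + 2 + 2 * C₃ + 24 * C₂) * N ^ 5 * Y < 1 / 4 * X) : False := by
  have r4 : k ≤ 2 * N ^ 2 := by nlinarith
  have N5 : ∀ k ≤ 5, N ^ k ≤ N ^ 5 * Y := fun k hk =>
    (pow_le_pow_right₀ (by linarith) hk).trans (le_mul_of_one_le_right (by positivity) y2)
  have d0 : 48 * q ^ 4 * (1 + lp) ≤ 48 * N ^ 5 := by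
    rw [mul_assoc, pow_succ N 4]; gcongr
  have b1 : C₁ * dK * Y ≤ C₁ * (48 * N ^ 5) * Y := by gcongr; linarith
  have b2 : C₁ * dL * Y ≤ C₁ * (48 * N ^ 5) * Y := by gcongr; linarith
  have b3 : C₂ * k * m * Z ≤ C₂ * (2 * N ^ 2) * (12 * N ^ 3) * Y := by
    have : N ≤ N ^ 3 := le_self_pow₀ (by linarith) (by norm_num)
    gcongr; linarith
  have b4 : k * A ≤ k * (S + (N + C₃)) := by
    gcongr; linarith
  have b5 : k * (N + C₃) ≤ 2 * N ^ 2 * (N + C₃) := by gcongr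
  have b6 := mul_le_mul_of_nonneg_right r1 s0
  have b7 := N5 3 (by norm_num)
  have b8 := mul_le_mul_of_nonneg_left (N5 2 (by norm_num)) c3.le
  linarith

theorem small_ell_of {θ : ℝ} (hθ : θ < 1)
    (H : ∀ (K : Type) [Field K] [NumberField K], (∃ z : K, IsPrimitiveRoot z 12) → MobBound K θ) :
    ∃ C : ℕ, ∀ p q : ℕ, p.Prime → q.Prime → q ≠ 2 → q ≠ p → ∃ l : ℕ, l.Prime ∧
      l ≤ (q * Nat.log 2 p + 2) ^ C ∧ q ∣ l - 1 ∧ l ≠ p ∧ ¬ ∃ x : ZMod l, x ^ q = p := by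
  set t := max θ (1 / 2) with ht
  have t1 : 1 / 2 ≤ t := le_max_right _ _
  have t2 : t < 1 := max_lt hθ (by norm_num)
  obtain ⟨C₁, c1, H1⟩ := pnt t1 (σ := (t + 1) / 2) (by linarith) (by linarith)
  obtain ⟨C₂, c2, H2⟩ := psi_upper
  obtain ⟨C₃, c3, H3⟩ := tl_tail
  obtain ⟨a, ha⟩ := tl_num (c := 1 / 4) (C := 72 * C₁ + 2 + 2 * C₃ + 24 * C₂)
    (σ := (t + 1) / 2) (by norm_num) (by linarith) 5
  refine ⟨a * 3, fun p q hp hq hq2 _ => by_contra fun hc => ?_⟩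
  obtain ⟨K, L, _, _, ζ₀, ζ, α, hG, h0, h1, hα, hgen, n1, n2, d1, d2⟩ := fields hp hq hq2
  set m := Nat.lcm 12 q with hm
  have m0 : 0 < m := Nat.lcm_pos (by norm_num) hq.pos
  have key : ∀ (F : Type) [Field F] [NumberField F] (z : F), IsPrimitiveRoot z m → ∀ X : ℝ,
      1 ≤ X → |Psi F X - Main X| ≤ C₁ * lD F * X ^ ((t + 1) / 2) := fun F _ _ z hz X hX => by
    obtain ⟨k, hk⟩ : 12 ∣ m := Nat.dvd_lcm_left _ _
    have h12 := hz.pow m0 (hk.trans (mul_comm _ _))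
    have : IsTotallyComplex F := nrRealPlaces_eq_zero_iff.1
      (InfinitePlace.IsPrimitiveRoot.nrRealPlaces_eq_zero_of_two_lt (by norm_num) h12)
    exact H1 F (fin_mono (le_max_left _ _) (H F ⟨_, h12⟩)) X hX
  obtain ⟨N, hN⟩ : ∃ N : ℝ, N = ((q * Nat.log 2 p + 2 : ℕ) : ℝ) := ⟨_, rfl⟩
  have l1 : (1 : ℝ) ≤ Nat.log 2 p := by exact_mod_cast Nat.log_pos (by norm_num) hp.two_le
  have q1 : (1 : ℝ) ≤ q := by exact_mod_cast hq.one_le
  have N0 : N = q * Nat.log 2 p + 2 := by rw [hN]; push_cast; ring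
  have N1 : (q : ℝ) ≤ N := by nlinarith
  have N2 : 1 + Real.log p ≤ N := by have := tl_log hp.ne_zero; nlinarith
  have N3 : 2 ≤ N := by nlinarith
  have lp := Real.log_natCast_nonneg p
  replace ha := ha N N3
  have X3 : (N ^ a) ^ 3 = (((q * Nat.log 2 p + 2) ^ (a * 3) : ℕ) : ℝ) := by
    rw [← pow_mul, hN, Nat.cast_pow]
  have X1 : 1 ≤ N ^ a := one_le_pow₀ (by linarith)
  generalize N ^ a = X at ha X3 X1
  have X0 : 0 < X := by linarith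
  have a1 := psi_lower (K := L) (N := Module.finrank ℚ L)
    (S := fun l => l.Prime ∧ m ∣ l - 1 ∧ l ≠ p ∧ (l : ℝ) ≤ X ^ 3) (fun l hl => ⟨hl.1,
      split_count hp hq hl.1 (Nat.dvd_lcm_right _ _) hl.2.1 hl.2.2.1 h1.pow_eq_one hα hgen
        (by_contra fun h => hc ⟨l, hl.1, by exact_mod_cast hl.2.2.2.trans_eq X3,
          (Nat.dvd_lcm_right _ _).trans hl.2.1, hl.2.2.1, h⟩)⟩) X0
  have a2 := fin_Ap (m := m) (p := p) X0
  have a3 := H3 X X1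
  have a4 := H2 K m ζ₀ m0 h0 X X1
  have a5 := (abs_le.1 (key K ζ₀ h0 X X1)).1
  have a6 := (abs_le.1 (key L ζ h1 X X1)).2
  have a7 := main_ge X1
  have e : (∑' l : ℕ, @ite ℝ (l.Prime ∧ m ∣ l - 1 ∧ l ≠ p ∧ (l : ℝ) ≤ X ^ 3)
      (Classical.propDecidable _) (Real.log l * Wr (l / X)) 0) =
      ∑' l : ℕ, if l.Prime ∧ m ∣ l - 1 ∧ l ≠ p ∧ (l : ℝ) ≤ X ^ 3 then
        Real.log l * Wr (l / X) else 0 := tsum_congr fun l => ite_congr rfl (fun _ => rfl) fun _ => rfl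
  rw [e] at a1
  have s0 : 0 ≤ ∑' l : ℕ, if l.Prime ∧ m ∣ l - 1 ∧ l ≠ p ∧ (l : ℝ) ≤ X ^ 3 then
      Real.log l * Wr (l / X) else 0 :=
    tsum_nonneg fun l => by split_ifs; exacts [tl_nonneg X l, le_rfl]
  exact fin_num c1 c2 c3 (by exact_mod_cast n1) (by exact_mod_cast n2) (Nat.cast_nonneg _)
    (by exact_mod_cast Nat.le_of_dvd (mul_pos (by norm_num) hq.pos) (Nat.lcm_dvd_mul 12 q))
    (Nat.cast_nonneg _) q1 N1 N2 N3 lp d1 d2 s0 (Real.rpow_le_rpow_of_exponent_le X1 (by linarith))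
    (Real.one_le_rpow X1 (by linarith)) (by positivity) a1 (a2.trans (by gcongr)) a4 a5 a6 a7 ha

end

end Vale.Agent.P319E
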