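import Vale.Agent.P319E.Defs

namespace Vale.Agent.P319E

open NumberField Complex MeasureTheory Filter Topology IsDedekindDomain
open scoped Classical Real nonZeroDivisors

noncomputable section

theorem an1_S {p : ℕ} [NeZero p] {χ : DirichletCharacter ℂ p} (hχ : χ ≠ 1) (n : ℕ) :
    ‖∑ k ∈ Finset.Icc 1 n, χ k‖ ≤ p := by
  have hp : 0 < p := Nat.pos_of_neZero p
  have per : ∀ m : ℕ, ∑ k ∈ Finset.Ico m (m + p), χ k = 0 := fun m => by
    have h0 : ∑ a : ZMod p, χ a = 0 := MulChar.sum_eq_zero_of_ne_one hχ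
    rw [← h0]
    refine Finset.sum_bij (fun k _ => (k : ZMod p)) (fun _ _ => Finset.mem_univ _)
      (fun a ha b hb h => ?_) (fun b _ => ?_) fun _ _ => rfl
    · exact Nat.mod_injOn_Ico m p (by simpa using ha) (by simpa using hb)
        ((ZMod.natCast_eq_natCast_iff' _ _ _).1 h)
    · refine ⟨m + (b - m).val, ?_, by simp⟩
      have := ZMod.val_lt (b - (m : ZMod p))
      simp only [Finset.mem_Ico]; omega
  induction n using Nat.strong_induction_on with
  | _ n ih =>
    by_cases h : n ≤ p
    · refine (norm_sum_le _ _).trans ((Finset.sum_le_card_nsmul _ _ 1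
        fun k _ => χ.norm_le_one _).trans ?_)
      simp only [Nat.card_Icc, add_tsub_cancel_right, nsmul_eq_mul, mul_one]
      exact_mod_cast h
    · have e : ∑ k ∈ Finset.Icc 1 n, χ k = ∑ k ∈ Finset.Icc 1 (n - p), χ k := by
        rw [← Finset.Ico_add_one_right_eq_Icc, ← Finset.Ico_add_one_right_eq_Icc,
          ← Finset.sum_Ico_consecutive _ (show 1 ≤ n - p + 1 by omega)
            (show n - p + 1 ≤ n + 1 by omega), show n + 1 = n - p + 1 + p by omega, per, add_zero]
      rw [e]
      exact ih _ (by omega)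

theorem lfun_le {p : ℕ} [NeZero p] {χ : DirichletCharacter ℂ p} (hχ : χ ≠ 1) {s : ℂ}
    (hs : 1 / 2 ≤ s.re) : ‖DirichletCharacter.LFunction χ s‖ ≤ 2 * p * ‖s‖ := by
  set S : ℝ → ℂ := fun t => ∑ k ∈ Finset.Icc 1 ⌊t⌋₊, χ k with hS
  have Sb : ∀ t, ‖S t‖ ≤ p := fun t => an1_S hχ _
  have Sm : Measurable S :=
    (measurable_from_top (f := fun n : ℕ => ∑ k ∈ Finset.Icc 1 n, χ k)).comp Nat.measurable_floor
  have S0 : ∀ t : ℝ, t < 1 → S t = 0 := fun t ht => by simp [hS, Nat.floor_eq_zero.2 ht]
  have e1 : ∀ z : ℂ, mellin S (-z) = ∫ t in Set.Ioi (1 : ℝ), S t * t ^ (-(z + 1)) := fun z => by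
    rw [← integral_Ici_eq_integral_Ioi, mellin,
      setIntegral_eq_of_subset_of_forall_diff_eq_zero (s := Set.Ici 1) measurableSet_Ioi
        (fun t ht => one_pos.trans_le ht) fun t ht => by
          rw [S0 t (lt_of_not_ge ht.2), smul_zero]]
    refine setIntegral_congr_fun measurableSet_Ici fun t _ => ?_
    rw [smul_eq_mul, mul_comm]; congr 2; ring
  have dM : ∀ z : ℂ, 0 < z.re → DifferentiableAt ℂ (fun z => z * mellin S (-z)) z := fun z hz => by
    refine differentiableAt_id.mul (DifferentiableAt.comp z (g := mellin S)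
      (mellin_differentiableAt_of_isBigO_rpow (a := 0) (b := -z.re - 1) ?_ ?_ (by simpa using hz)
        ?_ (by simp)) differentiableAt_id.neg)
    · refine (locallyIntegrableOn_iff isOpen_Ioi.isLocallyClosed).2 fun K _ hc => ?_
      exact (continuousOn_const (c := (p : ℝ))).integrableOn_compact hc |>.mono'
        Sm.aestronglyMeasurable (.of_forall Sb)
    · exact Asymptotics.IsBigO.of_bound p (.of_forall fun t => by simpa using Sb t)
    · refine Asymptotics.IsBigO.of_bound 0 ?_
      filter_upwards [mem_nhdsWithin_of_mem_nhds (Iio_mem_nhds one_pos)] with t ht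
      simp [S0 t ht]
  have op : IsOpen {z : ℂ | 0 < z.re} := isOpen_lt continuous_const continuous_re
  have a1 : AnalyticOnNhd ℂ (DirichletCharacter.LFunction χ) {z : ℂ | 0 < z.re} :=
    (χ.differentiable_LFunction hχ).differentiableOn.analyticOnNhd op
  have a2 : AnalyticOnNhd ℂ (fun z => z * mellin S (-z)) {z : ℂ | 0 < z.re} :=
    DifferentiableOn.analyticOnNhd (fun z hz => (dM z hz).differentiableWithinAt) op
  have hs0 : 0 < s.re := by linarith
  have e := a1.eqOn_of_preconnected_of_eventuallyEq a2 (convex_halfSpace_re_gt 0).isPreconnected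
    (z₀ := 2) (by simp) (by
      filter_upwards [(isOpen_lt continuous_const continuous_re).mem_nhds
        (show (2 : ℂ) ∈ {s : ℂ | 1 < s.re} by simp)] with z hz
      rw [χ.LFunction_eq_LSeries hz, e1]
      refine LSeries_eq_mul_integral (fun n => χ n) (r := 0) le_rfl (one_pos.trans hz)
        ((DirichletCharacter.LSeriesSummable_iff (NeZero.ne p) χ).2 hz) ?_
      exact Asymptotics.IsBigO.of_bound p (.of_forall fun n => by simpa using an1_S hχ n)) hs0
  simp only at e
  rw [e, norm_mul, e1, mul_comm]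
  refine mul_le_mul_of_nonneg_right ?_ (norm_nonneg _)
  have it : IntegrableOn (fun t : ℝ => (p : ℝ) * t ^ (-(3 / 2) : ℝ)) (Set.Ioi 1) :=
    (integrableOn_Ioi_rpow_of_lt (by norm_num) one_pos).const_mul _
  refine (norm_integral_le_of_norm_le it ((ae_restrict_iff' measurableSet_Ioi).2
    (.of_forall fun t ht => ?_))).trans ?_
  · have t0 : 0 < t := one_pos.trans ht
    rw [norm_mul, norm_cpow_eq_rpow_re_of_pos t0]
    refine mul_le_mul (Sb t) (Real.rpow_le_rpow_of_exponent_le (le_of_lt ht) ?_)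
      (by positivity) (by positivity)
    simp; linarith
  · rw [integral_const_mul, integral_Ioi_rpow_of_lt (by norm_num) one_pos]
    norm_num; linarith

theorem lfun_ge {p : ℕ} [NeZero p] (χ : DirichletCharacter ℂ p) {s : ℂ}
    (hs : 2 ≤ s.re) : 1 / 4 ≤ ‖DirichletCharacter.LFunction χ s‖ := by
  have h1 : 1 < s.re := by linarith
  rw [χ.LFunction_eq_LSeries h1]
  have sm : LSeriesSummable (fun n => χ n) s :=
    (DirichletCharacter.LSeriesSummable_iff (NeZero.ne p) χ).2 h1
  have z2 := hasSum_zeta_two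
  have e := sm.sum_add_tsum_nat_add 2
  have e2 := z2.summable.sum_add_tsum_nat_add 2
  rw [z2.tsum_eq] at e2
  have le : ∀ n : ℕ, ‖LSeries.term (fun n => χ n) s (n + 2)‖ ≤ 1 / ((n + 2 : ℕ) : ℝ) ^ 2 := fun n => by
    rw [LSeries.norm_term_eq, if_neg (by omega)]
    refine div_le_div₀ one_pos.le (χ.norm_le_one _) (by positivity) ?_
    rw [← Real.rpow_natCast]
    exact Real.rpow_le_rpow_of_exponent_le (by push_cast; linarith [n.cast_nonneg (α := ℝ)])
      (by exact_mod_cast hs)
  have sm2 := (summable_nat_add_iff 2).2 z2.summable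
  have b : ‖∑' n : ℕ, LSeries.term (fun n => χ n) s (n + 2)‖ ≤
      ∑' n : ℕ, 1 / ((n + 2 : ℕ) : ℝ) ^ 2 := tsum_of_norm_bounded sm2.hasSum le
  rw [LSeries, ← e]
  simp only [Finset.sum_range_succ, Finset.range_zero, Finset.sum_empty, LSeries.term_zero,
    zero_add] at e2 ⊢
  have t1 : LSeries.term (fun n => χ n) s 1 = 1 := by simp [LSeries.term]
  rw [t1]
  have := norm_sub_le (1 + ∑' n : ℕ, LSeries.term (fun n => χ n) s (n + 2))
    (∑' n : ℕ, LSeries.term (fun n => χ n) s (n + 2))
  rw [add_sub_cancel_right, norm_one] at this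
  have hpi := Real.pi_lt_d2
  have := Real.pi_pos
  norm_num at e2
  simp only [one_div] at b
  push_cast at b e2
  nlinarith

end

end Vale.Agent.P319E
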