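import Vale.Agent.P319E.Mel

namespace Vale.Agent.P319E

open NumberField Complex MeasureTheory Filter Topology IsDedekindDomain
open scoped Classical Real nonZeroDivisors

noncomputable section

theorem bc_disc {g : ℂ → ℂ} {c : ℂ} {R η B : ℝ} (hη : 0 < η) (hB : 0 < B)
    (hg : DifferentiableOn ℂ g (Metric.ball c R)) (h0 : ∀ s ∈ Metric.ball c R, g s ≠ 0)
    (hb : ∀ s ∈ Metric.ball c R, ‖g s‖ ≤ ‖g c‖ * Real.exp B) {s : ℂ}
    (hs : ‖s - c‖ + 2 * η ≤ R) : ‖deriv g s / g s‖ ≤ 2 * B * R / η / η := by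
  have hR : 0 < R := by have := norm_nonneg (s - c); linarith
  have hd : DifferentiableOn ℂ (fun z => deriv g z / g z) (Metric.ball c R) :=
    (hg.deriv Metric.isOpen_ball).div hg h0
  obtain ⟨l, l0, hl⟩ := hd.isExactOn_ball.with_val_at c 0
  have hga : ∀ z ∈ Metric.ball c R, HasDerivAt g (deriv g z) z := fun z hz =>
    (hg.differentiableAt (Metric.isOpen_ball.mem_nhds hz)).hasDerivAt
  have hc : c ∈ Metric.ball c R := Metric.mem_ball_self hR
  have key : ∀ z ∈ Metric.ball c R, g z * cexp (-l z) = g c := by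
    have hz0 : ∀ z ∈ Metric.ball c R, HasDerivAt (fun z => g z * cexp (-l z)) 0 z := fun z hz => by
      have h := (hga z hz).mul (hl z hz).neg.cexp
      refine h.congr_deriv ?_
      have := h0 z hz
      field_simp
      ring
    intro z hz
    have := Metric.isOpen_ball.is_const_of_deriv_eq_zero (f := fun z => g z * cexp (-l z))
      (convex_ball c R).isPreconnected
      (fun z hz => (hz0 z hz).differentiableAt.differentiableWithinAt)
      (fun z hz => (hz0 z hz).deriv) hz hc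
    simpa [l0] using this
  have hre : ∀ z ∈ Metric.ball c R, (l z).re ≤ B := fun z hz => by
    have h1 := congrArg (‖·‖) (key z hz)
    simp only [norm_mul, Complex.norm_exp, neg_re] at h1
    have h2 := hb z hz
    have hp : 0 < ‖g z‖ := norm_pos_iff.2 (h0 z hz)
    rw [← h1, mul_assoc, ← Real.exp_add] at h2
    have h3 : 1 ≤ Real.exp (-(l z).re + B) := by
      by_contra h
      have := mul_lt_mul_of_pos_left (lt_of_not_ge h) hp
      linarith
    have := Real.one_le_exp_iff.1 h3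
    linarith
  have ld : DifferentiableOn ℂ l (Metric.ball c R) := fun z hz =>
    (hl z hz).differentiableAt.differentiableWithinAt
  have mem : ∀ z : ℂ, z ∈ Metric.ball (0 : ℂ) R → z + c ∈ Metric.ball c R := fun z hz => by
    simpa [dist_eq_norm] using hz
  have bc : ∀ z : ℂ, ‖z - c‖ + η ≤ R → ‖l z‖ ≤ 2 * B * R / η := fun z hz => by
    have hz' : z - c ∈ Metric.ball (0 : ℂ) R := by
      rw [mem_ball_zero_iff]; linarith
    have h := Complex.borelCaratheodory_zero (f := fun w => l (w + c)) hB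
      (ld.comp (by fun_prop) fun w hw => mem w hw) (fun w hw => hre _ (mem w hw)) hR hz'
      (by simpa using l0)
    simp only [sub_add_cancel] at h
    refine h.trans ?_
    have := norm_nonneg (z - c)
    exact div_le_div₀ (by positivity) (by nlinarith) hη (by linarith)
  have sub : Metric.closedBall s η ⊆ Metric.ball c R := fun z hz => by
    rw [Metric.mem_closedBall, dist_eq_norm] at hz
    rw [Metric.mem_ball, dist_eq_norm]
    have := norm_sub_le_norm_sub_add_norm_sub z s c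
    linarith
  have hs' : s ∈ Metric.ball c R := sub (Metric.mem_closedBall_self hη.le)
  rw [← (hl s hs').deriv]
  refine Complex.norm_deriv_le_of_forall_mem_sphere_norm_le hη ?_ fun z hz => bc z ?_
  · exact DifferentiableOn.diffContOnCl (by rw [closure_ball s hη.ne']; exact ld.mono sub)
  · rw [Metric.mem_sphere, dist_eq_norm] at hz
    have := norm_sub_le_norm_sub_add_norm_sub z s c
    linarith

theorem bc_bound {θ σ : ℝ} (h1 : 1 / 2 ≤ θ) (h2 : θ < σ) (h3 : σ < 1) : ∃ C : ℝ, 0 < C ∧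
    ∀ (g : ℂ → ℂ) (M : ℝ), 1 ≤ M → DifferentiableOn ℂ g {s | θ < s.re} →
      (∀ s : ℂ, θ < s.re → g s ≠ 0) →
      (∀ s : ℂ, θ < s.re → s.re ≤ 4 → ‖g s‖ ≤ Real.exp (M * (1 + |s.im|))) →
      (∀ t : ℝ, Real.exp (-M) ≤ ‖g (2 + t * I)‖) →
      ∀ s : ℂ, σ ≤ s.re → s.re ≤ 2 → ‖deriv g s / g s‖ ≤ C * M * (1 + |s.im|) := by
  set η := (σ - θ) / 2 with hη
  have hη0 : 0 < η := by rw [hη]; linarith
  have hR : 0 < 2 - θ := by linarith
  refine ⟨8 * (2 - θ) / η / η, by positivity, fun g M hM hg h0 hb hl s hs1 hs2 => ?_⟩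
  set c : ℂ := 2 + s.im * I with hc
  have cre : c.re = 2 := by simp [hc]
  have cim : c.im = s.im := by simp [hc]
  have mem : ∀ z ∈ Metric.ball c (2 - θ), θ < z.re ∧ z.re ≤ 4 ∧ |z.im| ≤ |s.im| + 2 := by
    intro z hz
    rw [Metric.mem_ball, dist_eq_norm] at hz
    have a1 := abs_lt.1 ((abs_re_le_norm (z - c)).trans_lt hz)
    have a2 := (abs_im_le_norm (z - c)).trans_lt hz
    rw [sub_re, cre] at a1
    rw [sub_im, cim] at a2
    have a3 := abs_sub_abs_le_abs_sub z.im s.im
    exact ⟨by linarith [a1.1], by linarith [a1.2], by linarith⟩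
  have ha := abs_nonneg s.im
  have h := bc_disc (g := g) (c := c) (R := 2 - θ) (η := η) (B := 4 * M * (1 + |s.im|)) hη0
    (by positivity) (hg.mono fun z hz => (mem z hz).1) (fun z hz => h0 z (mem z hz).1)
    (fun z hz => by
      obtain ⟨m1, m2, m3⟩ := mem z hz
      refine (hb z m1 m2).trans (le_trans ?_ (mul_le_mul_of_nonneg_right (hl s.im)
        (Real.exp_pos _).le))
      rw [← Real.exp_add, Real.exp_le_exp]
      nlinarith) (s := s) (by
      have e : s - c = ((s.re - 2 : ℝ) : ℂ) := by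
        apply Complex.ext <;> simp [hc]
      rw [e, Complex.norm_real, Real.norm_eq_abs, abs_of_nonpos (by linarith), hη]
      linarith)
  refine h.trans (le_of_eq ?_)
  field_simp
  ring

theorem bc_int : Integrable fun t : ℝ => (1 + |t|) * Real.exp (-(1 / 4) * t ^ 2) := by
  have h1 := integrable_exp_neg_mul_sq (b := 1 / 4) (by norm_num)
  have h2 := (integrable_mul_exp_neg_mul_sq (b := 1 / 4) (by norm_num)).abs
  refine (h1.add h2).congr (.of_forall fun t => ?_)
  simp only [Pi.add_apply, abs_mul, abs_of_pos (Real.exp_pos _)]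
  ring

theorem bc_tend : Tendsto (fun t : ℝ => (1 + |t|) * Real.exp (-(1 / 4) * t ^ 2)) (cocompact ℝ)
    (𝓝 0) := by
  have h0 := tendsto_rpow_abs_mul_exp_neg_mul_sq_cocompact (a := 1 / 4) (by norm_num) 0
  have h1 := tendsto_rpow_abs_mul_exp_neg_mul_sq_cocompact (a := 1 / 4) (by norm_num) 1
  have := h0.add h1
  simp only [Real.rpow_zero, Real.rpow_one, add_zero] at this
  refine this.congr fun t => by ring

theorem bc_shift {θ σ : ℝ} (h1 : 1 / 2 ≤ θ) (h2 : θ < σ) (h3 : σ < 1) : ∃ C : ℝ, 0 < C ∧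
    ∀ (g : ℂ → ℂ) (M X : ℝ), 1 ≤ M → 1 ≤ X → DifferentiableOn ℂ g {s | θ < s.re} →
      (∀ s : ℂ, θ < s.re → g s ≠ 0) →
      (∀ s : ℂ, θ < s.re → s.re ≤ 4 → ‖g s‖ ≤ Real.exp (M * (1 + |s.im|))) →
      (∀ t : ℝ, Real.exp (-M) ≤ ‖g (2 + t * I)‖) →
      Integrable (fun τ : ℝ => deriv g (2 + τ * I) / g (2 + τ * I) * Phi X (2 + τ * I)) ∧
      ‖∫ τ : ℝ, deriv g (2 + τ * I) / g (2 + τ * I) * Phi X (2 + τ * I)‖ ≤ C * M * X ^ σ := by
  obtain ⟨C, hC, H⟩ := bc_bound h1 h2 h3
  set J := ∫ t : ℝ, (1 + |t|) * Real.exp (-(1 / 4) * t ^ 2) with hJ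
  have J0 : 0 ≤ J := integral_nonneg fun t => by positivity
  refine ⟨C * (√π * Real.exp 1) * (J + 1), by positivity, fun g M X hM hX hg h0 hb hl => ?_⟩
  have hX0 : 0 < X := one_pos.trans_le hX
  have op : IsOpen {s : ℂ | θ < s.re} := isOpen_lt continuous_const continuous_re
  set F : ℂ → ℂ := fun s => deriv g s / g s * Phi X s with hF
  have dF : ∀ s : ℂ, σ ≤ s.re → DifferentiableAt ℂ F s := fun s hs => by
    have hm : {s : ℂ | θ < s.re} ∈ 𝓝 s := op.mem_nhds (h2.trans_le hs)
    exact (((hg.deriv op).differentiableAt hm).div (hg.differentiableAt hm)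
      (h0 s (h2.trans_le hs))).mul (differentiable_Phi hX0 s)
  have bF : ∀ (b : ℝ) (s : ℂ), σ ≤ s.re → s.re ≤ b → b ≤ 2 → ‖F s‖ ≤
      C * M * (√π * Real.exp 1) * X ^ b * ((1 + |s.im|) * Real.exp (-(1 / 4) * s.im ^ 2)) := by
    intro b s a1 a2 a3
    rw [hF]
    simp only [norm_mul]
    have b1 := H g M hM hg h0 hb hl s a1 (a2.trans a3)
    have b2 : ‖Phi X s‖ ≤ √π * (Real.exp 1 * Real.exp (-(1 / 4) * s.im ^ 2)) * X ^ b := by
      rw [norm_Phi hX0, ← Real.exp_add]
      have : 0 ≤ s.re := by linarith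
      gcongr
      nlinarith
    refine (mul_le_mul b1 b2 (norm_nonneg _) (by positivity)).trans (le_of_eq (by ring))
  have e2 : ∀ τ : ℝ, ((2 : ℝ) : ℂ) + τ * I = 2 + τ * I := fun τ => by norm_num
  constructor
  · have := Vale.Agent.P026.gamB_line (F := F) (c := 2) (fun s hs => dF s (by linarith))
      (bc_int.const_mul (C * M * (√π * Real.exp 1) * X ^ (2 : ℝ)))
      (fun s hs => bF 2 s (by linarith) hs.le le_rfl)
    simpa only [e2] using this
  · have sh := Vale.Agent.P026.shift_strip (F := F) (a := σ) (b := 2) (by linarith)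
      (fun s hs _ => dF s hs) (bc_int.const_mul (C * M * (√π * Real.exp 1) * X ^ (2 : ℝ)))
      (by simpa using bc_tend.const_mul (C * M * (√π * Real.exp 1) * X ^ (2 : ℝ)))
      (fun s a1 a2 => bF 2 s a1 a2 le_rfl)
    simp only [e2] at sh
    change ‖∫ τ : ℝ, F (2 + τ * I)‖ ≤ _
    rw [← sh]
    refine (norm_integral_le_of_norm_le
      (bc_int.const_mul (C * M * (√π * Real.exp 1) * X ^ σ)) (.of_forall fun τ => ?_)).trans ?_
    · have := bF σ (σ + τ * I) (by simp) (by simp) (by linarith)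
      simpa using this
    · rw [integral_const_mul, ← hJ]
      have : 0 ≤ C * M * (√π * Real.exp 1) * X ^ σ := by positivity
      nlinarith

end

end Vale.Agent.P319E
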