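import Vale.Agent.P319E.AN1
import Vale.Agent.P319E.BC
import Vale.Agent.P319E.Tail
import Vale.Agent.P026.Main

namespace Vale.Agent.P319E

open NumberField Complex MeasureTheory Filter Topology IsDedekindDomain
open scoped Classical Real nonZeroDivisors

noncomputable section

open ArithmeticFunction in
theorem an2_upper : ∃ C : ℝ, 0 < C ∧ ∀ (p : ℕ) [NeZero p] (χ : DirichletCharacter ℂ p), χ ≠ 1 →
    ∀ X : ℝ, 1 ≤ X → ‖∑' n : ℕ, χ (n + 1 : ℕ) * (vonMangoldt (n + 1) : ℝ) *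
      (Wr (((n + 1 : ℕ) : ℝ) / X) : ℂ)‖ ≤ C * (Real.log p + 10) * X ^ (9995 / 10000 : ℝ) := by
  obtain ⟨C, hC, H⟩ := bc_shift (θ := 999 / 1000) (σ := 9995 / 10000) (by norm_num) (by norm_num)
    (by norm_num)
  refine ⟨C, hC, fun p _ χ hχ X hX => ?_⟩
  have hX0 : 0 < X := one_pos.trans_le hX
  have p1 : (1 : ℝ) ≤ p := by exact_mod_cast Nat.pos_of_neZero p
  have lp := Real.log_nonneg p1
  obtain ⟨-, h⟩ := H (DirichletCharacter.LFunction χ) (Real.log p + 10) X (by linarith) hX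
    (χ.differentiable_LFunction hχ).differentiableOn
    (fun s hs => by
      rcases eq_or_ne s 1 with rfl | h1
      · exact χ.LFunction_apply_one_ne_zero hχ
      · exact Vale.Agent.P026.lfun_ne_zero χ hs h1)
    (fun s h1 h2 => by
      refine (lfun_le hχ (by linarith)).trans ?_
      have a := abs_nonneg s.im
      have n1 : ‖s‖ ≤ 4 + |s.im| := (norm_le_abs_re_add_abs_im s).trans (by
        rw [abs_of_nonneg (by linarith)]; linarith)
      have n2 : 8 + 2 * |s.im| ≤ Real.exp (10 * (1 + |s.im|)) :=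
        le_trans (by linarith) (Real.add_one_le_exp _)
      have n3 : (p : ℝ) ≤ Real.exp (Real.log p * (1 + |s.im|)) := by
        conv_lhs => rw [← Real.exp_log (one_pos.trans_le p1)]
        exact Real.exp_le_exp.2 (by nlinarith)
      rw [add_mul, Real.exp_add]
      calc 2 * (p : ℝ) * ‖s‖ ≤ p * (8 + 2 * |s.im|) := by nlinarith
        _ ≤ _ := mul_le_mul n3 n2 (by positivity) (by positivity))
    (fun t => by
      refine le_trans ?_ (lfun_ge χ (by simp))
      have : (4 : ℝ) ≤ Real.exp (Real.log p + 10) :=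
        le_trans (by linarith) (Real.add_one_le_exp _)
      rw [Real.exp_neg, one_div]
      exact inv_anti₀ (by norm_num) this)
  have sm : ∀ s : ℂ, 1 < s.re → LSeriesSummable (fun n : ℕ => χ n * (vonMangoldt n : ℝ)) s :=
    fun s hs => DirichletCharacter.LSeriesSummable_twist_vonMangoldt χ hs
  have tm : ∀ (s : ℂ) (n : ℕ), LSeries.term (fun n : ℕ => χ n * (vonMangoldt n : ℝ)) s (n + 1) =
      χ (n + 1 : ℕ) * (vonMangoldt (n + 1) : ℝ) * (((n + 1 : ℕ) : ℝ) : ℂ) ^ (-s) := fun s n => by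
    rw [LSeries.term_of_ne_zero (by omega), cpow_neg, div_eq_mul_inv, ofReal_natCast]
  obtain ⟨-, -, e⟩ := mellin_sum (a := fun n : ℕ => χ (n + 1 : ℕ) * (vonMangoldt (n + 1) : ℝ))
    (y := fun n : ℕ => ((n + 1 : ℕ) : ℝ)) (fun n => by positivity) (by
      have := ((summable_nat_add_iff 1).2 (sm 2 (by simp))).norm
      refine this.congr fun n => ?_
      rw [tm, norm_mul, norm_cpow_eq_rpow_re_of_pos (by positivity)]
      simp) hX0
  rw [e]
  have e2 : ∀ τ : ℝ, ∑' n : ℕ, χ (n + 1 : ℕ) * (vonMangoldt (n + 1) : ℝ) *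
      (((n + 1 : ℕ) : ℝ) : ℂ) ^ (-(2 + τ * I)) =
      -(deriv (DirichletCharacter.LFunction χ) (2 + τ * I) /
        DirichletCharacter.LFunction χ (2 + τ * I)) := fun τ => by
    have hs : 1 < (2 + τ * I : ℂ).re := by simp
    rw [χ.deriv_LFunction_eq_deriv_LSeries hs, χ.LFunction_eq_LSeries hs, ← neg_div,
      ← χ.LSeries_twist_vonMangoldt_eq hs]
    have := (sm _ hs).sum_add_tsum_nat_add 1
    simp only [Finset.sum_range_one, LSeries.term_zero, zero_add, tm] at this
    exact this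
  simp only [e2, neg_mul, integral_neg, norm_mul, norm_neg]
  refine le_trans (mul_le_of_le_one_left (norm_nonneg _) ?_) h
  rw [norm_div, norm_one, norm_mul, Complex.norm_real, Real.norm_of_nonneg Real.pi_pos.le]
  refine div_le_one_of_le₀ ?_ (by positivity)
  have := Real.pi_gt_three
  simp; linarith

open ArithmeticFunction in
theorem an2_sm {X : ℝ} (hX : 0 < X) :
    Summable fun n : ℕ => vonMangoldt (n + 1) * Wr (((n + 1 : ℕ) : ℝ) / X) :=
  ((summable_nat_add_iff 1).2 (tl_summable hX)).of_nonneg_of_le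
    (fun _ => mul_nonneg vonMangoldt_nonneg (Wr_pos _).le)
    fun _ => mul_le_mul_of_nonneg_right vonMangoldt_le_log (Wr_pos _).le

open ArithmeticFunction in
theorem an2_lower {X : ℝ} (hX : 1 ≤ X) : Real.exp (-9) * X ≤
    ∑' n : ℕ, vonMangoldt (n + 1) * Wr (((n + 1 : ℕ) : ℝ) / X) := by
  have hX0 : 0 < X := one_pos.trans_le hX
  have sm : Summable fun n : ℕ => vonMangoldt n * Wr ((n : ℝ) / X) :=
    (summable_nat_add_iff 1).1 (an2_sm hX0)
  have e := sm.sum_add_tsum_nat_add 1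
  simp only [Finset.sum_range_one, ArithmeticFunction.map_zero, zero_mul, zero_add] at e
  rw [e]
  refine le_trans ?_ (sm.sum_le_tsum (Finset.Ioc ⌊X⌋₊ ⌊16 * X⌋₊)
    fun _ _ => mul_nonneg vonMangoldt_nonneg (Wr_pos _).le)
  have l2 := Real.log_two_lt_d9
  have l2' := Real.log_two_gt_d9
  have l16 : Real.log 16 = 4 * Real.log 2 := by
    rw [show (16 : ℝ) = 2 ^ 4 by norm_num, Real.log_pow]; norm_num
  have l4 : Real.log 4 = 2 * Real.log 2 := by
    rw [show (4 : ℝ) = 2 ^ 2 by norm_num, Real.log_pow]; norm_num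
  have h1 : X ≤ ∑ n ∈ Finset.Ioc ⌊X⌋₊ ⌊16 * X⌋₊, vonMangoldt n := by
    have a := Finset.sum_Ioc_consecutive (fun n => vonMangoldt n) (Nat.zero_le ⌊X⌋₊)
      (Nat.floor_le_floor (show X ≤ 16 * X by linarith))
    have b := Chebyshev.psi_ge' (x := 16 * X) (by positivity)
    have c := Chebyshev.psi_le_const_mul_self hX0.le
    unfold Chebyshev.psi at b c
    have d : Real.log (16 * X + 2) ≤ (16 * X + 2) / 16 - 1 + Real.log 16 := by
      have := Real.log_le_sub_one_of_pos (show 0 < (16 * X + 2) / 16 by positivity)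
      rw [Real.log_div (by positivity) (by norm_num)] at this
      linarith
    rw [l4] at c
    nlinarith
  refine (mul_le_mul_of_nonneg_left h1 (Real.exp_pos _).le).trans ?_
  rw [Finset.mul_sum]
  refine Finset.sum_le_sum fun n hn => ?_
  rw [mul_comm]
  refine mul_le_mul_of_nonneg_left ?_ vonMangoldt_nonneg
  rw [Finset.mem_Ioc] at hn
  have a1 : 1 ≤ n / X := (one_le_div hX0).2 (Nat.lt_of_floor_lt hn.1).le
  have a2 : n / X ≤ 16 := (div_le_iff₀ hX0).2 ((Nat.le_floor_iff (by positivity)).1 hn.2)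
  have l0 : 0 ≤ Real.log (n / X) := Real.log_nonneg a1
  have l1 : Real.log (n / X) ≤ Real.log 16 := Real.log_le_log (by linarith) a2
  unfold Wr
  rw [Real.exp_le_exp]
  nlinarith

open ArithmeticFunction in
theorem small_nonres : ∃ k : ℕ, ∀ p r : ℕ, p.Prime → r.Prime → r ∣ p - 1 →
    ∃ a : ℕ, a ≤ (Nat.log 2 p + 2) ^ k ∧ ¬ ∃ x : ZMod p, x ^ r = (a : ZMod p) := by
  obtain ⟨C, hC, H⟩ := an2_upper
  obtain ⟨T, hT, HT⟩ := tl_tail
  obtain ⟨k, hk⟩ := tl_num (c := Real.exp (-9)) (C := 6 * C + 2 * T) (σ := 9995 / 10000)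
    (Real.exp_pos _) (by norm_num) 1
  refine ⟨k * 3, fun p r hp hr hd => ?_⟩
  have : Fact p.Prime := ⟨hp⟩
  obtain ⟨χ, hχ⟩ := MulChar.exists_mulChar_orderOf (R := ℂ) (ZMod p) (n := r)
    (by simpa using hd) (Complex.isPrimitiveRoot_exp r hr.ne_zero)
  have h1 : χ ≠ 1 := fun h => by rw [h, orderOf_one] at hχ; exact hr.one_lt.ne hχ
  have hpow : ∀ x : ZMod p, x ^ r ≠ 0 → χ (x ^ r) = 1 := fun x hx => by
    have hx0 : x ≠ 0 := fun h => hx (by rw [h, zero_pow hr.ne_zero])
    rw [map_pow, ← MulChar.pow_apply' χ hr.ne_zero, ← hχ, pow_orderOf_eq_one,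
      MulChar.one_apply (Ne.isUnit hx0)]
  by_contra hc
  push Not at hc
  by_cases hY : p ≤ (Nat.log 2 p + 2) ^ (k * 3)
  · refine h1 (MulChar.ext fun u => ?_)
    obtain ⟨x, hx⟩ := hc (u : ZMod p).val ((ZMod.val_lt _).le.trans hY)
    rw [ZMod.natCast_zmod_val] at hx
    rw [MulChar.one_apply_coe, ← hx]
    exact hpow x (by rw [hx]; exact u.ne_zero)
  set N : ℝ := ((Nat.log 2 p + 2 : ℕ) : ℝ) with hN
  have N2 : 2 ≤ N := by rw [hN]; exact_mod_cast Nat.le_add_left 2 _
  have hX : 1 ≤ N ^ k := one_le_pow₀ (by linarith)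
  have hX0 : 0 < N ^ k := by positivity
  have up := H p χ h1 _ hX
  have lo := an2_lower hX
  have tl := HT _ hX
  have s1 := an2_sm hX0
  have s2 : Summable fun l : ℕ => if (N ^ k) ^ 3 < (l : ℝ) then Real.log l * Wr (l / N ^ k)
      else 0 := (tl_summable hX0).of_nonneg_of_le
        (fun l => by split_ifs; exacts [tl_nonneg _ l, le_rfl])
        (fun l => by split_ifs; exacts [le_rfl, tl_nonneg _ l])
  have e2 := s2.sum_add_tsum_nat_add 1
  simp only [Finset.sum_range_one, Nat.cast_zero, Real.log_zero, zero_mul, ite_self,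
    zero_add] at e2
  have s3 : Summable fun n : ℕ => χ (n + 1 : ℕ) * (vonMangoldt (n + 1) : ℝ) *
      (Wr (((n + 1 : ℕ) : ℝ) / N ^ k) : ℂ) := by
    refine .of_norm_bounded s1 fun n => ?_
    rw [norm_mul, norm_mul, Complex.norm_real, Complex.norm_real,
      Real.norm_of_nonneg vonMangoldt_nonneg, Real.norm_of_nonneg (Wr_pos _).le, mul_assoc]
    exact mul_le_of_le_one_left (mul_nonneg vonMangoldt_nonneg (Wr_pos _).le)
      (DirichletCharacter.norm_le_one χ _)
  have key := (s1.hasSum.sub (((summable_nat_add_iff 1).2 s2).hasSum.mul_left 2))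
  have key2 := hasSum_le (fun n => ?_) key (Complex.hasSum_re s3.hasSum)
  · rw [e2] at key2
    have a1 := (key2.trans (re_le_norm _)).trans up
    have a2 := hk N N2
    have a3 : Real.log p + 10 ≤ 6 * N := by
      have := tl_log hp.ne_zero
      rw [hN]; push_cast
      have : (0 : ℝ) ≤ Nat.log 2 p := by positivity
      linarith
    have a4 : 1 ≤ (N ^ k) ^ (9995 / 10000 : ℝ) := Real.one_le_rpow hX (by norm_num)
    have a5 : C * (Real.log p + 10) * (N ^ k) ^ (9995 / 10000 : ℝ) ≤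
        C * (6 * N) * (N ^ k) ^ (9995 / 10000 : ℝ) := by gcongr
    have a6 : 2 * T ≤ 2 * T * N * (N ^ k) ^ (9995 / 10000 : ℝ) := by
      have : 1 ≤ N * (N ^ k) ^ (9995 / 10000 : ℝ) := one_le_mul_of_one_le_of_one_le (by linarith) a4
      nlinarith
    nlinarith
  · have w0 := Wr_pos (((n + 1 : ℕ) : ℝ) / N ^ k)
    have v0 : 0 ≤ vonMangoldt (n + 1) := vonMangoldt_nonneg
    have v1 : vonMangoldt (n + 1) ≤ Real.log (n + 1 : ℕ) := vonMangoldt_le_log
    rw [mul_assoc, ← ofReal_mul, mul_comm (χ _), re_ofReal_mul]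
    split_ifs with h
    · have := (abs_le.1 ((abs_re_le_norm (χ (n + 1 : ℕ))).trans
        (DirichletCharacter.norm_le_one χ _))).1
      nlinarith [mul_nonneg v0 w0.le, mul_le_mul_of_nonneg_right v1 w0.le]
    · have h2 : n + 1 ≤ (Nat.log 2 p + 2) ^ (k * 3) := by
        have : ((n + 1 : ℕ) : ℝ) ≤ N ^ (k * 3) := by rw [pow_mul]; exact not_lt.1 h
        rw [hN] at this
        exact_mod_cast this
      obtain ⟨x, hx⟩ := hc _ h2
      have h3 : ((n + 1 : ℕ) : ZMod p) ≠ 0 := fun h0 =>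
        absurd (Nat.le_of_dvd (by omega) ((ZMod.natCast_eq_zero_iff _ _).1 h0)) (by omega)
      rw [← hx, hpow x (by rw [hx]; exact h3)]
      simp

end

end Vale.Agent.P319E
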