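import Vale.Agent.P319E.Defs

namespace Vale.Agent.P319E

open NumberField Complex MeasureTheory Filter Topology IsDedekindDomain
open scoped Classical Real nonZeroDivisors

noncomputable section

variable {K : Type} [Field K] [NumberField K]

open mixedEmbedding.fundamentalCone Units.dirichletUnitTheorem

theorem yy_pos (c : InfinitePlace K → ℝ) (w : InfinitePlace K) : 0 < yy c w :=
  pow_pos (expMapBasis_pos c w) 2

theorem yy_neg (c : InfinitePlace K → ℝ) : yy (-c) = fun w => (yy c w)⁻¹ := by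
  ext w
  simp [yy, expMapBasis_apply, Real.exp_neg]

theorem arch_add (c d : InfinitePlace K → ℝ) (w : InfinitePlace K) :
    yy (c + d) w = yy c w * yy d w := by
  simp only [yy, expMapBasis_apply, map_add, expMap_add, Pi.mul_apply, mul_pow]

theorem continuous_yy : Continuous (yy (K := K)) :=
  continuous_pi fun w => ((continuous_apply w).comp (continuous_expMapBasis K)).pow 2

theorem prod_yy [IsTotallyComplex K] (c : InfinitePlace K → ℝ) :
    ∏ w, yy c w = Real.exp (Module.finrank ℚ K * c Units.dirichletUnitTheorem.w₀) := by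
  rw [Real.exp_nat_mul, ← prod_expMapBasis_pow]
  exact Finset.prod_congr rfl fun w _ => by rw [IsTotallyComplex.mult_eq]; rfl

/-- the integer vector attached to the exponents of the fundamental units -/
def uv (e : Fin (Units.rank K) → ℤ) : InfinitePlace K → ℝ := fun i =>
  if h : i = Units.dirichletUnitTheorem.w₀ then 0
  else (e (mixedEmbedding.fundamentalCone.equivFinRank.symm ⟨i, h⟩) : ℝ)

theorem arch_uv (e : Fin (Units.rank K) → ℤ) (w : InfinitePlace K) :
    yy (uv e) w = (∏ i, w (Units.fundSystem K i) ^ e i) ^ 2 := by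
  rw [yy, expMapBasis_apply', ← Equiv.prod_comp equivFinRank.symm]
  simp only [uv, dif_pos, Real.exp_zero, one_smul]
  congr 1
  refine Finset.prod_congr rfl fun i _ => ?_
  rw [dif_neg i.2, Real.rpow_intCast]

theorem gs_unit (c : InfinitePlace K → ℝ) (a : K) (ζ : Units.torsion K)
    (e : Fin (Units.rank K) → ℤ) :
    gs (yy c) (a * ((((ζ : (𝓞 K)ˣ) * ∏ i, Units.fundSystem K i ^ e i : (𝓞 K)ˣ) : 𝓞 K) : K)) =
      gs (yy (c + uv e)) a := by
  unfold gs
  congr 2
  refine Finset.sum_congr rfl fun w _ => ?_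
  have e1 : w (((∏ i, Units.fundSystem K i ^ e i : (𝓞 K)ˣ) : 𝓞 K) : K) =
      ∏ i, w (Units.fundSystem K i) ^ e i := by
    rw [Units.coe_prod, RingOfIntegers.coe_eq_algebraMap, map_prod, map_prod]
    refine Finset.prod_congr rfl fun i _ => ?_
    rw [Units.coe_zpow, map_zpow₀]
  have e2 : w (((ζ : (𝓞 K)ˣ) : 𝓞 K) : K) = 1 := (Units.mem_torsion K).1 ζ.2 w
  rw [arch_add, arch_uv, map_mul, Units.val_mul, RingOfIntegers.coe_eq_algebraMap, map_mul,
    map_mul, ← e1]
  rw [RingOfIntegers.coe_eq_algebraMap] at e2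
  rw [e2, RingOfIntegers.coe_eq_algebraMap]
  ring

theorem bt_nonneg (c : InfinitePlace K → ℝ) : 0 ≤ bt c := by
  unfold bt; positivity

theorem bt_neg (c : InfinitePlace K → ℝ) : bt (-c) = bt c := by
  simp only [bt, neg_neg, add_comm]

theorem arch_box : MeasurableSet (Box K) := by
  unfold Box
  measurability

theorem measurable_bt : Measurable (bt (K := K)) :=
  ((Measurable.ite arch_box measurable_const measurable_const).add
    (Measurable.ite (measurable_neg arch_box) measurable_const measurable_const)).div_const 2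

theorem arch_uv_eq (e : Fin (Units.rank K) → ℤ) (j : Fin (Units.rank K)) :
    uv e (equivFinRank j : {w : InfinitePlace K // w ≠ w₀}) = e j := by
  simp [uv, (equivFinRank j).2]

theorem arch_mem (c : InfinitePlace K → ℝ) : c ∈ Box K ↔
    ∀ j : Fin (Units.rank K), c (equivFinRank j : {w : InfinitePlace K // w ≠ w₀}) ∈
      Set.Ico (0 : ℝ) 1 :=
  ⟨fun h j => h _ (equivFinRank j).2, fun h i hi => by simpa using h (equivFinRank.symm ⟨i, hi⟩)⟩

theorem hasSum_bt (c : InfinitePlace K → ℝ) :
    HasSum (fun e : Fin (Units.rank K) → ℤ => bt (c - uv e)) 1 := by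
  have h1 : ∀ e : Fin (Units.rank K) → ℤ, c - uv e ∈ Box K ↔
      e = fun j => ⌊c (equivFinRank j : {w : InfinitePlace K // w ≠ w₀})⌋ := fun e => by
    rw [arch_mem, funext_iff]
    refine forall_congr' fun j => ?_
    rw [Pi.sub_apply, arch_uv_eq, eq_comm, Int.floor_eq_iff, Set.mem_Ico]
    constructor <;> rintro ⟨a, b⟩ <;> constructor <;> linarith
  have h2 : ∀ e : Fin (Units.rank K) → ℤ, -(c - uv e) ∈ Box K ↔
      e = fun j => ⌈c (equivFinRank j : {w : InfinitePlace K // w ≠ w₀})⌉ := fun e => by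
    rw [arch_mem, funext_iff]
    refine forall_congr' fun j => ?_
    rw [Pi.neg_apply, Pi.sub_apply, arch_uv_eq, eq_comm, Int.ceil_eq_iff, Set.mem_Ico]
    constructor <;> rintro ⟨a, b⟩ <;> constructor <;> linarith
  simp only [bt, h1, h2]
  have := ((hasSum_ite_eq (fun j => ⌊c (equivFinRank j : {w : InfinitePlace K // w ≠ w₀})⌋)
    (1 : ℝ)).add (hasSum_ite_eq
      (fun j => ⌈c (equivFinRank j : {w : InfinitePlace K // w ≠ w₀})⌉) (1 : ℝ))).div_const 2
  rwa [add_self_div_two] at this

theorem arch_ind {g : ℝ → ℝ} (hg : Integrable g) {S : Set ℝ} (hS : MeasurableSet S)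
    (h1 : volume S = 1) (P : (InfinitePlace K → ℝ) → Prop) [DecidablePred P]
    (hP : ∀ c, P c ↔ ∀ i, i ≠ w₀ → c i ∈ S) :
    Integrable (fun c : InfinitePlace K → ℝ => (if P c then 1 else 0) * g (c w₀)) ∧
    ∫ c : InfinitePlace K → ℝ, (if P c then 1 else 0) * g (c w₀) = ∫ t, g t := by
  set f : InfinitePlace K → ℝ → ℝ := fun i => if i = w₀ then g else S.indicator 1 with hf
  have e : ∀ c : InfinitePlace K → ℝ, (if P c then 1 else 0) * g (c w₀) =
      ∏ i, f i (c i) := fun c => by
    rw [← Finset.mul_prod_erase _ _ (Finset.mem_univ w₀), mul_comm]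
    congr 1
    · simp [hf]
    · rw [Finset.prod_congr rfl (g := fun i => if c i ∈ S then (1 : ℝ) else 0) fun i hi => by
        simp [hf, Finset.ne_of_mem_erase hi, Set.indicator], Finset.prod_boole]
      simp [hP]
  simp only [e]
  refine ⟨Integrable.fintype_prod fun i => ?_, ?_⟩
  · simp only [hf]
    split_ifs
    · exact hg
    · exact (integrable_indicator_iff hS).2 (integrableOn_const (by simp [h1]))
  · rw [integral_fintype_prod_volume_eq_prod, ← Finset.mul_prod_erase _ _ (Finset.mem_univ w₀),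
      Finset.prod_eq_one fun i hi => ?_]
    · simp [hf]
    · simp [hf, Finset.ne_of_mem_erase hi, integral_indicator_one hS, Measure.real, h1]

theorem integral_bt {g : ℝ → ℝ} (hg : Integrable g) :
    Integrable (fun c : InfinitePlace K → ℝ => bt c * g (c Units.dirichletUnitTheorem.w₀)) ∧
    ∫ c : InfinitePlace K → ℝ, bt c * g (c Units.dirichletUnitTheorem.w₀) = ∫ t, g t := by
  obtain ⟨a1, a2⟩ := arch_ind (K := K) hg (S := Set.Ico 0 1) measurableSet_Ico (by simp)
    (fun c => c ∈ Box K) fun c => Iff.rfl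
  obtain ⟨b1, b2⟩ := arch_ind (K := K) hg (S := Set.Ioc (-1) 0) measurableSet_Ioc (by simp)
    (fun c => -c ∈ Box K) fun c => forall₂_congr fun i _ => by
      rw [Pi.neg_apply, Set.mem_Ico, Set.mem_Ioc]
      constructor <;> rintro ⟨a, b⟩ <;> constructor <;> linarith
  have e : ∀ c : InfinitePlace K → ℝ, bt c * g (c w₀) =
      ((if c ∈ Box K then 1 else 0) * g (c w₀) +
      (if -c ∈ Box K then 1 else 0) * g (c w₀)) / 2 := fun c => by
    unfold bt; ring
  simp only [e]
  refine ⟨(a1.add b1).div_const 2, ?_⟩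
  rw [integral_div, integral_add a1 b1, a2, b2, add_self_div_two]

theorem arch_one {σ t : ℝ} (hσ : 0 < σ) (ht : 0 < t) :
    ∫ x : ℝ, Real.exp (-(t * Real.exp x)) * Real.exp (σ * x) = Real.Gamma σ * t ^ (-σ) := by
  have := integral_image_eq_integral_abs_deriv_smul MeasurableSet.univ
    (fun x _ => (Real.hasDerivAt_exp x).hasDerivWithinAt) Real.exp_injective.injOn
    fun u => u ^ (σ - 1) * Real.exp (-(t * u))
  rw [Set.image_univ, Real.range_exp, Real.integral_rpow_mul_exp_neg_mul_Ioi hσ ht,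
    Measure.restrict_univ, one_div, Real.inv_rpow ht.le, ← Real.rpow_neg ht.le, mul_comm] at this
  rw [this]
  refine integral_congr_ae (ae_of_all _ fun x => ?_)
  simp only [abs_of_pos (Real.exp_pos x), smul_eq_mul, ← Real.exp_mul, ← Real.exp_add]
  congr 1; ring

theorem arch [IsTotallyComplex K] : ∃ J : ℝ, 0 < J ∧ ∀ (σ : ℝ) (a : K), 0 < σ → a ≠ 0 →
    Integrable (fun c : InfinitePlace K → ℝ => gs (yy c) a *
      Real.exp (σ * (Module.finrank ℚ K * c Units.dirichletUnitTheorem.w₀))) ∧
    ∫ c : InfinitePlace K → ℝ, gs (yy c) a *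
      Real.exp (σ * (Module.finrank ℚ K * c Units.dirichletUnitTheorem.w₀)) =
      J * (Real.Gamma σ * (2 * π) ^ (-σ)) ^ Fintype.card (InfinitePlace K) *
        |((Algebra.norm ℚ a : ℚ) : ℝ)| ^ (-σ) := by
  set L : (InfinitePlace K → ℝ) ≃L[ℝ] (InfinitePlace K → ℝ) := (completeBasis K).equivFunL.symm
    with hL
  have hd : LinearMap.det (L : (InfinitePlace K → ℝ) →ₗ[ℝ] (InfinitePlace K → ℝ)) ≠ 0 :=
    (LinearEquiv.isUnit_det' L.toLinearEquiv).ne_zero
  have hJ := abs_pos.2 (inv_ne_zero hd)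
  refine ⟨_, hJ, fun σ a hσ ha => ?_⟩
  have hy : ∀ c w, yy c w = Real.exp (L c w) := fun c w => by
    rw [yy, expMapBasis_apply, expMap_apply, IsTotallyComplex.mult_eq, ← Real.exp_nat_mul]
    congr 1
    push_cast
    rw [mul_inv_cancel_left₀ two_ne_zero]; rfl
  set F : (InfinitePlace K → ℝ) → ℝ := fun x =>
    ∏ w, Real.exp (-(2 * π * w a ^ 2 * Real.exp (x w))) * Real.exp (σ * x w) with hF
  have e : ∀ c, gs (yy c) a * Real.exp (σ * (Module.finrank ℚ K * c w₀)) = F (L c) := fun c => by
    have := prod_yy c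
    simp only [hy, ← Real.exp_sum, Real.exp_eq_exp] at this
    simp only [hF, gs, hy, ← this, ← Real.exp_add, ← Real.exp_sum, Finset.mul_sum,
      ← Finset.sum_add_distrib]
    congr 1
    exact Finset.sum_congr rfl fun w _ => by ring
  have i1 : ∫ c, F (L c) = |(LinearMap.det
      (L : (InfinitePlace K → ℝ) →ₗ[ℝ] (InfinitePlace K → ℝ)))⁻¹| * ∫ x, F x := by
    refine (L.toHomeomorph.measurableEmbedding.integral_map (μ := volume) F).symm.trans ?_
    have := Real.map_linearMap_volume_pi_eq_smul_volume_pi hd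
    rw [show Measure.map L.toHomeomorph volume = _ from this, integral_smul_measure,
      ENNReal.toReal_ofReal hJ.le, smul_eq_mul]
  have hw : ∀ w : InfinitePlace K, 0 < w a ^ 2 := fun w => pow_pos (w.pos_iff.2 ha) 2
  have i2 : ∫ x, F x = (Real.Gamma σ * (2 * π) ^ (-σ)) ^ Fintype.card (InfinitePlace K) *
      |((Algebra.norm ℚ a : ℚ) : ℝ)| ^ (-σ) := by
    refine (integral_fintype_prod_volume_eq_prod fun (w : InfinitePlace K) (x : ℝ) =>
      Real.exp (-(2 * π * w a ^ 2 * Real.exp x)) * Real.exp (σ * x)).trans ?_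
    rw [← Rat.cast_abs, ← InfinitePlace.prod_eq_abs_norm,
      ← Real.finsetProd_rpow _ _ fun w _ => by positivity, ← Finset.card_univ, ← Finset.prod_const,
      ← Finset.prod_mul_distrib]
    refine Finset.prod_congr rfl fun w _ => ?_
    rw [arch_one hσ (mul_pos (by positivity) (hw w)), Real.mul_rpow (by positivity) (hw w).le,
      IsTotallyComplex.mult_eq, mul_assoc]
  simp only [e]
  rw [mul_assoc, ← i2]
  refine ⟨Integrable.of_integral_ne_zero ?_, i1⟩
  rw [i1, i2]
  have := Real.Gamma_pos_of_pos hσ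
  have : 0 < |((Algebra.norm ℚ a : ℚ) : ℝ)| :=
    abs_pos.2 (Rat.cast_ne_zero.2 (Algebra.norm_ne_zero_iff.2 ha))
  positivity

end

end Vale.Agent.P319E
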