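import Vale.Agent.P319E.Cv0

namespace Vale.Agent.P319E

open NumberField Complex MeasureTheory Filter Topology IsDedekindDomain
open scoped Classical Real nonZeroDivisors

noncomputable section

variable {K : Type} [Field K] [NumberField K]

theorem logd_sum (I : Ideal (𝓞 K)) (hI : I ≠ 0) :
    HasSum (fun p : HeightOneSpectrum (𝓞 K) × ℕ => if p.1.asIdeal ^ (p.2 + 1) ∣ I then
      (Real.log (nm p.1.asIdeal) : ℂ) else 0) (Real.log (nm I) : ℂ) := by
  induction I using UniqueFactorizationMonoid.induction_on_prime with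
  | h₁ => exact absurd rfl hI
  | h₂ I h =>
    obtain rfl : I = 1 := by simpa using h
    rw [cv_nm_one, Real.log_one, ofReal_zero]
    convert hasSum_zero using 2 with p
    exact if_neg fun c => p.1.prime.not_dvd_one ((dvd_pow_self _ (Nat.succ_ne_zero _)).trans c)
  | h₃ J Q hJ hQ ih =>
    obtain ⟨v, J', h1, h2⟩ := WfDvdMonoid.max_power_factor hJ hQ.irreducible
    let P : HeightOneSpectrum (𝓞 K) := ⟨Q, (Ideal.prime_iff_isPrime hQ.ne_zero).1 hQ, hQ.ne_zero⟩
    have k : ∀ j : ℕ, Q ^ j ∣ J ↔ j ≤ v := fun j =>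
      ⟨fun h => not_lt.1 fun c => h1 <| (mul_dvd_mul_iff_left (pow_ne_zero v hQ.ne_zero)).1 <| by
        rw [← h2, ← pow_succ]; exact (pow_dvd_pow Q c).trans h,
        fun h => h2 ▸ (pow_dvd_pow Q h).mul_right _⟩
    have h3 := (hasSum_ite_eq (P, v) (Real.log (nm Q) : ℂ)).add (ih hJ)
    rw [nm_mul, Real.log_mul (one_pos.trans_le (one_le_nm hQ.ne_zero)).ne'
      (one_pos.trans_le (one_le_nm hJ)).ne', ofReal_add]
    convert h3 using 2 with p
    obtain ⟨P', j⟩ := p
    by_cases e : P' = P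
    · subst e
      simp only [P, pow_succ' Q j, mul_dvd_mul_iff_left hQ.ne_zero, Prod.mk.injEq, true_and]
      rw [← pow_succ', k, k]
      split_ifs <;> first | omega | simp
    · have c : ¬ P'.asIdeal ∣ Q := fun c => e (HeightOneSpectrum.ext
        (associated_iff_eq.1 (P'.prime.associated_of_dvd hQ c)))
      rw [if_neg fun c : (P', j) = (P, v) => e (Prod.ext_iff.1 c).1, zero_add]
      exact if_congr ⟨P'.prime.pow_dvd_of_dvd_mul_left _ c, fun h => h.mul_left _⟩ rfl rfl

theorem hasDerivAt_Zc {s : ℂ} (hs : 1 < s.re) : HasDerivAt (Zc K) (-(Lc K s * Zc K s)) s := by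
  obtain ⟨δ, hδ⟩ : ∃ δ, δ = (s.re - 1) / 3 := ⟨_, rfl⟩
  have d0 : 0 < δ := by linarith
  have h1 := hasDerivAt_tsum_of_isPreconnected (t := {z : ℂ | 1 + 2 * δ < z.re})
    (g := fun (I : Ideal (𝓞 K)) (z : ℂ) => ((nm I : ℝ) : ℂ) ^ (-z))
    (g' := fun (I : Ideal (𝓞 K)) (z : ℂ) => ((nm I : ℝ) : ℂ) ^ (-z) * log (nm I) * -1)
    ((summable_nm (K := K) (σ := 1 + δ) (by linarith)).div_const δ)
    (isOpen_lt continuous_const continuous_re) (convex_halfSpace_re_gt _).isPreconnected
    (fun I z hz => (hasDerivAt_neg z).const_cpow (Or.inr (neg_ne_zero.2 fun c => by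
      rw [c, Set.mem_ofPred_eq, zero_re] at hz; linarith)))
    (fun I z hz => by
      have hz' : 1 + 2 * δ < z.re := hz
      rw [norm_mul, norm_mul, norm_neg, norm_one, mul_one, cv_norm _ (by linarith),
        ← ofReal_log (nm_nonneg I), norm_real]
      by_cases h : I = ⊥
      · have := nm_nonneg I
        rw [show Real.log (nm I) = 0 by rw [h, ← Ideal.zero_eq_bot, cv_nm_zero, Real.log_zero],
          norm_zero, mul_zero]
        positivity
      · have n1 := one_le_nm h
        rw [Real.norm_of_nonneg (Real.log_nonneg n1)]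
        calc _ ≤ nm I ^ (-(1 + 2 * δ)) * (nm I ^ δ / δ) := by
              gcongr
              · exact Real.log_nonneg n1
              · exact Real.log_le_rpow_div (by linarith) d0
          _ = _ := by
              rw [← mul_div_assoc, ← Real.rpow_add (by linarith)]; congr 2; ring)
    (y₀ := s) (y := s) (show 1 + 2 * δ < s.re by linarith) (cv_summ hs).of_norm
    (show 1 + 2 * δ < s.re by linarith)
  have e : ∀ p : HeightOneSpectrum (𝓞 K) × ℕ,
      nm p.1.asIdeal ^ (p.2 + 1) = nm (p.1.asIdeal ^ (p.2 + 1)) := fun p => by simp [nm]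
  have h2 := cv_conv hs (fun p : HeightOneSpectrum (𝓞 K) × ℕ => p.1.asIdeal ^ (p.2 + 1))
    (fun p => pow_ne_zero _ p.1.ne_bot) (fun p => (Real.log (nm p.1.asIdeal) : ℂ)) (by
      refine (summable_L (K := K) hs).congr fun p => ?_
      rw [norm_mul, cv_norm _ (by linarith), norm_real,
        Real.norm_of_nonneg (Real.log_nonneg (one_le_nm p.1.ne_bot)), e])
  refine h1.congr_deriv (Eq.symm ?_)
  simp only [Lc, e]
  rw [h2, ← tsum_neg]
  refine tsum_congr fun I => ?_
  by_cases h : I = 0
  · have : s ≠ 0 := fun c => by rw [c, zero_re] at hs; linarith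
    rw [h, cv_nm_zero, ofReal_zero, zero_cpow (neg_ne_zero.2 this), zero_mul, zero_mul, zero_mul,
      neg_zero]
  · rw [(logd_sum I h).tsum_eq, ofReal_log (nm_nonneg I)]
    ring

end

end Vale.Agent.P319E
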