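import Vale.Agent.P319E.Hec
import Vale.Agent.P319E.Conv
import Vale.Agent.P319E.LogD
import Vale.Agent.P026.GamB

namespace Vale.Agent.P319E

open NumberField Complex MeasureTheory Filter Topology IsDedekindDomain
open scoped Classical Real nonZeroDivisors

noncomputable section

theorem cont_id {f g : ℂ → ℂ} (hf : DifferentiableOn ℂ f {s | 1 < s.re})
    (hg : DifferentiableOn ℂ g {s | 1 < s.re}) (h : ∀ σ : ℝ, 1 < σ → f σ = g σ) {s : ℂ}
    (hs : 1 < s.re) : f s = g s := by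
  have ho : IsOpen {s : ℂ | 1 < s.re} := isOpen_lt continuous_const continuous_re
  refine (hf.analyticOnNhd ho).eqOn_of_preconnected_of_frequently_eq (hg.analyticOnNhd ho)
    (convex_halfSpace_re_gt 1).isPreconnected (z₀ := ((2 : ℝ) : ℂ)) (by simp) ?_ hs
  have ht : Tendsto (fun x : ℝ => (x : ℂ)) (𝓝[>] 2) (𝓝[≠] ((2 : ℝ) : ℂ)) :=
    tendsto_nhdsWithin_iff.2 ⟨(continuous_ofReal.tendsto 2).mono_left nhdsWithin_le_nhds, by
      filter_upwards [self_mem_nhdsWithin] with x hx
      exact fun h => (Set.mem_Ioi.1 hx).ne' (Complex.ofReal_injective h)⟩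
  refine ht.frequently (Eventually.frequently ?_)
  filter_upwards [self_mem_nhdsWithin] with x hx
  exact h x (by linarith [Set.mem_Ioi.1 hx])

theorem zeta_cont : ∃ C : ℝ, 0 < C ∧ ∀ (K : Type) [Field K] [NumberField K] [IsTotallyComplex K],
    ∃ g : ℂ → ℂ, DifferentiableOn ℂ g {s | 0 < s.re} ∧ g 1 ≠ 0 ∧
      (∀ s : ℂ, 1 < s.re → g s = (s - 1) * Zc K s) ∧
      ∀ s : ℂ, 1 / 2 ≤ s.re → s.re ≤ 4 → ‖g s‖ ≤ Real.exp (C * lD K * (1 + |s.im|)) := by
  obtain ⟨C, hC0, hC⟩ := Vale.Agent.P026.inv_Gamma_le (1 / 2) 4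
  refine ⟨40 + 6 * C, by positivity, fun K _ _ _ => ?_⟩
  obtain ⟨J, hJ, hU⟩ := unfold (K := K)
  obtain ⟨A, hA, hA'⟩ := exists_reps (K := K)
  have hn : (1 : ℝ) ≤ (Module.finrank ℚ K : ℕ) := by exact_mod_cast Module.finrank_pos
  have hr : (Fintype.card (InfinitePlace K) : ℝ) ≤ (Module.finrank ℚ K : ℕ) := by
    have h1 := InfinitePlace.card_add_two_mul_card_eq_rank K
    have h2 := InfinitePlace.card_eq_nrRealPlaces_add_nrComplexPlaces K
    exact_mod_cast (by omega : Fintype.card (InfinitePlace K) ≤ Module.finrank ℚ K)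
  have hD : (1 : ℝ) ≤ |(discr K : ℝ)| := by exact_mod_cast Int.one_le_abs (discr_ne_zero K)
  set n : ℝ := ((Module.finrank ℚ K : ℕ) : ℝ) with hnd
  set D : ℝ := |(discr K : ℝ)| with hDd
  set r := Fintype.card (InfinitePlace K) with hrd
  set h : ℝ := (Fintype.card (ClassGroup (𝓞 K)) : ℝ) with hh
  have hh0 : 0 < h := by rw [hh]; exact_mod_cast Fintype.card_pos
  have hpi := Real.pi_pos
  have hn' : ((n : ℝ) : ℂ) ≠ 0 := by exact_mod_cast (by linarith : n ≠ 0)
  have hJ' : ((J : ℝ) : ℂ) ≠ 0 := by exact_mod_cast hJ.ne'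
  have hD' : ((D : ℝ) : ℂ) ≠ 0 := by exact_mod_cast (by linarith : D ≠ 0)
  have hp' : ((2 * π : ℝ) : ℂ) ≠ 0 := by exact_mod_cast (by positivity : 2 * π ≠ 0)
  set S : ℂ → ℂ := fun s => ∑ c, (PP (A c) s + PP (dualU (A c)) (1 - s)) with hS
  have hSd : Differentiable ℂ S := Differentiable.fun_sum fun c _ =>
    (differentiable_PP _).add ((differentiable_PP _).comp (by fun_prop))
  have hsum : ∀ σ : ℝ, 1 < σ → ((J * gam K σ * Zr K σ : ℝ) : ℂ) =
      S σ + ((h / (n * (σ * (σ - 1))) : ℝ) : ℂ) := fun σ hσ => by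
    rw [← sum_Zcl A hA hσ, Finset.mul_sum, Complex.ofReal_sum]
    simp only [← (hU _ σ hσ).2, hecke_real _ hσ, Finset.sum_add_distrib (f := fun c => _ + _),
      Finset.sum_const, Finset.card_univ, nsmul_eq_mul, hS, hh, hnd]
    push_cast
    ring
  set g : ℂ → ℂ := fun s => (s * (s - 1) * S s + ((h / n : ℝ) : ℂ)) * (s⁻¹ * (J : ℂ)⁻¹ *
    (((Complex.Gamma s)⁻¹ * ((2 * π : ℝ) : ℂ) ^ s) ^ r * (D : ℂ) ^ (-(s / 2)))) with hg
  have hgd : DifferentiableOn ℂ g {s | 0 < s.re} := fun s hs => by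
    have hs0 : s ≠ 0 := fun h => by simp [h] at hs
    refine (DifferentiableAt.mul (by fun_prop) (((differentiableAt_inv hs0).mul_const _).mul
      ((((Complex.differentiable_one_div_Gamma s).mul ?_).pow r).mul ?_))).differentiableWithinAt
    · exact differentiableAt_id.const_cpow (Or.inl hp')
    · exact DifferentiableAt.const_cpow (by fun_prop) (Or.inl hD')
  refine ⟨g, hgd, ?_, fun s hs => cont_id (g := fun s => (s - 1) * Zc K s) (hgd.mono fun s (hs : 1 < s.re) => by
    show 0 < s.re; linarith) (fun s hs => ((differentiableAt_id.sub_const 1).mul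
      (hasDerivAt_Zc hs).differentiableAt).differentiableWithinAt) (fun σ hσ => ?_) hs,
    fun s h1 h2 => ?_⟩
  · have : ((h / n : ℝ) : ℂ) ≠ 0 := by exact_mod_cast (by positivity : h / n ≠ 0)
    simp only [hg, sub_self, mul_zero, zero_mul, zero_add, Complex.Gamma_one, inv_one, one_mul,
      Complex.cpow_one]
    exact mul_ne_zero this (mul_ne_zero (inv_ne_zero hJ') (mul_ne_zero (pow_ne_zero _ hp')
      (by simp [hD'])))
  · have e := hsum σ hσ
    have g0 : (σ : ℂ) ≠ 0 := by exact_mod_cast (by linarith : σ ≠ 0)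
    have g1 : (σ : ℂ) - 1 ≠ 0 := by exact_mod_cast (by linarith : σ - 1 ≠ 0)
    have g2 : Complex.Gamma σ ≠ 0 := Complex.Gamma_ne_zero_of_re_pos (by simp; linarith)
    have g3 : ((2 * π : ℝ) : ℂ) ^ (σ : ℂ) ≠ 0 := by simp [Real.pi_ne_zero]
    have g4 : (D : ℂ) ^ (σ / 2 : ℂ) ≠ 0 := by simp [hD']
    rw [gam, Complex.ofReal_mul, Complex.ofReal_mul, Complex.ofReal_mul, Complex.ofReal_pow,
      Complex.ofReal_mul, ← Complex.Gamma_ofReal, Complex.ofReal_cpow (by positivity),
      Complex.ofReal_cpow (by positivity), Complex.ofReal_neg, Complex.cpow_neg,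
      ← sub_eq_iff_eq_add] at e
    simp only [hg]
    rw [← e, Zc_ofReal, Complex.cpow_neg (D : ℂ), ← hrd, ← hDd, mul_pow, mul_pow, inv_pow, inv_pow]
    generalize ((2 * π : ℝ) : ℂ) ^ (σ : ℂ) = P at g3
    push_cast
    field_simp
    ring
  · set W := J * gam K 4 * Zr K 4 with hW
    have a1 : ‖S s‖ ≤ 2 * W := by
      refine (norm_sum_le_of_le _ (n := fun c => J * gam K 4 * Zcl (A c) 4 +
        J * gam K 4 * Zcl (dualU (A c)) 4) fun c _ => (norm_add_le _ _).trans (add_le_add ?_ ?_)).trans_eq ?_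
      · rw [← (hU _ 4 (by norm_num)).2]
        exact norm_PP_le _ (by norm_num) h2
      · rw [← (hU _ 4 (by norm_num)).2]
        exact norm_PP_le _ (by norm_num) (by simp; linarith)
      · rw [Finset.sum_add_distrib, ← Finset.mul_sum, ← Finset.mul_sum,
          sum_Zcl A hA (by norm_num), sum_Zcl (fun c => dualU (A c)) hA' (by norm_num), hW]
        ring
    have a2 : h / n ≤ 12 * W := by
      have e := congrArg re (hsum 4 (by norm_num))
      have : 0 ≤ (S (4 : ℝ)).re := by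
        rw [hS, re_sum]
        refine Finset.sum_nonneg fun c _ => ?_
        rw [add_re, show (1 - (4 : ℝ) : ℂ) = ((1 - 4 : ℝ) : ℂ) by push_cast; rfl]
        exact add_nonneg (PP_re_nonneg _ _) (PP_re_nonneg _ _)
      rw [ofReal_re, add_re, ofReal_re, ← hW, ← div_div] at e
      linarith
    have hW0 : 0 ≤ W := by linarith [div_pos hh0 (show 0 < n by linarith)]
    have s1 : 1 / 2 ≤ ‖s‖ := h1.trans (Complex.re_le_norm s)
    have s2 : ‖s - 1‖ ≤ 3 + |s.im| := by
      refine (Complex.norm_le_abs_re_add_abs_im _).trans ?_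
      simp only [sub_re, one_re, sub_im, one_im, sub_zero]
      have : |s.re - 1| ≤ 3 := abs_le.2 ⟨by linarith, by linarith⟩
      linarith
    have t0 := abs_nonneg s.im
    have a3 : ‖s * (s - 1) * S s + ((h / n : ℝ) : ℂ)‖ ≤ ‖s‖ * (Real.exp (30 * (1 + |s.im|)) * W) := by
      refine (norm_add_le _ _).trans ?_
      rw [norm_mul, norm_mul, Complex.norm_real, Real.norm_of_nonneg (by positivity)]
      have b1 : ‖s‖ * ‖s - 1‖ * ‖S s‖ ≤ ‖s‖ * (3 + |s.im|) * (2 * W) := by gcongr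
      have b2 := Real.add_one_le_exp (30 * (1 + |s.im|))
      have b3 : 12 * W ≤ ‖s‖ * (24 * W) := by nlinarith
      have b4 : ‖s‖ * ((30 + 2 * |s.im|) * W) ≤ ‖s‖ * (Real.exp (30 * (1 + |s.im|)) * W) := by
        gcongr
        linarith
      nlinarith
    have a4 : ‖((Complex.Gamma s)⁻¹ * ((2 * π : ℝ) : ℂ) ^ s) ^ r * (D : ℂ) ^ (-(s / 2))‖ ≤
        (C * Real.exp (π * |s.im|) * (2 * π) ^ (4 : ℝ)) ^ r * 1 := by
      rw [norm_mul, norm_pow, norm_mul, Complex.norm_cpow_eq_rpow_re_of_pos (by positivity),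
        Complex.norm_cpow_eq_rpow_re_of_pos (by linarith)]
      gcongr
      · exact hC s h1 h2
      · linarith [Real.pi_gt_three]
      · exact Real.rpow_le_one_of_one_le_of_nonpos hD (by simp; linarith)
    have a5 : gam K 4 * (C * Real.exp (π * |s.im|) * (2 * π) ^ (4 : ℝ)) ^ r ≤
        Real.exp (n * (6 * C + π * |s.im|)) * Real.exp (2 * Real.log D) := by
      have e : Real.Gamma 4 = 6 := by
        rw [show (4 : ℝ) = (3 : ℕ) + 1 by norm_num, Real.Gamma_nat_eq_factorial]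
        norm_num [Nat.factorial]
      have e2 : D ^ (4 / 2 : ℝ) = Real.exp (2 * Real.log D) := by
        rw [Real.rpow_def_of_pos (by linarith)]
        congr 1
        ring
      rw [gam, ← hrd, ← hDd, e, e2, mul_right_comm, ← mul_pow, Real.rpow_neg (by positivity),
        show 6 * ((2 * π) ^ (4 : ℝ))⁻¹ * (C * Real.exp (π * |s.im|) * (2 * π) ^ (4 : ℝ)) =
          6 * C * Real.exp (π * |s.im|) by field_simp]
      gcongr
      calc _ ≤ (Real.exp (6 * C) * Real.exp (π * |s.im|)) ^ r := by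
            gcongr
            linarith [Real.add_one_le_exp (6 * C)]
        _ = Real.exp (r * (6 * C + π * |s.im|)) := by rw [← Real.exp_add, Real.exp_nat_mul]
        _ ≤ _ := by gcongr
    have a6 := Zr_le (K := K) (σ := 4) (by norm_num)
    have a7 := one_le_Zr (K := K) (σ := 4) (by norm_num)
    have s0 : 0 < ‖s‖ := by linarith
    have hL := Real.log_nonneg hD
    simp only [hg]
    rw [norm_mul, norm_mul, norm_mul, norm_inv, norm_inv, Complex.norm_real,
      Real.norm_of_nonneg hJ.le]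
    calc _ ≤ ‖s‖ * (Real.exp (30 * (1 + |s.im|)) * W) * (‖s‖⁻¹ * J⁻¹ *
          ((C * Real.exp (π * |s.im|) * (2 * π) ^ (4 : ℝ)) ^ r * 1)) := by gcongr
      _ = Real.exp (30 * (1 + |s.im|)) * (gam K 4 *
          (C * Real.exp (π * |s.im|) * (2 * π) ^ (4 : ℝ)) ^ r * Zr K 4) := by
          rw [hW]; field_simp
      _ ≤ Real.exp (30 * (1 + |s.im|)) * (Real.exp (n * (6 * C + π * |s.im|)) *
          Real.exp (2 * Real.log D) * Real.exp (2 * n)) := by gcongr
      _ ≤ _ := by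
          rw [← Real.exp_add, ← Real.exp_add, ← Real.exp_add, Real.exp_le_exp, lD, ← hnd, ← hDd]
          have p4 := Real.pi_le_four
          have q1 : n * (π * |s.im|) ≤ n * (4 * |s.im|) := by gcongr
          nlinarith [mul_nonneg hL t0, mul_nonneg hC0.le hL, mul_nonneg (mul_nonneg hC0.le hL) t0,
            mul_nonneg (sub_nonneg.2 hn) t0, mul_nonneg (mul_nonneg hC0.le t0) (by linarith : 0 ≤ n)]

end

end Vale.Agent.P319E
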