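import Vale.Agent.P319E.Eul

namespace Vale.Agent.P319E

open NumberField Complex MeasureTheory Filter Topology IsDedekindDomain
open scoped Classical Real nonZeroDivisors

noncomputable section

variable {K : Type} [Field K] [NumberField K]

theorem cv_countable : Countable (Ideal (𝓞 K)) := by
  rw [← Set.countable_univ_iff]
  refine (Set.countable_iUnion fun n : ℕ =>
    (Ideal.finite_setOfPred_absNorm_le (S := 𝓞 K) n).countable).mono fun I _ => ?_
  exact Set.mem_iUnion.2 ⟨Ideal.absNorm I, le_refl (Ideal.absNorm I)⟩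

theorem cv_nm_zero : nm (0 : Ideal (𝓞 K)) = 0 := by simp [nm]

theorem cv_nm_one : nm (1 : Ideal (𝓞 K)) = 1 := by simp [nm]

theorem cv_mul (I J : Ideal (𝓞 K)) (s : ℂ) :
    ((nm (I * J) : ℝ) : ℂ) ^ s = ((nm I : ℝ) : ℂ) ^ s * ((nm J : ℝ) : ℂ) ^ s := by
  rw [nm_mul, ofReal_mul, mul_cpow_ofReal_nonneg (nm_nonneg I) (nm_nonneg J)]

theorem cv_norm (I : Ideal (𝓞 K)) {s : ℂ} (hs : 0 < s.re) :
    ‖((nm I : ℝ) : ℂ) ^ (-s)‖ = nm I ^ (-s.re) :=
  norm_cpow_eq_rpow_re_of_nonneg (nm_nonneg I) (by rw [neg_re]; exact neg_ne_zero.2 hs.ne')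

theorem cv_summ {s : ℂ} (hs : 1 < s.re) :
    Summable fun I : Ideal (𝓞 K) => ‖((nm I : ℝ) : ℂ) ^ (-s)‖ := by
  simpa only [cv_norm _ (one_pos.trans hs)] using summable_nm hs

/-- product of a Dirichlet series with the zeta function -/
theorem cv_conv {ι : Type} {s : ℂ} (hs : 1 < s.re) (q : ι → Ideal (𝓞 K)) (hq : ∀ i, q i ≠ 0)
    (a : ι → ℂ) (ha : Summable fun i => ‖a i * ((nm (q i) : ℝ) : ℂ) ^ (-s)‖) :
    (∑' i, a i * ((nm (q i) : ℝ) : ℂ) ^ (-s)) * Zc K s =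
      ∑' I : Ideal (𝓞 K), ((nm I : ℝ) : ℂ) ^ (-s) * ∑' i, if q i ∣ I then a i else 0 := by
  have h1 := summable_mul_of_summable_norm ha (cv_summ (K := K) hs)
  rw [Zc, tsum_mul_tsum_of_summable_norm ha (cv_summ hs)]
  have inj : Function.Injective fun p : ι × Ideal (𝓞 K) => (q p.1 * p.2, p.1) := by
    rintro ⟨i, A⟩ ⟨j, B⟩ h
    obtain ⟨h2, h3⟩ := Prod.ext_iff.1 h
    obtain rfl : i = j := h3
    exact Prod.ext rfl (mul_left_cancel₀ (hq i) h2)
  have h2 := (inj.hasSum_iff (f := fun p : Ideal (𝓞 K) × ι =>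
    ((nm p.1 : ℝ) : ℂ) ^ (-s) * if q p.2 ∣ p.1 then a p.2 else 0) (by
      rintro ⟨I, i⟩ hx
      rw [if_neg, mul_zero]
      rintro ⟨A, hA⟩
      exact hx ⟨(i, A), Prod.ext hA.symm rfl⟩)).1 (Eq.mp (congrArg (HasSum · _) (funext fun p => by
      simp only [Function.comp, dvd_mul_right, if_true, cv_mul]
      ring)) h1.hasSum)
  rw [← h2.tsum_eq, h2.summable.tsum_prod]
  simp only [tsum_mul_left]

end

end Vale.Agent.P319E
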