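import Vale.Agent.P319E.Defs

namespace Vale.Agent.P319E

open NumberField Complex MeasureTheory Filter Topology IsDedekindDomain
open scoped Classical Real nonZeroDivisors

noncomputable section

theorem totC {K : Type} [Field K] [NumberField K] {ω : K} (hω : IsPrimitiveRoot ω 3) :
    IsTotallyComplex K :=
  nrRealPlaces_eq_zero_iff.mp
    (InfinitePlace.IsPrimitiveRoot.nrRealPlaces_eq_zero_of_two_lt (by norm_num) hω)

theorem discr_le {K : Type} [Field K] [NumberField K] {S : Set K} {B : ℝ} (hB : 1 ≤ B)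
    (hS : Submodule.span ℚ S = ⊤) (hi : ∀ a ∈ S, IsIntegral ℤ a)
    (hb : ∀ a ∈ S, ∀ φ : K →+* ℂ, ‖φ a‖ ≤ B) :
    |(discr K : ℝ)| ≤ (Module.finrank ℚ K * B) ^ (2 * Module.finrank ℚ K) := by
  obtain ⟨f, hf, -, hli⟩ := Submodule.exists_fun_fin_finrank_span_eq ℚ S
  have hc : Fintype.card (Module.Free.ChooseBasisIndex ℤ (𝓞 K)) = Module.finrank ℚ K :=
    (Module.finrank_eq_card_basis (integralBasis K)).symm
  have e : Module.Free.ChooseBasisIndex ℤ (𝓞 K) ≃ Fin (Module.finrank ℚ (Submodule.span ℚ S)) :=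
    Fintype.equivFinOfCardEq (by rw [hc, hS, finrank_top])
  obtain ⟨b, hbb⟩ : ∃ b : Module.Basis (Module.Free.ChooseBasisIndex ℤ (𝓞 K)) ℚ K,
      ∀ i, b i ∈ S :=
    ⟨basisOfLinearIndependentOfCardEqFinrank' _ (hli.comp _ e.injective) hc, fun i => by
      simpa using hf _⟩
  let P : Matrix (Module.Free.ChooseBasisIndex ℤ (𝓞 K)) (Module.Free.ChooseBasisIndex ℤ (𝓞 K)) ℤ :=
    fun i j => (RingOfIntegers.basis K).repr ⟨b i, hi _ (hbb i)⟩ j
  have h1 : (b : _ → K) = Matrix.mulVec ((P.map (Int.castRingHom ℚ)).map (algebraMap ℚ K))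
      (integralBasis K) := by
    funext i
    conv_lhs => rw [← (integralBasis K).sum_repr (b i)]
    refine Finset.sum_congr rfl fun j _ => ?_
    have := integralBasis_repr_apply K ⟨b i, hi _ (hbb i)⟩ j
    rw [show algebraMap (𝓞 K) K ⟨b i, hi _ (hbb i)⟩ = b i from rfl] at this
    rw [this, Algebra.smul_def]
    rfl
  have h2 : Algebra.discr ℚ b = (P.det : ℚ) ^ 2 * discr K := by
    rw [h1, Algebra.discr_of_matrix_mulVec, coe_discr, ← RingHom.mapMatrix_apply,
      ← RingHom.map_det]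
    rfl
  have h3 : P.det ≠ 0 := fun h => Algebra.discr_not_zero_of_basis ℚ b (by simp [h2, h])
  have h4 : |(discr K : ℝ)| ≤ |((Algebra.discr ℚ b : ℚ) : ℝ)| := by
    rw [h2]
    push_cast
    rw [abs_mul]
    refine le_mul_of_one_le_left (abs_nonneg _) ?_
    rw [abs_pow]
    exact one_le_pow₀ (by exact_mod_cast Int.one_le_abs h3)
  have h5 : ∀ i j, AbsoluteValue.abs (((Algebra.traceMatrix ℚ b).map (Rat.castHom ℝ)) i j) ≤
      Module.finrank ℚ K * B ^ 2 := fun i j => by
    have t := trace_eq_sum_embeddings (K := ℚ) ℂ (x := b i * b j)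
    have : ‖algebraMap ℚ ℂ (Algebra.trace ℚ K (b i * b j))‖ ≤ Module.finrank ℚ K * B ^ 2 := by
      rw [t]
      refine (norm_sum_le_of_le (n := fun _ => B ^ 2) _ fun σ _ => ?_).trans ?_
      · rw [map_mul, norm_mul, sq]
        exact mul_le_mul (hb _ (hbb i) σ) (hb _ (hbb j) σ) (norm_nonneg _) (by linarith)
      · rw [Finset.sum_const, Finset.card_univ, AlgHom.card, nsmul_eq_mul]
    simpa [Algebra.traceMatrix_apply, Algebra.traceForm_apply] using this
  have h6 := Matrix.det_le h5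
  rw [← RingHom.mapMatrix_apply, ← RingHom.map_det, hc, nsmul_eq_mul] at h6
  refine h4.trans (le_trans h6 ?_)
  have : ((Module.finrank ℚ K).factorial : ℝ) ≤ (Module.finrank ℚ K : ℝ) ^ Module.finrank ℚ K := by
    exact_mod_cast Nat.factorial_le_pow _
  calc _ ≤ (Module.finrank ℚ K : ℝ) ^ Module.finrank ℚ K *
        (Module.finrank ℚ K * B ^ 2) ^ Module.finrank ℚ K := by gcongr
    _ = _ := by rw [← mul_pow, pow_mul]; congr 1; ring

theorem lD_le {K : Type} [Field K] [NumberField K] {S : Set K} {B : ℝ} (hB : 1 ≤ B)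
    (hS : Submodule.span ℚ S = ⊤) (hi : ∀ a ∈ S, IsIntegral ℤ a)
    (hb : ∀ a ∈ S, ∀ φ : K →+* ℂ, ‖φ a‖ ≤ B) :
    lD K ≤ 3 * (Module.finrank ℚ K : ℝ) ^ 2 * (1 + Real.log B) := by
  have h := discr_le hB hS hi hb
  have n1 : (1 : ℝ) ≤ Module.finrank ℚ K := by exact_mod_cast Module.finrank_pos
  have d0 : 0 < |(discr K : ℝ)| := abs_pos.2 (Int.cast_ne_zero.2 (discr_ne_zero K))
  have h1 := Real.log_le_log d0 h
  rw [Real.log_pow, Real.log_mul (by linarith) (by linarith)] at h1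
  have h2 := Real.log_le_sub_one_of_pos (by linarith : (0 : ℝ) < Module.finrank ℚ K)
  have h3 := Real.log_nonneg hB
  unfold lD
  push_cast at h1
  generalize (Module.finrank ℚ K : ℝ) = n at *
  generalize Real.log B = x at *
  have : 0 ≤ n * x := by positivity
  nlinarith [mul_le_mul_of_nonneg_right n1 this, mul_le_mul_of_nonneg_left h2 (by linarith : 0 ≤ n)]

end

end Vale.Agent.P319E
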