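import Vale.Agent.P319E.Defs

namespace Vale.Agent.P319E

open NumberField Complex MeasureTheory Filter Topology IsDedekindDomain
open scoped Classical Real nonZeroDivisors

noncomputable section

variable {K : Type} [Field K] [NumberField K]

theorem nm_nonneg (I : Ideal (𝓞 K)) : 0 ≤ nm I := Nat.cast_nonneg _

theorem one_le_nm {I : Ideal (𝓞 K)} (h : I ≠ ⊥) : 1 ≤ nm I := by
  unfold nm
  exact_mod_cast Nat.pos_of_ne_zero fun h0 => h (Ideal.absNorm_eq_zero_iff.1 h0)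

theorem nm_mul (I J : Ideal (𝓞 K)) : nm (I * J) = nm I * nm J := by simp [nm]

theorem abs_mu_le (I : Ideal (𝓞 K)) : |mu I| ≤ 1 := by
  unfold mu; split_ifs <;> simp

theorem absNorm_prime (P : HeightOneSpectrum (𝓞 K)) :
    ∃ l f : ℕ, l.Prime ∧ 1 ≤ f ∧ Ideal.absNorm P.asIdeal = l ^ f ∧ (l : 𝓞 K) ∈ P.asIdeal := by
  have := P.isMaximal
  obtain ⟨l, f, h1, h2, h3, h4⟩ := Ideal.exists_prime_and_absNorm_eq_pow P.asIdeal
  exact ⟨l, f, h3, h1, h4, h2⟩

theorem eul_minFac (P : HeightOneSpectrum (𝓞 K)) :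
    (Ideal.absNorm P.asIdeal).minFac.Prime ∧
      (((Ideal.absNorm P.asIdeal).minFac : ℕ) : 𝓞 K) ∈ P.asIdeal ∧
      ((Ideal.absNorm P.asIdeal).minFac : ℝ) ≤ nm P.asIdeal := by
  obtain ⟨l, f, h1, h2, h3, h4⟩ := absNorm_prime P
  have : (Ideal.absNorm P.asIdeal).minFac = l := by rw [h3, h1.pow_minFac (by omega)]
  rw [this]
  refine ⟨h1, h4, ?_⟩
  unfold nm
  rw [h3]
  exact_mod_cast Nat.le_self_pow (by omega) l

theorem eul_two_le (P : HeightOneSpectrum (𝓞 K)) : 2 ≤ nm P.asIdeal :=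
  le_trans (by exact_mod_cast (eul_minFac P).1.two_le) (eul_minFac P).2.2

theorem card_above (l : ℕ) :
    {P : HeightOneSpectrum (𝓞 K) | (Ideal.absNorm P.asIdeal).minFac = l}.Finite ∧
    {P : HeightOneSpectrum (𝓞 K) | (Ideal.absNorm P.asIdeal).minFac = l}.ncard ≤
      Module.finrank ℚ K := by
  by_cases hl : l.Prime
  · have hp : Prime (l : ℤ) := Nat.prime_iff_prime_int.1 hl
    have p0 : Ideal.span {(l : ℤ)} ≠ ⊥ := by simpa using hl.ne_zero
    have : (Ideal.span {(l : ℤ)}).IsMaximal :=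
      ((Ideal.span_singleton_prime hp.ne_zero).2 hp).isMaximal p0
    have mp : ∀ P ∈ {P : HeightOneSpectrum (𝓞 K) | (Ideal.absNorm P.asIdeal).minFac = l},
        P.asIdeal ∈ (IsDedekindDomain.primesOverFinset (Ideal.span {(l : ℤ)}) (𝓞 K) : Set _) := by
      intro P hP
      rw [IsDedekindDomain.coe_primesOverFinset p0]
      refine ⟨P.isPrime, ⟨this.eq_of_le (Ideal.comap_ne_top _ P.isPrime.ne_top) ?_⟩⟩
      rw [Ideal.span_singleton_le_iff_mem, Ideal.mem_comap, map_natCast, ← show _ = l from hP]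
      exact (eul_minFac P).2.1
    have inj : Set.InjOn (fun P : HeightOneSpectrum (𝓞 K) => P.asIdeal)
        {P : HeightOneSpectrum (𝓞 K) | (Ideal.absNorm P.asIdeal).minFac = l} :=
      fun P _ Q _ h => HeightOneSpectrum.ext h
    refine ⟨Set.Finite.of_finite_image ((Finset.finite_toSet _).subset
      (Set.image_subset_iff.2 mp)) inj, ?_⟩
    · refine (Set.ncard_le_ncard_of_injOn _ mp inj (Finset.finite_toSet _)).trans ?_
      rw [Set.ncard_coe_finset]
      exact Ideal.card_primesOverFinset_le_finrank (𝓞 K) ℚ K p0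
  · have : {P : HeightOneSpectrum (𝓞 K) | (Ideal.absNorm P.asIdeal).minFac = l} = ∅ :=
      Set.eq_empty_of_forall_notMem fun P hP => hl ((show _ = l from hP) ▸ (eul_minFac P).1)
    simp [this]

theorem eul_fib {α : Type} {φ : α → ℕ} {n : ℕ}
    (hφ : ∀ l, {P | φ P = l}.Finite ∧ {P | φ P = l}.ncard ≤ n) {F : α → ℝ} {f : ℕ → ℝ}
    (hF : ∀ P, 0 ≤ F P) (hf0 : ∀ l, 0 ≤ f l) (hf : Summable f) (h : ∀ P, F P ≤ f (φ P)) :
    Summable F ∧ ∑' P, F P ≤ n * ∑' l, f l := by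
  have key : ∀ s : Finset α, ∑ P ∈ s, F P ≤ n * ∑' l, f l := fun s => by
    rw [← Finset.sum_fiberwise_of_maps_to (t := s.image φ)
      (g := φ) fun P hP => Finset.mem_image_of_mem _ hP]
    refine le_trans (Finset.sum_le_sum (g := fun l => n * f l) fun l _ => ?_) ?_
    · refine (Finset.sum_le_card_nsmul _ _ (f l) fun P hP => ?_).trans ?_
      · rw [← (Finset.mem_filter.1 hP).2]; exact h P
      · rw [nsmul_eq_mul]
        refine mul_le_mul_of_nonneg_right (Nat.cast_le.2 (le_trans ?_ (hφ l).2)) (hf0 l)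
        rw [← Set.ncard_coe_finset]
        exact Set.ncard_le_ncard (fun P hP => (Finset.mem_filter.1 hP).2) (hφ l).1
    · rw [← Finset.mul_sum]
      exact mul_le_mul_of_nonneg_left (hf.sum_le_tsum _ fun l _ => hf0 l) (Nat.cast_nonneg _)
  exact ⟨summable_of_sum_le hF key, Real.tsum_le_of_sum_le hF key⟩

theorem fib {F : HeightOneSpectrum (𝓞 K) → ℝ} {f : ℕ → ℝ} (hF : ∀ P, 0 ≤ F P)
    (hf0 : ∀ l, 0 ≤ f l) (hf : Summable f)
    (h : ∀ P, F P ≤ f (Ideal.absNorm P.asIdeal).minFac) :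
    Summable F ∧ ∑' P, F P ≤ Module.finrank ℚ K * ∑' l, f l :=
  eul_fib card_above hF hf0 hf h

/-- exponent of a prime in an ideal -/
def cnt (P : HeightOneSpectrum (𝓞 K)) (I : Ideal (𝓞 K)) : ℕ :=
  (Associates.mk P.asIdeal).count (Associates.mk I).factors

theorem eul_fac {I : Ideal (𝓞 K)} (hI : I ≠ ⊥) {T : Finset (HeightOneSpectrum (𝓞 K))}
    (hT : ∀ P : HeightOneSpectrum (𝓞 K), P.asIdeal ∣ I → P ∈ T) :
    ∏ P ∈ T, P.asIdeal ^ cnt P I = I := by
  conv_rhs => rw [← Ideal.finprod_heightOneSpectrum_factorization hI]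
  refine (finprod_eq_prod_of_mulSupport_subset _ fun P hP => hT P ?_).symm
  refine (Associates.count_ne_zero_iff_dvd hI P.irreducible).1 fun h => hP ?_
  simp [cnt, h]

theorem eul_dvd {I : Ideal (𝓞 K)} (hI : I ≠ ⊥) (P : HeightOneSpectrum (𝓞 K)) (k : ℕ) :
    P.asIdeal ^ k ∣ I ↔ k ≤ cnt P I := by
  rw [cnt, ← Associates.prime_pow_dvd_iff_le (Associates.mk_ne_zero.2 hI) P.associates_irreducible,
    ← Associates.mk_pow, Associates.mk_le_mk_iff_dvd]

theorem eul_nm_prod {ι : Type} (T : Finset ι) (A : ι → Ideal (𝓞 K)) (e : ι → ℕ) :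
    nm (∏ i ∈ T, A i ^ e i) = ∏ i ∈ T, nm (A i) ^ e i := by simp [nm]

theorem eul_x {σ : ℝ} (hσ : 1 ≤ σ) (P : HeightOneSpectrum (𝓞 K)) : nm P.asIdeal ^ (-σ) ≤ 1 / 2 := by
  have := eul_two_le P
  calc nm P.asIdeal ^ (-σ) ≤ nm P.asIdeal ^ (-1 : ℝ) :=
        Real.rpow_le_rpow_of_exponent_le (by linarith) (by linarith)
    _ ≤ 1 / 2 := by rw [Real.rpow_neg_one, one_div]; exact inv_anti₀ two_pos this

theorem eul_P {σ : ℝ} (hσ : 1 < σ) :
    Summable (fun P : HeightOneSpectrum (𝓞 K) => nm P.asIdeal ^ (-σ)) ∧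
    ∑' P : HeightOneSpectrum (𝓞 K), nm P.asIdeal ^ (-σ) ≤
      Module.finrank ℚ K * ∑' l : ℕ, if 2 ≤ l then (l : ℝ) ^ (-σ) else 0 := by
  refine fib (fun P => Real.rpow_nonneg (nm_nonneg _) _)
    (fun l => by split_ifs <;> positivity) ?_ fun P => ?_
  · exact (Real.summable_nat_rpow.2 (by linarith : -σ < -1)).of_nonneg_of_le
      (fun l => by split_ifs <;> positivity) fun l => by split_ifs; exacts [le_rfl, by positivity]
  · obtain ⟨h1, -, h3⟩ := eul_minFac P
    rw [if_pos h1.two_le]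
    exact Real.rpow_le_rpow_of_nonpos (by exact_mod_cast h1.pos) h3 (by linarith)

theorem eul_gen {α β : Type} [Fintype β] (s : Finset α) {e : α → β → ℕ} (inj : Set.InjOn e s)
    {x : β → ℝ} (x0 : ∀ P, 0 ≤ x P) (x1 : ∀ P, x P ≤ 1 / 2) :
    ∑ I ∈ s, ∏ P, x P ^ e I P ≤ Real.exp (2 * ∑ P, x P) := by
  calc ∑ I ∈ s, ∏ P, x P ^ e I P = ∑ v ∈ s.image e, ∏ P, x P ^ v P :=
        (Finset.sum_image (f := fun v : β → ℕ => ∏ P, x P ^ v P) inj).symm
    _ ≤ ∑ v ∈ Fintype.piFinset (fun P => s.image (e · P)), ∏ P, x P ^ v P := by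
        refine Finset.sum_le_sum_of_subset_of_nonneg (fun v hv => ?_)
          fun v _ _ => Finset.prod_nonneg fun P _ => pow_nonneg (x0 _) _
        obtain ⟨I, hI, rfl⟩ := Finset.mem_image.1 hv
        exact Fintype.mem_piFinset.2 fun P => Finset.mem_image_of_mem _ hI
    _ = ∏ P, ∑ k ∈ s.image (e · P), x P ^ k :=
        (Finset.prod_univ_sum _ fun P k => x P ^ k).symm
    _ ≤ ∏ P, Real.exp (2 * x P) := by
        refine Finset.prod_le_prod (fun P _ => Finset.sum_nonneg fun k _ => pow_nonneg (x0 _) _)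
          fun P _ => ?_
        have h2 := x1 P
        have h3 := x0 P
        have g := hasSum_geometric_of_lt_one h3 (by linarith)
        refine (sum_le_hasSum _ (fun k _ => pow_nonneg h3 k) g).trans
          (le_trans ?_ (Real.add_one_le_exp _))
        rw [inv_le_iff_one_le_mul₀ (by linarith)]
        nlinarith
    _ = _ := by rw [← Real.exp_sum, ← Finset.mul_sum]

theorem eul_key {σ : ℝ} (hσ : 1 < σ) (s : Finset (Ideal (𝓞 K))) : ∑ I ∈ s, nm I ^ (-σ) ≤
    Real.exp (2 * ∑' P : HeightOneSpectrum (𝓞 K), nm P.asIdeal ^ (-σ)) := by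
  have z : nm (⊥ : Ideal (𝓞 K)) ^ (-σ) = 0 := by
    simp [nm, Real.zero_rpow (show -σ ≠ 0 by linarith)]
  rw [← Finset.sum_erase (f := fun I => nm I ^ (-σ)) s z]
  have h0 : ∀ I ∈ s.erase ⊥, I ≠ ⊥ := fun I hI => Finset.ne_of_mem_erase hI
  generalize s.erase ⊥ = s' at h0
  obtain ⟨T, hT0⟩ : ∃ T : Finset (HeightOneSpectrum (𝓞 K)), ∀ I ∈ s',
      ∀ P : HeightOneSpectrum (𝓞 K), P.asIdeal ∣ I → P ∈ T := by
    have fin := s'.finite_toSet.biUnion fun I hI => Ideal.finite_factors (h0 I hI)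
    exact ⟨fin.toFinset, fun I hI P hP => fin.mem_toFinset.2 (Set.mem_biUnion hI hP)⟩
  have hT : ∀ I ∈ s', ∏ P : T, P.1.asIdeal ^ cnt P.1 I = I := fun I hI => by
    rw [Finset.prod_coe_sort T fun P => P.asIdeal ^ cnt P I]
    exact eul_fac (h0 I hI) (hT0 I hI)
  have x0 : ∀ P : HeightOneSpectrum (𝓞 K), 0 ≤ nm P.asIdeal ^ (-σ) :=
    fun P => Real.rpow_nonneg (nm_nonneg _) _
  have inj : Set.InjOn (fun I (P : T) => cnt P.1 I) s' := fun I hI J hJ h => by
    rw [← hT I hI, ← hT J hJ]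
    exact Finset.prod_congr rfl fun P _ => by rw [show cnt P.1 I = cnt P.1 J from congrFun h P]
  refine le_trans (le_of_eq ?_) ((eul_gen s' inj (x := fun P => nm P.1.asIdeal ^ (-σ))
    (fun P => x0 _) fun P => eul_x hσ.le _).trans ?_)
  · refine Finset.sum_congr rfl fun I hI => ?_
    conv_lhs => rw [← hT I hI, eul_nm_prod,
      ← Real.finsetProd_rpow _ _ fun P _ => pow_nonneg (nm_nonneg _) _]
    exact Finset.prod_congr rfl fun P _ => (Real.rpow_pow_comm (nm_nonneg _) _ _).symm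
  · rw [Real.exp_le_exp, Finset.sum_coe_sort T fun P => nm P.asIdeal ^ (-σ)]
    exact mul_le_mul_of_nonneg_left ((eul_P hσ).1.sum_le_tsum _ fun P _ => x0 P) two_pos.le

theorem summable_nm {σ : ℝ} (hσ : 1 < σ) : Summable fun I : Ideal (𝓞 K) => nm I ^ (-σ) :=
  summable_of_sum_le (fun _ => Real.rpow_nonneg (nm_nonneg _) _) (eul_key hσ)

theorem one_le_Zr {σ : ℝ} (hσ : 1 < σ) : 1 ≤ Zr K σ := by
  have := (summable_nm (K := K) hσ).le_tsum ⊤ fun _ _ => Real.rpow_nonneg (nm_nonneg _) _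
  simpa [nm, Zr] using this

theorem Zr_le {σ : ℝ} (hσ : 2 ≤ σ) : Zr K σ ≤ Real.exp (2 * Module.finrank ℚ K) := by
  have h1 : 1 < σ := by linarith
  refine (Real.tsum_le_of_sum_le (fun _ => Real.rpow_nonneg (nm_nonneg _) _) (eul_key h1)).trans ?_
  refine Real.exp_le_exp.2 (mul_le_mul_of_nonneg_left ((eul_P h1).2.trans
    (mul_le_of_le_one_right (Nat.cast_nonneg _) ?_)) two_pos.le)
  refine Real.tsum_le_of_sum_range_le (fun l => by split_ifs <;> positivity) fun n => ?_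
  rw [← Finset.sum_filter]
  have := sum_Ioo_inv_sq_le (α := ℝ) 1 n
  refine le_trans (le_trans (le_of_eq ?_) (Finset.sum_le_sum
    (f := fun l : ℕ => (l : ℝ) ^ (-σ)) fun l hl => ?_)) (this.trans (by norm_num))
  · congr 1; ext l; simp; omega
  · have : (1 : ℝ) ≤ l := by exact_mod_cast (Finset.mem_Ioo.1 hl).1.le
    rw [← Real.rpow_natCast, ← Real.rpow_neg (by linarith)]
    exact Real.rpow_le_rpow_of_exponent_le this (by push_cast; linarith)

theorem summable_L {σ : ℝ} (hσ : 1 < σ) : Summable fun p : HeightOneSpectrum (𝓞 K) × ℕ =>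
    Real.log (nm p.1.asIdeal) * (nm p.1.asIdeal ^ (p.2 + 1)) ^ (-σ) := by
  set ε := (σ - 1) / 2 with hε
  have e0 : 0 < ε := by rw [hε]; linarith
  have h := (((eul_P (K := K) (σ := 1 + ε) (by linarith)).1.mul_left ε⁻¹).mul_of_nonneg
    summable_geometric_two (fun P => mul_nonneg (by positivity)
      (Real.rpow_nonneg (nm_nonneg _) _)) fun k => by positivity)
  refine h.of_nonneg_of_le (fun p => ?_) fun p => ?_
  · have := eul_two_le p.1
    exact mul_nonneg (Real.log_nonneg (by linarith)) (by positivity)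
  · have h2 := eul_two_le p.1
    have h3 := eul_x hσ.le p.1
    set N := nm p.1.asIdeal
    have N0 : 0 < N := by linarith
    rw [← Real.rpow_pow_comm N0.le, pow_succ', ← mul_assoc]
    refine mul_le_mul ?_ (pow_le_pow_left₀ (by positivity) h3 _) (by positivity) (by positivity)
    calc Real.log N * N ^ (-σ) ≤ N ^ ε / ε * N ^ (-σ) :=
          mul_le_mul_of_nonneg_right (Real.log_le_rpow_div N0.le e0) (by positivity)
      _ = _ := by
        rw [div_eq_inv_mul, mul_assoc, ← Real.rpow_add N0]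
        congr 2; rw [hε]; ring

end

end Vale.Agent.P319E
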