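import Vale.Agent.P319E.Unf
import Vale.Agent.P026.Bes

namespace Vale.Agent.P319E

open NumberField Complex MeasureTheory Filter Topology IsDedekindDomain
open scoped Classical Real nonZeroDivisors

noncomputable section

variable {K : Type} [Field K] [NumberField K]

theorem hec_cont (A : FI K) : Continuous (lam A) := by
  unfold lam
  fun_prop

theorem hec_set (A : FI K) : MeasurableSet {c | 0 < lam A c} :=
  (isOpen_lt continuous_const (hec_cont A)).measurableSet

theorem hec_nonneg (A : FI K) (c : InfinitePlace K → ℝ) : 0 ≤ bt c * th A (yy c) :=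
  mul_nonneg (bt_nonneg c) (th_nonneg A _)

theorem hec_int [IsTotallyComplex K] (A : FI K) {σ : ℝ} (hσ : 1 < σ) :
    Integrable (fun c => bt c * th A (yy c) * Real.exp (σ * lam A c)) := by
  obtain ⟨J, -, h⟩ := unfold (K := K)
  exact (h A σ hσ).1

theorem hec_norm (A : FI K) {σ : ℝ} {s : ℂ} (hs : s.re ≤ σ) {c : InfinitePlace K → ℝ}
    (hc : 0 < lam A c) : ‖((bt c * th A (yy c) : ℝ) : ℂ) * Complex.exp (s * lam A c)‖ ≤
      bt c * th A (yy c) * Real.exp (σ * lam A c) := by
  rw [norm_mul, Complex.norm_real, Real.norm_of_nonneg (hec_nonneg A c), Complex.norm_exp,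
    Complex.re_mul_ofReal]
  exact mul_le_mul_of_nonneg_left (by gcongr) (hec_nonneg A c)

theorem hec_meas [IsTotallyComplex K] (A : FI K) (s : ℂ) :
    Measurable fun c => ((bt c * th A (yy c) : ℝ) : ℂ) * Complex.exp (s * lam A c) :=
  (Complex.measurable_ofReal.comp (measurable_bt.mul (measurable_th A))).mul
    (Complex.measurable_exp.comp
      ((Complex.measurable_ofReal.comp (hec_cont A).measurable).const_mul s))

theorem differentiable_PP [IsTotallyComplex K] (A : FI K) : Differentiable ℂ (PP A) := by
  intro s0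
  have e : PP A = fun s => ∫ c, {c | 0 < lam A c}.indicator
      (fun c => ((bt c * th A (yy c) : ℝ) : ℂ) * Complex.exp (s * lam A c)) c :=
    funext fun s => (integral_indicator (hec_set A)).symm
  rw [e]
  refine Vale.Agent.P026.bes_diff_int one_pos (hec_int A (σ := |s0.re| + 2) (by
    linarith [abs_nonneg s0.re])) (fun s _ => ((hec_meas A s).indicator
      (hec_set A)).aestronglyMeasurable) (fun c => ?_) fun s hs c => ?_
  · by_cases hc : c ∈ {c | 0 < lam A c}
    · simp only [Set.indicator_of_mem hc]
      fun_prop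
    · simp only [Set.indicator_of_notMem hc]
      fun_prop
  · by_cases hc : c ∈ {c | 0 < lam A c}
    · rw [Set.indicator_of_mem hc]
      refine hec_norm A ?_ hc
      have h1 := Complex.re_le_norm (s - s0)
      rw [mem_ball_iff_norm] at hs
      rw [sub_re] at h1
      linarith [le_abs_self s0.re]
    · rw [Set.indicator_of_notMem hc, norm_zero]
      exact mul_nonneg (hec_nonneg A c) (Real.exp_pos _).le

theorem norm_PP_le [IsTotallyComplex K] (A : FI K) {σ : ℝ} (hσ : 1 < σ) {s : ℂ} (hs : s.re ≤ σ) :
    ‖PP A s‖ ≤ ∫ c, bt c * th A (yy c) * Real.exp (σ * lam A c) :=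
  (norm_integral_le_of_norm_le (hec_int A hσ).integrableOn
    ((ae_restrict_mem (hec_set A)).mono fun _ hc => hec_norm A hs hc)).trans
    (setIntegral_le_integral (hec_int A hσ) (ae_of_all _ fun c =>
      mul_nonneg (hec_nonneg A c) (Real.exp_pos _).le))

theorem hec_real (A : FI K) (σ : ℝ) : PP A σ =
    ((∫ c in {c | 0 < lam A c}, bt c * th A (yy c) * Real.exp (σ * lam A c) : ℝ) : ℂ) := by
  rw [PP, ← integral_complex_ofReal]
  simp only [Complex.ofReal_mul, Complex.ofReal_exp]

theorem PP_re_nonneg (A : FI K) (σ : ℝ) : 0 ≤ (PP A σ).re := by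
  rw [hec_real, ofReal_re]
  exact integral_nonneg fun c => mul_nonneg (hec_nonneg A c) (Real.exp_pos _).le

theorem hec_g {n L u : ℝ} (hn : 0 < n) (hu : 0 < u) :
    Integrable ((Set.Iic (-L / n)).indicator fun t => Real.exp (u * (n * t + L))) ∧
    ∫ t, (Set.Iic (-L / n)).indicator (fun t => Real.exp (u * (n * t + L))) t = 1 / (u * n) := by
  have e : (fun t => Real.exp (u * (n * t + L))) =
      fun t => Real.exp (u * L) * Real.exp (u * n * t) := by
    funext t
    rw [← Real.exp_add]
    congr 1
    ring
  rw [e, integrable_indicator_iff measurableSet_Iic, integral_indicator measurableSet_Iic,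
    integral_const_mul, integral_exp_mul_Iic (by positivity), ← mul_div_assoc, ← Real.exp_add,
    show u * L + u * n * (-L / n) = 0 by field_simp; ring, Real.exp_zero]
  exact ⟨(integrableOn_exp_mul_Iic (by positivity) _).const_mul _, rfl⟩

theorem hecke_real [IsTotallyComplex K] (A : FI K) {σ : ℝ} (hσ : 1 < σ) :
    ((∫ c, bt c * th A (yy c) * Real.exp (σ * lam A c) : ℝ) : ℂ) =
      PP A σ + PP (dualU A) (1 - σ) + 1 / (Module.finrank ℚ K * (σ * (σ - 1))) := by
  have hn : (0 : ℝ) < Module.finrank ℚ K := by exact_mod_cast Module.finrank_pos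
  set n : ℝ := ((Module.finrank ℚ K : ℕ) : ℝ) with hnd
  set L := Real.log (cov A) with hL
  obtain ⟨a1, a2⟩ := hec_g (L := L) hn (u := σ - 1) (by linarith)
  obtain ⟨b1, b2⟩ := hec_g (L := L) hn (u := σ) (by linarith)
  obtain ⟨c1, c2⟩ := integral_bt (K := K) (a1.sub b1)
  simp only [Pi.sub_apply] at c1 c2
  rw [integral_sub a1 b1, a2, b2] at c2
  have d1 : Integrable ({c | 0 < lam A c}.indicator
      fun c => bt c * th A (yy c) * Real.exp (σ * lam A c)) := (hec_int A hσ).indicator (hec_set A)
  have d2 : Integrable ({c | 0 < lam (dualU A) c}.indicator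
      fun c => bt c * th (dualU A) (yy c) * Real.exp ((1 - σ) * lam (dualU A) c)) := by
    rw [integrable_indicator_iff (hec_set _)]
    refine (hec_int (dualU A) hσ).integrableOn.mono' (((measurable_bt.mul (measurable_th _)).mul
      (Real.measurable_exp.comp ((hec_cont _).measurable.const_mul _))).aestronglyMeasurable)
      ((ae_restrict_mem (hec_set _)).mono fun c hc => ?_)
    have hc' : 0 < lam (dualU A) c := hc
    rw [Real.norm_of_nonneg (mul_nonneg (hec_nonneg _ c) (Real.exp_pos _).le)]
    exact mul_le_mul_of_nonneg_left (by gcongr; linarith) (hec_nonneg _ c)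
  have d3 := integral_neg_eq_self ({c | 0 < lam (dualU A) c}.indicator
      fun c => bt c * th (dualU A) (yy c) * Real.exp ((1 - σ) * lam (dualU A) c)) volume
  rw [hec_real, show (1 - σ : ℂ) = ((1 - σ : ℝ) : ℂ) by push_cast; rfl, hec_real,
    ← integral_indicator (hec_set _), ← integral_indicator (hec_set _), ← d3,
    show (1 / (Module.finrank ℚ K * (σ * (σ - 1))) : ℂ) =
      ((1 / ((σ - 1) * n) - 1 / (σ * n) : ℝ) : ℂ) by
      have : σ - 1 ≠ 0 := by linarith
      rw [show 1 / ((σ - 1) * n) - 1 / (σ * n) = 1 / (n * (σ * (σ - 1))) by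
        field_simp; ring, hnd]
      push_cast
      rfl, ← c2, ← Complex.ofReal_add, ← Complex.ofReal_add, ← integral_add d1 d2.comp_neg]
  congr 1
  refine (integral_congr_ae ?_).trans (integral_add (d1.add d2.comp_neg) c1)
  filter_upwards [Measure.ae_eval_ne (fun _ : InfinitePlace K => (volume : Measure ℝ))
    Units.dirichletUnitTheorem.w₀ (-L / n)] with c hc
  have e1 : lam (dualU A) (-c) = -lam A c := by
    simp only [lam, cov_dual, Real.log_inv, Pi.neg_apply]
    ring
  have e2 : lam A c = n * c Units.dirichletUnitTheorem.w₀ + L := rfl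
  have e3 := th_fe A (yy_pos c)
  rw [← yy_neg, prod_yy, ← Real.exp_log (cov_pos A), ← Real.exp_add, add_comm (Real.log _),
    ← Real.exp_neg] at e3
  change _ = Real.exp (-lam A c) * _ at e3
  simp only [Set.indicator, Set.mem_ofPred_eq, Set.mem_Iic, e1, bt_neg, ← e2]
  rcases lt_or_gt_of_ne hc with h | h
  · have h1 : lam A c < 0 := by
      rw [lt_div_iff₀ hn] at h
      linarith
    rw [if_neg h1.not_gt, if_pos (by linarith), if_pos h.le, if_pos h.le,
      show (1 - σ) * -lam A c = -lam A c + σ * lam A c by ring,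
      show (σ - 1) * lam A c = -lam A c + σ * lam A c by ring, Real.exp_add]
    linear_combination bt c * Real.exp (σ * lam A c) * e3
  · have h1 : 0 < lam A c := by
      rw [div_lt_iff₀ hn] at h
      linarith
    rw [if_pos h1, if_neg (by linarith), if_neg h.not_ge, if_neg h.not_ge]
    ring

end

end Vale.Agent.P319E
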