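import Vale.Agent.P319E.Conv
import Vale.Agent.P319E.Mel
import Vale.Agent.P026.Fin2

namespace Vale.Agent.P319E

open NumberField Complex MeasureTheory Filter Topology IsDedekindDomain
open scoped Classical Real nonZeroDivisors

noncomputable section

section

variable {K : Type} [Field K] [NumberField K] {b : Ideal (𝓞 K) → ℝ}

theorem zf_pos {I : Ideal (𝓞 K)} (h : I ≠ 0) : 0 < nm I := one_pos.trans_le (one_le_nm h)

theorem zf_sum (hb : ∀ I, |b I| ≤ 1) (h0 : b 0 = 0) {s : ℂ} (hs : 1 < s.re) :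
    mellin (fun X => ((∑' I, b I * Wr (nm I / X) : ℝ) : ℂ)) (-s) =
      (∑' I, (b I : ℂ) * ((nm I : ℝ) : ℂ) ^ (-s)) * ((√π : ℝ) * Complex.exp (s ^ 2 / 4)) := by
  have := cv_countable (K := K)
  set F : Ideal (𝓞 K) → ℝ → ℂ := fun I X =>
    b I * ((X : ℂ) ^ (-s - 1) • Vale.Agent.P026.W 0 (nm I / X)) with hF
  have e0 : F 0 = fun _ => 0 := funext fun X => by
    simp only [hF, h0, ofReal_zero, zero_mul]
  have it : ∀ I, Integrable (F I) (volume.restrict (Set.Ioi 0)) := fun I => by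
    by_cases hn : I = 0
    · rw [hn, e0]; exact integrable_zero _ _ _
    · exact (Vale.Agent.P026.fin2_mel (zf_pos hn) s).1.const_mul _
  have sm : Summable fun I => ∫ X in Set.Ioi 0, ‖F I X‖ := by
    refine ((summable_nm hs).mul_right
      ‖((√π : ℝ) : ℂ) * Complex.exp ((s.re : ℂ) ^ 2 / 4)‖).of_nonneg_of_le
      (fun n => integral_nonneg fun _ => norm_nonneg _) fun I => ?_
    by_cases hn : I = 0
    · have := nm_nonneg I
      rw [show F I = fun _ => 0 by rw [hn, e0]]
      simp only [norm_zero, integral_zero]; positivity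
    · have hp := zf_pos hn
      have a : ((∫ X : ℝ in Set.Ioi 0, ‖(X : ℂ) ^ (-s - 1) • Vale.Agent.P026.W 0 (nm I / X)‖ : ℝ) : ℂ)
          = mellin (fun X : ℝ => Vale.Agent.P026.W 0 (nm I / X)) (-(s.re : ℂ)) := by
        rw [← integral_complex_ofReal, mellin]
        refine setIntegral_congr_fun measurableSet_Ioi fun X hX => ?_
        simp only [norm_smul, norm_cpow_eq_rpow_re_of_pos hX, W_eq, norm_real,
          Real.norm_of_nonneg (Wr_pos _).le]
        simp [ofReal_cpow (le_of_lt hX)]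
      have c := congrArg (‖·‖) a
      simp only [(Vale.Agent.P026.fin2_mel hp _).2, norm_mul _ ((_ : ℂ) * _),
        norm_cpow_eq_rpow_re_of_pos hp, neg_re, ofReal_re, norm_real] at c
      rw [← c]
      simp only [hF, norm_mul (b I : ℂ), integral_const_mul, norm_real]
      exact (mul_le_of_le_one_left (integral_nonneg fun _ => norm_nonneg _) (hb I)).trans
        (le_abs_self _)
  have h := (hasSum_integral_of_summable_integral_norm it sm).tsum_eq
  rw [← tsum_mul_right, mellin]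
  refine Eq.trans ?_ (h.symm.trans (tsum_congr fun I => ?_))
  · refine integral_congr_ae (.of_forall fun X => ?_)
    simp only [hF, smul_eq_mul, ofReal_tsum, ← tsum_mul_left, W_eq, ofReal_mul]
    exact tsum_congr fun I => by ring
  · by_cases hn : I = 0
    · rw [hn, e0, h0, integral_zero, ofReal_zero, zero_mul, zero_mul]
    · simp only [hF]
      rw [integral_const_mul, mul_assoc, ← (Vale.Agent.P026.fin2_mel (zf_pos hn) s).2]
      rfl

theorem zf_bd (hb : ∀ I, |b I| ≤ 1) (h0 : b 0 = 0) {a X : ℝ} (hX : 0 < X) (I : Ideal (𝓞 K)) :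
    ‖b I * Wr (nm I / X)‖ ≤ Real.exp (a ^ 2 / 4) * X ^ a * nm I ^ (-a) := by
  by_cases hn : I = 0
  · have := nm_nonneg I
    rw [show b I = 0 by rw [hn, h0], zero_mul, norm_zero]; positivity
  · have h := Wr_le a (div_pos (zf_pos hn) hX)
    rw [Vale.Agent.P026.wb_div (nm_nonneg I) hX, ← mul_assoc] at h
    rw [norm_mul, Real.norm_of_nonneg (Wr_pos _).le]
    exact (mul_le_of_le_one_left (Wr_pos _).le (hb I)).trans h

theorem zf_diff (hb : ∀ I, |b I| ≤ 1) (h0 : b 0 = 0) {θ C : ℝ}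
    (h : ∀ X : ℝ, 1 ≤ X → |∑' I, b I * Wr (nm I / X)| ≤ C * X ^ θ) {s : ℂ} (hs : θ < s.re) :
    DifferentiableAt ℂ
      (fun s => mellin (fun X => ((∑' I, b I * Wr (nm I / X) : ℝ) : ℂ)) (-s)) s := by
  have := cv_countable (K := K)
  obtain ⟨a, a1, a2⟩ : ∃ a : ℝ, 1 < a ∧ s.re < a :=
    ⟨max 2 (s.re + 1), lt_max_of_lt_left one_lt_two, lt_max_of_lt_right (lt_add_one _)⟩
  have bd : ∀ X : ℝ, 0 < X → ‖((∑' I, b I * Wr (nm I / X) : ℝ) : ℂ)‖ ≤
      Real.exp (a ^ 2 / 4) * Zr K a * X ^ a := fun X hX => by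
    rw [norm_real, mul_right_comm]
    exact tsum_of_norm_bounded ((summable_nm a1).hasSum.mul_left _) (zf_bd hb h0 hX)
  refine DifferentiableAt.comp s (g := mellin fun X => ((∑' I, b I * Wr (nm I / X) : ℝ) : ℂ))
    (mellin_differentiableAt_of_isBigO_rpow (a := -θ) (b := -a) ?_ ?_
      (by simpa using hs) ?_ (by simpa using a2)) differentiableAt_id.neg
  · have m : AEStronglyMeasurable (fun X : ℝ => ((∑' I, b I * Wr (nm I / X) : ℝ) : ℂ))
        (volume.restrict (Set.Ioi 0)) := by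
      refine (measurable_ofReal.comp (Measurable.tsum fun I => ?_)).aestronglyMeasurable
      unfold Wr
      fun_prop
    refine (locallyIntegrableOn_iff isOpen_Ioi.isLocallyClosed).2 fun S hK hc => ?_
    have c : ContinuousOn (fun X : ℝ => Real.exp (a ^ 2 / 4) * Zr K a * X ^ a) S :=
      continuousOn_const.mul (continuousOn_id.rpow_const fun x hx => Or.inl (ne_of_gt (hK hx)))
    exact (c.integrableOn_compact hc).mono' (m.mono_measure (Measure.restrict_mono hK le_rfl))
      ((ae_restrict_iff' hc.measurableSet).2 (.of_forall fun X hX => bd X (hK hX)))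
  · refine Asymptotics.IsBigO.of_bound C ?_
    filter_upwards [eventually_ge_atTop 1] with X hX
    rw [neg_neg, Real.norm_of_nonneg (by positivity), norm_real]
    exact h X hX
  · refine Asymptotics.IsBigO.of_bound (Real.exp (a ^ 2 / 4) * Zr K a) ?_
    filter_upwards [self_mem_nhdsWithin] with X hX
    rw [neg_neg, Real.norm_of_nonneg (Real.rpow_nonneg (le_of_lt hX) _)]
    exact bd X hX

end

theorem zero_free {K : Type} [Field K] [NumberField K] {θ : ℝ} (h0 : 0 ≤ θ) (h1 : θ < 1)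
    (h : MobBound K θ) {g : ℂ → ℂ} (hg : DifferentiableOn ℂ g {s | 0 < s.re}) (hg1 : g 1 ≠ 0)
    (he : ∀ s : ℂ, 1 < s.re → g s = (s - 1) * Zc K s) {s : ℂ} (hs : θ < s.re) : g s ≠ 0 := by
  obtain ⟨M, C, hM, h⟩ := h
  obtain ⟨E, hE, hE1⟩ := mob_id (K := K) hM
  set b : Ideal (𝓞 K) → ℝ := fun I => if IsCoprime I (Ideal.span {(M : 𝓞 K)}) then mu I else 0
    with hb
  have b1 : ∀ I, |b I| ≤ 1 := fun I => by
    simp only [hb]
    split_ifs
    · exact abs_mu_le I
    · simp
  have b0 : b 0 = 0 := by simp only [hb, conv_mu_zero, ite_self]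
  have e1 : ∀ X, MobSum K M X = ∑' I, b I * Wr (nm I / X) := fun X => by
    simp only [MobSum, hb, ite_mul, zero_mul]
  have e2 : ∀ z, Mc K M z = ∑' I, (b I : ℂ) * ((nm I : ℝ) : ℂ) ^ (-z) := fun z => by
    refine tsum_congr fun I => ?_
    simp only [hb]
    split_ifs <;> simp
  simp only [e1] at h
  have op : IsOpen {s : ℂ | θ < s.re} := isOpen_lt continuous_const continuous_re
  have a1 : AnalyticOnNhd ℂ (fun s => g s *
      (mellin (fun X => ((∑' I, b I * Wr (nm I / X) : ℝ) : ℂ)) (-s) * E s)) {s : ℂ | θ < s.re} :=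
    DifferentiableOn.analyticOnNhd ((hg.mono fun z hz => h0.trans_lt hz).mul fun z hz =>
      ((zf_diff b1 b0 h hz).mul (hE z)).differentiableWithinAt) op
  have a2 : AnalyticOnNhd ℂ (fun s : ℂ => (s - 1) * (((√π : ℝ) : ℂ) * Complex.exp (s ^ 2 / 4)))
      {s : ℂ | θ < s.re} :=
    DifferentiableOn.analyticOnNhd (Differentiable.differentiableOn (by fun_prop)) op
  have e := a1.eqOn_of_preconnected_of_eventuallyEq a2 (convex_halfSpace_re_gt θ).isPreconnected
    (z₀ := 2) (by simp; linarith) (by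
      filter_upwards [(isOpen_lt continuous_const continuous_re).mem_nhds
        (show (2 : ℂ) ∈ {s : ℂ | 1 < s.re} by simp)] with z hz
      rw [zf_sum b1 b0 hz, he z hz, ← e2]
      linear_combination (z - 1) * (((√π : ℝ) : ℂ) * Complex.exp (z ^ 2 / 4)) * hE1 z hz) hs
  intro c
  by_cases k : s = 1
  · exact hg1 (k ▸ c)
  simp only [c, zero_mul] at e
  exact mul_ne_zero (sub_ne_zero.2 k) (mul_ne_zero
    (ofReal_ne_zero.2 (Real.sqrt_pos.2 Real.pi_pos).ne') (Complex.exp_ne_zero _)) e.symm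

end

end Vale.Agent.P319E
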