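import Vale.Agent.P319E.Cont
import Vale.Agent.P319E.ZF
import Vale.Agent.P319E.BC

namespace Vale.Agent.P319E

open NumberField Complex MeasureTheory Filter Topology IsDedekindDomain
open scoped Classical Real nonZeroDivisors

noncomputable section

theorem pnt_lD (K : Type) [Field K] [NumberField K] : (Module.finrank ℚ K : ℝ) ≤ lD K :=
  le_add_of_nonneg_left (Real.log_nonneg (by
    rw [← Int.cast_abs]; exact_mod_cast Int.one_le_abs (discr_ne_zero K)))

theorem one_le_lD (K : Type) [Field K] [NumberField K] : 1 ≤ lD K :=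
  le_trans (by exact_mod_cast Module.finrank_pos) (pnt_lD K)

theorem pnt {θ σ : ℝ} (h1 : 1 / 2 ≤ θ) (h2 : θ < σ) (h3 : σ < 1) : ∃ C : ℝ, 0 < C ∧
    ∀ (K : Type) [Field K] [NumberField K] [IsTotallyComplex K], MobBound K θ →
      ∀ X : ℝ, 1 ≤ X → |Psi K X - Main X| ≤ C * lD K * X ^ σ := by
  obtain ⟨C0, hC0, h0⟩ := zeta_cont
  obtain ⟨C1, hC1, hb⟩ := bc_shift h1 h2 h3
  refine ⟨C1 * (C0 + 2), by positivity, fun K _ _ _ hM X hX => ?_⟩
  obtain ⟨g, gd, g1, ge, gb⟩ := h0 K
  have l1 := one_le_lD K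
  have l2 := pnt_lD K
  have X0 : 0 < X := by linarith
  have r2 : ∀ τ : ℝ, (2 + τ * I : ℂ).re = 2 := fun τ => by simp
  have n1 : ∀ τ : ℝ, 1 ≤ ‖(2 + τ * I - 1 : ℂ)‖ := fun τ =>
    le_trans (le_of_eq (by simp; norm_num)) (re_le_norm _)
  obtain ⟨-, k⟩ := hb g ((C0 + 2) * lD K) X (by nlinarith) hX
    (gd.mono fun z hz => lt_of_le_of_lt (by linarith : (0 : ℝ) ≤ θ) hz)
    (fun s hs => zero_free (by linarith) (by linarith) hM gd g1 ge hs)
    (fun s a b => (gb s (by linarith) b).trans (by gcongr; linarith))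
    (fun t => by
      rw [ge _ (by rw [r2]; norm_num), norm_mul]
      refine le_trans ?_ ((Zc_ge (r2 t).ge).trans (le_mul_of_one_le_left (norm_nonneg _) (n1 t)))
      exact Real.exp_le_exp.2 (by nlinarith))
  have := cv_countable (K := K)
  have : Countable (HeightOneSpectrum (𝓞 K)) :=
    Function.Injective.countable (f := fun P => P.asIdeal) fun _ _ h => HeightOneSpectrum.ext h
  obtain ⟨-, i1, m1⟩ := mellin_sum (ι := HeightOneSpectrum (𝓞 K) × ℕ)
    (a := fun p => (Real.log (nm p.1.asIdeal) : ℂ)) (y := fun p => nm p.1.asIdeal ^ (p.2 + 1))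
    (fun p => pow_pos (zf_pos p.1.ne_bot) _) ((summable_L one_lt_two).congr fun p => by
      rw [norm_real, Real.norm_of_nonneg (Real.log_nonneg (one_le_nm p.1.ne_bot))]) X0
  obtain ⟨i2, m2⟩ := main_eq X0
  have e : ∀ τ : ℝ, deriv g (2 + τ * I) / g (2 + τ * I) * Phi X (2 + τ * I) =
      1 / (2 + τ * I - 1) * Phi X (2 + τ * I) - Lc K (2 + τ * I) * Phi X (2 + τ * I) := fun τ => by
    have hs : 1 < (2 + τ * I : ℂ).re := by rw [r2]; norm_num
    have d := (((hasDerivAt_id _).sub_const 1).mul (hasDerivAt_Zc (K := K) hs)).congr_of_eventuallyEq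
      (f₁ := g) (by
        filter_upwards [(isOpen_lt continuous_const continuous_re).mem_nhds hs] with z hz
        exact ge z hz)
    have z0 : Zc K (2 + τ * I) ≠ 0 := norm_pos_iff.1 ((Real.exp_pos _).trans_le (Zc_ge (r2 τ).ge))
    have z1 : (2 + τ * I - 1 : ℂ) ≠ 0 := norm_pos_iff.1 (one_pos.trans_le (n1 τ))
    rw [d.deriv, ge _ hs, id]
    field_simp
    ring
  simp only [e, Lc] at k
  rw [integral_sub i2 i1] at k
  have e2 : ((Psi K X - Main X : ℝ) : ℂ) = -(1 / (2 * π)) *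
      ((∫ τ : ℝ, 1 / (2 + τ * I - 1) * Phi X (2 + τ * I)) -
        ∫ τ : ℝ, Lc K (2 + τ * I) * Phi X (2 + τ * I)) := by
    rw [ofReal_sub, m2, Psi, ofReal_tsum]
    simp only [ofReal_mul]
    rw [m1]
    simp only [Lc]
    ring
  simp only [Lc] at e2
  rw [← Real.norm_eq_abs, ← norm_real, e2, norm_mul]
  refine (mul_le_of_le_one_left (norm_nonneg _) ?_).trans (k.trans (le_of_eq (by ring)))
  rw [norm_neg, norm_div, norm_one, norm_mul, norm_real, Real.norm_of_nonneg Real.pi_pos.le,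
    Complex.norm_two]
  exact div_le_one_of_le₀ (by linarith [Real.pi_gt_three]) (by positivity)

end

end Vale.Agent.P319E
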