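import Vale.Agent.P319E.Defs

namespace Vale.Agent.P319E

open NumberField Complex MeasureTheory Filter Topology IsDedekindDomain
open scoped Classical Real nonZeroDivisors

noncomputable section

theorem pois_pi_summable {ι : Type} [Fintype ι] {g : ℤ → ℝ} (h0 : ∀ n, 0 ≤ g n)
    (hg : Summable g) : Summable fun m : ι → ℤ => ∏ i, g (m i) := by
  refine summable_of_sum_le (c := ∏ _i : ι, ∑' n, g n)
    (fun m => Finset.prod_nonneg fun i _ => h0 _) fun s => ?_
  calc ∑ m ∈ s, ∏ i, g (m i)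
      ≤ ∑ m ∈ Fintype.piFinset (fun i => s.image (· i)), ∏ i, g (m i) :=
        Finset.sum_le_sum_of_subset_of_nonneg
          (fun m hm => Fintype.mem_piFinset.2 fun i => Finset.mem_image_of_mem _ hm)
          fun m _ _ => Finset.prod_nonneg fun i _ => h0 _
    _ = ∏ i, ∑ n ∈ s.image (· i), g n := (Finset.prod_univ_sum _ _).symm
    _ ≤ _ := Finset.prod_le_prod (fun i _ => Finset.sum_nonneg fun n _ => h0 n)
        fun i _ => hg.sum_le_tsum _ fun n _ => h0 n

theorem summable_gauss {ι : Type} [Fintype ι] {c : ℝ} (hc : 0 < c) :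
    Summable fun m : ι → ℤ => Real.exp (-c * ∑ i, (m i : ℝ) ^ 2) := by
  have h1 : Summable fun n : ℕ => Real.exp (-c * (n : ℝ) ^ 2) := by
    refine (Real.summable_exp_nat_mul_iff.2 (neg_lt_zero.2 hc)).of_nonneg_of_le
      (fun n => (Real.exp_pos _).le) fun n => Real.exp_le_exp.2 ?_
    have : (n : ℝ) ≤ (n : ℝ) ^ 2 := by exact_mod_cast Nat.le_self_pow two_ne_zero n
    nlinarith
  have h2 : Summable fun n : ℤ => Real.exp (-c * (n : ℝ) ^ 2) :=
    Summable.of_nat_of_neg (by simpa using h1) (by simpa using h1)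
  refine (pois_pi_summable (fun n => (Real.exp_pos _).le) h2).congr fun m => ?_
  rw [← Real.exp_sum, Finset.mul_sum]

theorem pois_int {ι : Type} [Fintype ι] {c : ℝ} (hc : 0 < c) :
    Integrable fun x : ι → ℝ => Real.exp (-c * ∑ i, x i ^ 2) := by
  have := Integrable.fintype_prod (ι := ι) (f := fun _ (t : ℝ) => Real.exp (-c * t ^ 2))
    (μ := fun _ => volume) fun _ => integrable_exp_neg_mul_sq hc
  refine this.congr (.of_forall fun x => ?_)
  simp only [← Real.exp_sum, Finset.mul_sum]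

theorem pois_unfold {ι : Type} [Fintype ι] {E : Type} [NormedAddCommGroup E] [NormedSpace ℝ E]
    {h : (ι → ℝ) → E} (hh : Integrable h) :
    HasSum (fun m : ι → ℤ => ∫ x in {x : ι → ℝ | ∀ i, x i ∈ Set.Ioc ((0 : ι → ℝ) i) ((0 : ι → ℝ) i + 1)},
      h (x + fun i => (m i : ℝ))) (∫ x, h x) := by
  set B : (ι → ℤ) → Set (ι → ℝ) := fun m => {x | ∀ i, x i ∈ Set.Ioc (m i : ℝ) (m i + 1)} with hB
  have mB : ∀ m, MeasurableSet (B m) := fun m => MeasurableSet.univ_pi' fun i => measurableSet_Ioc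
  have cl : ∀ m x, x ∈ B m ↔ m = fun i => ⌈x i⌉ - 1 := fun m x => by
    simp only [hB, Set.mem_setOf_eq, funext_iff, Set.mem_Ioc]
    refine forall_congr' fun i => ?_
    rw [eq_sub_iff_add_eq, eq_comm, Int.ceil_eq_iff]
    push_cast
    constructor <;> rintro ⟨a, b⟩ <;> constructor <;> linarith
  have un : ⋃ m, B m = Set.univ :=
    Set.eq_univ_of_forall fun x => Set.mem_iUnion.2 ⟨_, (cl _ x).2 rfl⟩
  have dj : Pairwise (Function.onFun Disjoint B) := fun m m' hm =>
    Set.disjoint_left.2 fun x h1 h2 => hm (((cl _ x).1 h1).trans ((cl _ x).1 h2).symm)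
  have := hasSum_integral_iUnion (f := h) (μ := volume) mB dj (by rw [un]; exact hh.integrableOn)
  rw [un, Measure.restrict_univ] at this
  refine cast (congrArg (fun F => HasSum F (∫ x, h x)) (funext fun m => ?_)) this
  have e := (measurePreserving_add_right (volume : Measure (ι → ℝ))
    (fun i => (m i : ℝ))).setIntegral_preimage_emb (measurableEmbedding_addRight _) h (B m)
  rw [← e]
  congr 2
  ext x
  simp [hB, add_comm (m _ : ℝ) 1]

theorem poisson_pi {ι : Type} [Fintype ι] {f : (ι → ℝ) → ℂ} (hf : Continuous f) {C c : ℝ}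
    (hc : 0 < c) (hb : ∀ x, ‖f x‖ ≤ C * Real.exp (-c * ∑ i, x i ^ 2))
    (hs : Summable fun k : ι → ℤ =>
      ∫ x : ι → ℝ, f x * Complex.exp (-(2 * π * I) * ∑ i, (k i : ℂ) * (x i : ℂ))) :
    ∑' m : ι → ℤ, f (fun i => (m i : ℝ)) =
      ∑' k : ι → ℤ, ∫ x : ι → ℝ, f x * Complex.exp (-(2 * π * I) * ∑ i, (k i : ℂ) * (x i : ℂ)) := by
  have C0 : 0 ≤ C := by
    have := (norm_nonneg _).trans (hb 0)
    simpa using this
  set F : (ι → ℝ) → ℂ := fun x => ∑' m : ι → ℤ, f (x + fun i => (m i : ℝ)) with hF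
  have cF : Continuous F := by
    refine continuous_iff_continuousAt.2 fun x0 => ?_
    set R := ‖x0‖ + 1
    refine ContinuousOn.continuousAt (s := Metric.ball 0 R) ?_
      (Metric.isOpen_ball.mem_nhds (by simp [R]))
    refine continuousOn_tsum (fun m => (hf.comp (by fun_prop)).continuousOn)
      ((summable_gauss (ι := ι) (half_pos hc)).mul_left
        (C * Real.exp (c * ∑ _i : ι, R ^ 2))) fun m x hx => (hb _).trans ?_
    rw [mul_assoc, ← Real.exp_add]
    refine mul_le_mul_of_nonneg_left (Real.exp_le_exp.2 ?_) C0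
    simp only [Finset.mul_sum, ← Finset.sum_add_distrib]
    refine Finset.sum_le_sum fun i _ => ?_
    have h1 : |x i| ≤ R := (norm_le_pi_norm x i).trans (mem_ball_zero_iff.1 hx).le
    have h2 : x i ^ 2 ≤ R ^ 2 := sq_le_sq' (abs_le.1 h1).1 (abs_le.1 h1).2
    simp only [Pi.add_apply]
    nlinarith [mul_nonneg hc.le (sq_nonneg (2 * x i + m i)), mul_le_mul_of_nonneg_left h2 hc.le]
  have per : ∀ (x : ι → ℝ) (n : ι → ℤ), F (x + fun i => (n i : ℝ)) = F x := fun x n => by
    simp only [hF]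
    rw [← (Equiv.addLeft n).tsum_eq (fun m : ι → ℤ => f (x + fun i => (m i : ℝ)))]
    refine tsum_congr fun m => ?_
    congr 1; ext i; simp [add_assoc]
  set Ft : UnitAddTorus ι → ℂ := fun t => F fun i => (t i).out with hFt
  have eFt : ∀ x : ι → ℝ, Ft (fun i => (x i : UnitAddCircle)) = F x := fun x => by
    have : ∀ i, ∃ n : ℤ, ((x i : UnitAddCircle)).out = x i + n := fun i => by
      have h := QuotientAddGroup.eq_iff_sub_mem.1 (Quotient.out_eq (x i : UnitAddCircle))
      obtain ⟨n, hn⟩ := AddSubgroup.mem_zmultiples_iff.1 h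
      exact ⟨n, by rw [zsmul_eq_mul, mul_one] at hn; linarith⟩
    choose n hn using this
    rw [← per x n]
    simp only [hFt, hn]; rfl
  have cFt : Continuous Ft := by
    have q : IsOpenQuotientMap (Pi.map fun (_ : ι) (t : ℝ) => (t : UnitAddCircle)) :=
      IsOpenQuotientMap.piMap fun _ => QuotientAddGroup.isOpenQuotientMap_mk
    rw [← q.continuous_comp_iff]
    exact cF.congr fun x => (eFt x).symm
  have ch : ∀ (k : ι → ℤ) (x : ι → ℝ), UnitAddTorus.mFourier (-k) (fun i => (x i : UnitAddCircle)) =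
      Complex.exp (-(2 * π * I) * ∑ i, (k i : ℂ) * (x i : ℂ)) := fun k x => by
    simp only [UnitAddTorus.mFourier, ContinuousMap.coe_mk, fourier_coe_apply, Pi.neg_apply,
      ← Complex.exp_sum, Finset.mul_sum]
    congr 1
    refine Finset.sum_congr rfl fun i _ => ?_
    push_cast; ring
  have nch : ∀ (k : ι → ℤ) (x : ι → ℝ),
      ‖Complex.exp (-(2 * π * I) * ∑ i, (k i : ℂ) * (x i : ℂ))‖ = 1 := fun k x => by
    have : -(2 * π * I) * ∑ i, (k i : ℂ) * (x i : ℂ) =
        ((-(2 * π) * ∑ i, (k i : ℝ) * x i : ℝ) : ℂ) * I := by push_cast; ring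
    rw [this, norm_exp_ofReal_mul_I]
  have co : ∀ k : ι → ℤ, UnitAddTorus.mFourierCoeff (⟨Ft, cFt⟩ : C(UnitAddTorus ι, ℂ)) k =
      ∫ x : ι → ℝ, f x * Complex.exp (-(2 * π * I) * ∑ i, (k i : ℂ) * (x i : ℂ)) := fun k => by
    set h : (ι → ℝ) → ℂ := fun x =>
      f x * Complex.exp (-(2 * π * I) * ∑ i, (k i : ℂ) * (x i : ℂ)) with hh
    have ih : Integrable h := ((pois_int hc).const_mul C).mono'
      (Continuous.aestronglyMeasurable (by fun_prop))
      (.of_forall fun x => by rw [hh]; simp only [norm_mul, nch, mul_one]; exact hb x)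
    have u1 := pois_unfold ih
    have u2 := pois_unfold ih.norm
    have u3 := hasSum_integral_of_summable_integral_norm
      (μ := volume.restrict {x : ι → ℝ | ∀ i, x i ∈ Set.Ioc ((0 : ι → ℝ) i) ((0 : ι → ℝ) i + 1)})
      (F := fun (m : ι → ℤ) x => h (x + fun i => (m i : ℝ)))
      (fun m => (ih.comp_add_right _).integrableOn) u2.summable
    rw [UnitAddTorus.mFourierCoeff_eq_integral _ _ 0, ← u1.unique u3 |>.symm]
    refine integral_congr_ae (.of_forall fun x => ?_)
    simp only [ContinuousMap.coe_mk, eFt, ch, smul_eq_mul, hF, ← tsum_mul_left, hh]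
    refine tsum_congr fun m => ?_
    rw [mul_comm]
    congr 1
    have : -(2 * π * I) * ∑ i, (k i : ℂ) * (((x + fun i => (m i : ℝ)) i : ℝ) : ℂ) =
        -(2 * π * I) * ∑ i, (k i : ℂ) * (x i : ℂ) +
          ((-∑ i, k i * m i : ℤ) : ℂ) * (2 * π * I) := by
      simp only [Pi.add_apply]
      push_cast
      simp only [mul_add, Finset.sum_add_distrib]
      ring
    rw [this, Complex.exp_add, exp_int_mul_two_pi_mul_I, mul_one]
  have H := UnitAddTorus.hasSum_mFourier_series_apply_of_summable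
    (f := (⟨Ft, cFt⟩ : C(UnitAddTorus ι, ℂ))) (hs.congr fun k => (co k).symm)
    (fun i => (((0 : ι → ℝ) i : ℝ) : UnitAddCircle))
  simp only [co] at H
  simp only [ContinuousMap.coe_mk, eFt] at H
  simp only [hF, zero_add] at H
  rw [← H.tsum_eq]
  refine tsum_congr fun k => ?_
  simp [UnitAddTorus.mFourier]

end

end Vale.Agent.P319E
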