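import Vale.Agent.P319E.Pois

namespace Vale.Agent.P319E

open NumberField Complex MeasureTheory Filter Topology IsDedekindDomain
open scoped Classical Real nonZeroDivisors

noncomputable section

open Matrix

theorem posDef_ge {ι : Type} [Fintype ι] [DecidableEq ι] {G : Matrix ι ι ℝ} (hG : G.PosDef) :
    ∃ c : ℝ, 0 < c ∧ ∀ x : ι → ℝ, c * ∑ i, x i ^ 2 ≤ x ⬝ᵥ G *ᵥ x := by
  rcases isEmpty_or_nonempty ι with h | h
  · exact ⟨1, one_pos, fun x => by simp [dotProduct]⟩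
  obtain ⟨x0, hx0, hmin⟩ := (isCompact_sphere (0 : ι → ℝ) 1).exists_isMinOn
    (NormedSpace.sphere_nonempty.2 zero_le_one) (f := fun x => x ⬝ᵥ G *ᵥ x) (by fun_prop)
  have n0 : x0 ≠ 0 := fun h => by simp [h] at hx0
  have p0 : 0 < x0 ⬝ᵥ G *ᵥ x0 := by simpa using hG.dotProduct_mulVec_pos n0
  have cp : (0 : ℝ) < Fintype.card ι := by exact_mod_cast Fintype.card_pos
  refine ⟨x0 ⬝ᵥ G *ᵥ x0 / Fintype.card ι, by positivity, fun x => ?_⟩
  rcases eq_or_ne x 0 with rfl | hx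
  · simp
  have nx : 0 < ‖x‖ := norm_pos_iff.2 hx
  have h1 := hmin (a := ‖x‖⁻¹ • x) (by simp [norm_smul, nx.ne'])
  simp only [Set.mem_setOf_eq, mulVec_smul, dotProduct_smul, smul_dotProduct, smul_eq_mul] at h1
  have h2 : ∑ i, x i ^ 2 ≤ Fintype.card ι * ‖x‖ ^ 2 := by
    refine (Finset.sum_le_card_nsmul _ _ (‖x‖ ^ 2) fun i _ => ?_).trans (by simp)
    have := abs_le.1 (norm_le_pi_norm x i)
    exact sq_le_sq' this.1 this.2
  have h3 : x0 ⬝ᵥ G *ᵥ x0 * ‖x‖ ^ 2 ≤ x ⬝ᵥ G *ᵥ x := by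
    have := mul_le_mul_of_nonneg_right h1 (sq_nonneg ‖x‖)
    refine this.trans (le_of_eq ?_)
    field_simp
  calc _ ≤ x0 ⬝ᵥ G *ᵥ x0 / Fintype.card ι * (Fintype.card ι * ‖x‖ ^ 2) := by gcongr
    _ = x0 ⬝ᵥ G *ᵥ x0 * ‖x‖ ^ 2 := by field_simp
    _ ≤ _ := h3

theorem summable_posDef {ι : Type} [Fintype ι] [DecidableEq ι] {G : Matrix ι ι ℝ}
    (hG : G.PosDef) : Summable fun m : ι → ℤ =>
      Real.exp (-π * ((fun i => (m i : ℝ)) ⬝ᵥ G *ᵥ (fun i => (m i : ℝ)))) := by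
  obtain ⟨c, hc, h⟩ := posDef_ge hG
  refine (summable_gauss (ι := ι) (mul_pos Real.pi_pos hc)).of_nonneg_of_le
    (fun m => (Real.exp_pos _).le) fun m => Real.exp_le_exp.2 ?_
  nlinarith [mul_le_mul_of_nonneg_left (h fun i => (m i : ℝ)) Real.pi_pos.le]

open scoped MatrixOrder in
theorem fourier_posDef {ι : Type} [Fintype ι] [DecidableEq ι] {G : Matrix ι ι ℝ}
    (hG : G.PosDef) (k : ι → ℝ) :
    ∫ x : ι → ℝ, ((Real.exp (-π * (x ⬝ᵥ G *ᵥ x)) : ℝ) : ℂ) *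
        Complex.exp (-(2 * π * I) * ∑ i, (k i : ℂ) * (x i : ℂ)) =
      (((√G.det)⁻¹ * Real.exp (-π * (k ⬝ᵥ G⁻¹ *ᵥ k)) : ℝ) : ℂ) := by
  obtain ⟨S, hS⟩ := CStarAlgebra.nonneg_iff_eq_star_mul_self.mp hG.posSemidef.nonneg
  rw [star_eq_conjTranspose, conjTranspose_eq_transpose_of_trivial] at hS
  have dG : G.det = S.det ^ 2 := by rw [hS, det_mul, det_transpose, sq]
  have d0 : S.det ≠ 0 := fun h => hG.det_pos.ne' (by rw [dG, h]; simp)
  have du : IsUnit S.det := Ne.isUnit d0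
  set l : ι → ℝ := S⁻¹ᵀ *ᵥ k with hl
  set F : (ι → ℝ) → ℂ := fun y => cexp (-∑ i, (π : ℂ) * (y i : ℂ) ^ 2 +
    ∑ i, (-(2 * π * I) * l i) * y i) with hF
  have e1 : ∀ x : ι → ℝ, ((Real.exp (-π * (x ⬝ᵥ G *ᵥ x)) : ℝ) : ℂ) *
      Complex.exp (-(2 * π * I) * ∑ i, (k i : ℂ) * (x i : ℂ)) = F (toLin' S x) := fun x => by
    have a1 : x ⬝ᵥ G *ᵥ x = ∑ i, (S *ᵥ x) i ^ 2 := by
      rw [hS, ← mulVec_mulVec, dotProduct_mulVec, vecMul_transpose]
      simp only [dotProduct, sq]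
    have a2 : ∑ i, k i * x i = ∑ i, l i * (S *ᵥ x) i := by
      change k ⬝ᵥ x = l ⬝ᵥ S *ᵥ x
      rw [hl, mulVec_transpose, ← dotProduct_mulVec, mulVec_mulVec, nonsing_inv_mul _ du,
        one_mulVec]
    have a3 : ∑ i, (k i : ℂ) * (x i : ℂ) = ∑ i, (l i : ℂ) * ((S *ᵥ x) i : ℂ) := by
      exact_mod_cast a2
    rw [a1, a3, hF, ofReal_exp, ← Complex.exp_add, toLin'_apply]
    push_cast
    simp only [Finset.mul_sum, neg_mul, Finset.sum_neg_distrib, mul_assoc]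
  simp only [e1]
  have cF : Continuous F := by rw [hF]; fun_prop
  rw [← integral_map (φ := toLin' S) (LinearMap.continuous_of_finiteDimensional _).aemeasurable
    cF.aestronglyMeasurable, Real.map_matrix_volume_pi_eq_smul_volume_pi d0, integral_smul_measure,
    hF, GaussianFourier.integral_cexp_neg_sum_mul_add (fun _ => by simpa using Real.pi_pos)]
  have a4 : k ⬝ᵥ G⁻¹ *ᵥ k = ∑ i, l i ^ 2 := by
    rw [hS, Matrix.mul_inv_rev, ← mulVec_mulVec, dotProduct_mulVec, ← transpose_nonsing_inv, ← hl,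
      ← mulVec_transpose, ← hl]
    simp only [dotProduct, sq]
  have pn : (π : ℂ) ≠ 0 := ofReal_ne_zero.2 Real.pi_ne_zero
  rw [a4, dG, Real.sqrt_sq_eq_abs, ENNReal.toReal_ofReal (abs_nonneg _), abs_inv, div_self pn]
  simp only [one_cpow, one_mul, ← Complex.exp_sum, real_smul]
  push_cast
  congr 2
  rw [Finset.mul_sum]
  refine Finset.sum_congr rfl fun i _ => ?_
  field_simp
  rw [I_sq]; ring

theorem poisson_posDef {ι : Type} [Fintype ι] [DecidableEq ι] {G : Matrix ι ι ℝ}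
    (hG : G.PosDef) :
    ∑' m : ι → ℤ, Real.exp (-π * ((fun i => (m i : ℝ)) ⬝ᵥ G *ᵥ (fun i => (m i : ℝ)))) =
      (√G.det)⁻¹ *
        ∑' m : ι → ℤ, Real.exp (-π * ((fun i => (m i : ℝ)) ⬝ᵥ G⁻¹ *ᵥ (fun i => (m i : ℝ)))) := by
  obtain ⟨c, hc, h⟩ := posDef_ge hG
  have e := fun k : ι → ℤ => fourier_posDef hG (fun i => (k i : ℝ))
  simp only [ofReal_intCast] at e
  have H := poisson_pi (f := fun x : ι → ℝ => ((Real.exp (-π * (x ⬝ᵥ G *ᵥ x)) : ℝ) : ℂ))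
    (by fun_prop) (C := 1) (mul_pos Real.pi_pos hc) (fun x => by
      rw [Complex.norm_real, Real.norm_of_nonneg (Real.exp_pos _).le, one_mul, Real.exp_le_exp]
      nlinarith [mul_le_mul_of_nonneg_left (h x) Real.pi_pos.le]) (by
      simp only [e]
      exact Complex.summable_ofReal.2 ((summable_posDef hG.inv).mul_left _))
  simp only [e] at H
  rw [← ofReal_tsum, ← ofReal_tsum, tsum_mul_left] at H
  exact_mod_cast H

end

end Vale.Agent.P319E
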