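import Vale.Agent.P319E.PoisG

namespace Vale.Agent.P319E

open NumberField Complex MeasureTheory Filter Topology IsDedekindDomain
open scoped Classical Real nonZeroDivisors

noncomputable section

variable {K : Type} [Field K] [NumberField K]

open Matrix Module
open scoped ComplexConjugate

/-- `b` is a basis of the lattice `A` -/
def Lat (A : FI K) {ι : Type} (b : Basis ι ℚ K) : Prop :=
  ∀ x : K, x ∈ A.1 ↔ x ∈ Submodule.span ℤ (Set.range b)

theorem theta_lat0 (A : FI K) : Lat A (basisOfFractionalIdeal K A) := fun _ =>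
  (mem_span_basisOfFractionalIdeal K).symm

theorem theta_exists (A : FI K) : ∃ b : Basis (K →+* ℂ) ℚ K, Lat A b := by
  refine ⟨(basisOfFractionalIdeal K A).reindex (Fintype.equivOfCardEq ?_), fun x => ?_⟩
  · rw [← finrank_eq_card_basis (basisOfFractionalIdeal K A), Embeddings.card]
  · rw [Basis.range_reindex]; exact theta_lat0 A x

theorem theta_dual {A : FI K} {ι : Type} [Fintype ι] {b : Basis ι ℚ K} (h : Lat A b) :
    Lat (dualU A) b.traceDual := fun x => by
  have := Submodule.traceDual_span_of_basis ℤ (K := ℚ) (A.1 : Submodule (𝓞 K) K) b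
    (Submodule.ext fun x => h x)
  rw [← this, Submodule.restrictScalars_mem, ← FractionalIdeal.coe_dual ℤ ℚ A.ne_zero]
  rfl

theorem theta_int {A : FI K} {ι κ : Type} [Fintype ι] {b : Basis ι ℚ K} {b' : Basis κ ℚ K}
    (h : Lat A b) (h' : Lat A b') (i : ι) (j : κ) : IsIntegral ℤ (b.toMatrix b' i j) := by
  have := (h _).1 ((h' (b' j)).2 (Submodule.subset_span ⟨j, rfl⟩))
  obtain ⟨z, hz⟩ := (Basis.mem_span_iff_repr_mem ℤ b _).1 this i
  rw [Basis.toMatrix_apply, ← hz]
  exact isIntegral_algebraMap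

theorem theta_discr {A : FI K} {ι : Type} [Fintype ι] {b : Basis ι ℚ K} (h : Lat A b) :
    Algebra.discr ℚ b = FractionalIdeal.absNorm A.1 ^ 2 * discr K := by
  obtain ⟨e⟩ : Nonempty (Free.ChooseBasisIndex ℤ (𝓞 K) ≃ Free.ChooseBasisIndex ℤ A.1) :=
    ⟨Fintype.equivOfCardEq (by
      rw [← finrank_eq_card_basis (basisOfFractionalIdeal K A),
        ← finrank_eq_card_basis (integralBasis K)])⟩
  have h1 : Lat A ((basisOfFractionalIdeal K A).reindex e.symm) := fun x => by
    rw [Basis.range_reindex]; exact theta_lat0 A x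
  rw [Algebra.discr_eq_discr_of_toMatrix_coeff_isIntegral K (theta_int h h1) (theta_int h1 h),
    ← det_basisOfFractionalIdeal_eq_absNorm K A e, sq_abs, coe_discr, Basis.det_apply,
    ← Algebra.discr_of_matrix_vecMul, Basis.toMatrix_map_vecMul]

/-- the matrix of embeddings -/
def Em (b : Basis (K →+* ℂ) ℚ K) : Matrix (K →+* ℂ) (K →+* ℂ) ℂ := of fun φ i => φ (b i)

theorem theta_trace (x : K) : ((Algebra.trace ℚ K x : ℚ) : ℂ) = ∑ φ : K →+* ℂ, φ x := by
  rw [← eq_ratCast (algebraMap ℚ ℂ), trace_eq_sum_embeddings ℂ,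
    ← (RingHom.equivRatAlgHom K ℂ).sum_comp]
  rfl

theorem cov_pos (A : FI K) : 0 < cov A := by
  have h1 : FractionalIdeal.absNorm A.1 ≠ 0 := fun h =>
    A.ne_zero (FractionalIdeal.absNorm_eq_zero_iff.1 h)
  have h2 := FractionalIdeal.absNorm_nonneg A.1
  have h3 : (discr K : ℝ) ≠ 0 := by exact_mod_cast discr_ne_zero K
  have h4 : (0 : ℝ) < (FractionalIdeal.absNorm A.1 : ℚ) := by exact_mod_cast h2.lt_of_ne' h1
  unfold cov
  positivity

theorem theta_det {A : FI K} {b : Basis (K →+* ℂ) ℚ K} (h : Lat A b) : ‖(Em b).det‖ = cov A := by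
  have h1 : ((Algebra.discr ℚ b : ℚ) : ℂ) = (Em b).det ^ 2 := by
    rw [← eq_ratCast (algebraMap ℚ ℂ), Algebra.discr_eq_det_embeddingsMatrixReindex_pow_two ℚ ℂ b
      (RingHom.equivRatAlgHom K ℂ), ← det_transpose]
    congr 2
  have h2 := congrArg (‖·‖) h1
  simp only [theta_discr h, norm_pow] at h2
  rw [← pow_left_inj₀ (norm_nonneg _) (cov_pos A).le two_ne_zero, ← h2, cov, mul_pow,
    Real.sq_sqrt (abs_nonneg _)]
  push_cast
  rw [norm_mul, norm_pow, Complex.norm_ratCast, sq_abs, Complex.norm_intCast]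

theorem theta_EE (b : Basis (K →+* ℂ) ℚ K) : (Em b)ᵀ * Em b.traceDual = 1 := by
  ext i j
  simp only [Em, mul_apply, transpose_apply, of_apply, ← map_mul, ← theta_trace,
    Basis.trace_mul_traceDual, one_apply]
  split_ifs <;> simp

theorem cov_dual (A : FI K) : cov (dualU A) = (cov A)⁻¹ := by
  obtain ⟨b, hb⟩ := theta_exists A
  have := congrArg (fun M => ‖M.det‖) (theta_EE b)
  simp only [det_mul, det_transpose, norm_mul, det_one, norm_one, theta_det hb,
    theta_det (theta_dual hb)] at this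
  exact eq_inv_of_mul_eq_one_right this

/-- the complex Gram matrix -/
def GC (b : Basis (K →+* ℂ) ℚ K) (y : InfinitePlace K → ℝ) : Matrix (K →+* ℂ) (K →+* ℂ) ℂ :=
  (Em b)ᴴ * diagonal (fun φ => (y (InfinitePlace.mk φ) : ℂ)) * Em b

/-- the real Gram matrix -/
def GR (b : Basis (K →+* ℂ) ℚ K) (y : InfinitePlace K → ℝ) : Matrix (K →+* ℂ) (K →+* ℂ) ℝ :=
  (GC b y).map re

theorem theta_GC (b : Basis (K →+* ℂ) ℚ K) (y : InfinitePlace K → ℝ) (i j : K →+* ℂ) :
    GC b y i j = ∑ φ : K →+* ℂ, conj (φ (b i)) * y (InfinitePlace.mk φ) * φ (b j) := by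
  simp [GC, mul_apply, Em, diagonal]

theorem theta_conj (b : Basis (K →+* ℂ) ℚ K) (y : InfinitePlace K → ℝ) (i j : K →+* ℂ) :
    conj (GC b y i j) = GC b y i j := by
  rw [theta_GC, map_sum, ← Equiv.sum_comp (ComplexEmbedding.involutive_conjugate K).toPerm]
  refine Finset.sum_congr rfl fun φ _ => ?_
  simp [InfinitePlace.mk_conjugate_eq]

theorem theta_map (b : Basis (K →+* ℂ) ℚ K) (y : InfinitePlace K → ℝ) :
    (GR b y).map ofRealHom = GC b y := by
  ext i j
  exact conj_eq_iff_re.1 (theta_conj b y i j)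

theorem theta_inv (b : Basis (K →+* ℂ) ℚ K) {y : InfinitePlace K → ℝ} (hy : ∀ w, 0 < y w) :
    (GR b y)⁻¹ = GR b.traceDual fun w => (y w)⁻¹ := by
  refine inv_eq_right_inv (Matrix.map_injective (f := ofRealHom) ofReal_injective ?_)
  simp only [Matrix.map_mul, theta_map]
  have e1 : GC b.traceDual (fun w => (y w)⁻¹) = (Em b.traceDual)ᵀ *
      diagonal (fun φ => (y (InfinitePlace.mk φ) : ℂ)⁻¹) * (Em b.traceDual).map conj := by
    ext i j
    rw [← theta_conj, theta_GC]
    simp [mul_apply, Em, diagonal]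
  have e2 : Em b * (Em b.traceDual)ᵀ = 1 := by
    have := congrArg transpose (theta_EE b)
    rw [transpose_mul, transpose_transpose, transpose_one] at this
    exact mul_eq_one_comm.1 this
  have e3 : (Em b)ᴴ * (Em b.traceDual).map conj = 1 := by
    have := congrArg (fun M => M.map conj) (theta_EE b)
    simp only [Matrix.map_mul] at this
    rw [Matrix.map_one _ (map_zero _) (map_one _)] at this
    exact this
  have e4 : diagonal (fun φ : K →+* ℂ => (y (InfinitePlace.mk φ) : ℂ)) *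
      diagonal (fun φ => (y (InfinitePlace.mk φ) : ℂ)⁻¹) = 1 := by
    rw [diagonal_mul_diagonal, ← diagonal_one]
    congr 1; ext φ
    exact mul_inv_cancel₀ (ofReal_ne_zero.2 (hy _).ne')
  rw [e1, GC, Matrix.map_one _ (map_zero _) (map_one _)]
  calc _ = (Em b)ᴴ * (diagonal (fun φ : K →+* ℂ => (y (InfinitePlace.mk φ) : ℂ)) *
        (Em b * (Em b.traceDual)ᵀ) * diagonal (fun φ => (y (InfinitePlace.mk φ) : ℂ)⁻¹)) *
        (Em b.traceDual).map conj := by simp only [Matrix.mul_assoc]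
    _ = 1 := by rw [e2, Matrix.mul_one, e4, Matrix.mul_one, e3]

theorem theta_form (b : Basis (K →+* ℂ) ℚ K) (y : InfinitePlace K → ℝ) (x : (K →+* ℂ) → ℝ) :
    x ⬝ᵥ GR b y *ᵥ x =
      ∑ φ : K →+* ℂ, y (InfinitePlace.mk φ) * ‖∑ i, (x i : ℂ) * φ (b i)‖ ^ 2 := by
  apply ofReal_injective
  have e : ∀ i j, ((GR b y i j : ℝ) : ℂ) = GC b y i j := fun i j =>
    congrFun (congrFun (theta_map b y) i) j
  simp only [dotProduct, mulVec]
  push_cast
  simp only [e, theta_GC, ← conj_mul', map_sum, map_mul, conj_ofReal, Finset.mul_sum,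
    Finset.sum_mul]
  conv_rhs => rw [Finset.sum_comm]; enter [2, j]; rw [Finset.sum_comm]
  rw [Finset.sum_comm]
  refine Finset.sum_congr rfl fun j _ => Finset.sum_congr rfl fun i _ =>
    Finset.sum_congr rfl fun φ _ => by ring

theorem theta_posDef (b : Basis (K →+* ℂ) ℚ K) {y : InfinitePlace K → ℝ} (hy : ∀ w, 0 < y w) :
    (GR b y).PosDef := by
  refine PosDef.of_dotProduct_mulVec_pos ?_ fun x hx => ?_
  · ext i j
    simp only [conjTranspose_apply, star_trivial, GR, map_apply]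
    rw [← theta_conj b y j i, theta_GC, theta_GC, map_sum]
    congr 1
    refine Finset.sum_congr rfl fun φ _ => by simp; ring
  · rw [star_trivial, theta_form]
    have hd : (Em b).det ≠ 0 := fun h => by
      have := congrArg det (theta_EE b)
      simp [h] at this
    obtain ⟨φ, hφ⟩ : ∃ φ : K →+* ℂ, ∑ i, (x i : ℂ) * φ (b i) ≠ 0 := by
      by_contra hc
      push Not at hc
      have := eq_zero_of_mulVec_eq_zero hd (v := fun i => (x i : ℂ)) (funext fun φ => by
        rw [Pi.zero_apply, ← hc φ]; simp [mulVec, dotProduct, Em, mul_comm])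
      exact hx (funext fun i => ofReal_eq_zero.1 (congrFun this i))
    exact Finset.sum_pos' (fun ψ _ => mul_nonneg (hy _).le (sq_nonneg _))
      ⟨φ, Finset.mem_univ _, mul_pos (hy _) (pow_pos (norm_pos_iff.2 hφ) 2)⟩

theorem theta_detG [IsTotallyComplex K] {A : FI K} {b : Basis (K →+* ℂ) ℚ K} (h : Lat A b)
    {y : InfinitePlace K → ℝ} (hy : ∀ w, 0 < y w) : √(GR b y).det = cov A * ∏ w, y w := by
  have e : (GR b y).det = (cov A * ∏ w, y w) ^ 2 := by
    apply ofReal_injective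
    have := RingHom.map_det ofRealHom (GR b y)
    rw [RingHom.mapMatrix_apply, theta_map] at this
    rw [show ((GR b y).det : ℂ) = _ from this, GC, det_mul, det_mul, det_conjTranspose,
      det_diagonal, mul_right_comm, Complex.star_def, conj_mul', theta_det h,
      ← Finset.prod_fiberwise (g := fun φ : K →+* ℂ => InfinitePlace.mk φ)]
    push_cast
    rw [mul_pow, ← Finset.prod_pow]
    congr 1
    refine Finset.prod_congr rfl fun w _ => ?_
    rw [Finset.prod_congr rfl (g := fun _ => (y w : ℂ)) fun φ hφ => by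
      rw [(Finset.mem_filter.1 hφ).2], Finset.prod_const, InfinitePlace.card_filter_mk_eq,
      IsTotallyComplex.mult_eq]
  rw [e, Real.sqrt_sq (mul_pos (cov_pos A) (Finset.prod_pos fun w _ => hy w)).le]

theorem theta_gs [IsTotallyComplex K] (b : Basis (K →+* ℂ) ℚ K) (y : InfinitePlace K → ℝ)
    (m : (K →+* ℂ) → ℤ) : gs y (∑ i, m i • b i) =
      Real.exp (-π * ((fun i => (m i : ℝ)) ⬝ᵥ GR b y *ᵥ (fun i => (m i : ℝ)))) := by
  have e : ∀ w : InfinitePlace K, ∑ φ ∈ Finset.univ.filter fun φ : K →+* ℂ =>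
      InfinitePlace.mk φ = w, y (InfinitePlace.mk φ) * ‖∑ i, ((m i : ℝ) : ℂ) * φ (b i)‖ ^ 2 =
        2 * (y w * w (∑ i, m i • b i) ^ 2) := fun w => by
    have e1 : ∀ φ ∈ Finset.univ.filter fun φ : K →+* ℂ => InfinitePlace.mk φ = w,
        y (InfinitePlace.mk φ) * ‖∑ i, ((m i : ℝ) : ℂ) * φ (b i)‖ ^ 2 =
          y w * w (∑ i, m i • b i) ^ 2 := fun φ hφ => by
      rw [← (Finset.mem_filter.1 hφ).2, InfinitePlace.apply]; simp
    rw [Finset.sum_congr rfl e1, Finset.sum_const,
      InfinitePlace.card_filter_mk_eq, IsTotallyComplex.mult_eq, nsmul_eq_mul]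
    norm_num
  rw [theta_form, ← Finset.sum_fiberwise (g := fun φ : K →+* ℂ => InfinitePlace.mk φ)
    (f := fun φ => y (InfinitePlace.mk φ) * ‖∑ i, ((m i : ℝ) : ℂ) * φ (b i)‖ ^ 2),
    Finset.sum_congr rfl fun w _ => e w, ← Finset.mul_sum, gs]
  congr 1
  ring

theorem theta_hasSum [IsTotallyComplex K] {A : FI K} {b : Basis (K →+* ℂ) ℚ K} (h : Lat A b)
    {y : InfinitePlace K → ℝ} (hy : ∀ w, 0 < y w) :
    HasSum (fun a : K => if a ∈ A.1 then gs y a else 0) (∑' m : (K →+* ℂ) → ℤ,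
      Real.exp (-π * ((fun i => (m i : ℝ)) ⬝ᵥ GR b y *ᵥ (fun i => (m i : ℝ))))) := by
  have inj : Function.Injective fun m : (K →+* ℂ) → ℤ => ∑ i, m i • b i := fun m m' e => by
    have li := (b.linearIndependent.restrict_scalars' ℤ)
    exact funext (Fintype.linearIndependent_iffₛ.1 li m m' e)
  have rg : ∀ a, a ∈ A.1 ↔ a ∈ Set.range fun m : (K →+* ℂ) → ℤ => ∑ i, m i • b i := fun a => by
    rw [h, Submodule.mem_span_range_iff_exists_fun]; rfl
  rw [← inj.hasSum_iff fun a ha => if_neg fun h' => ha ((rg a).1 h')]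
  refine cast (congrArg (fun F => HasSum F _) (funext fun m => ?_))
    (summable_posDef (theta_posDef b hy)).hasSum
  rw [Function.comp_apply, if_pos ((rg _).2 ⟨m, rfl⟩), theta_gs]

theorem summable_th [IsTotallyComplex K] (A : FI K) {y : InfinitePlace K → ℝ} (hy : ∀ w, 0 < y w) :
    Summable fun a : K => if a ∈ A.1 ∧ a ≠ 0 then gs y a else 0 := by
  obtain ⟨b, hb⟩ := theta_exists A
  have p : ∀ a, 0 ≤ gs y a := fun a => (Real.exp_pos _).le
  refine (theta_hasSum hb hy).summable.of_nonneg_of_le (fun a => ?_) fun a => ?_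
  · split_ifs; exacts [p a, le_rfl]
  · by_cases h : a ∈ A.1
    · rw [if_pos h]; split_ifs; exacts [le_rfl, p a]
    · simp [h]

theorem theta_one_add [IsTotallyComplex K] {A : FI K} {b : Basis (K →+* ℂ) ℚ K} (h : Lat A b)
    {y : InfinitePlace K → ℝ} (hy : ∀ w, 0 < y w) : 1 + th A y = ∑' m : (K →+* ℂ) → ℤ,
      Real.exp (-π * ((fun i => (m i : ℝ)) ⬝ᵥ GR b y *ᵥ (fun i => (m i : ℝ)))) := by
  rw [← (theta_hasSum h hy).tsum_eq, (theta_hasSum h hy).summable.tsum_eq_add_tsum_ite 0,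
    if_pos A.1.zero_mem, th]
  congr 1
  · simp [gs]
  · refine tsum_congr fun a => ?_
    by_cases h0 : a = 0 <;> simp [h0]

theorem th_fe [IsTotallyComplex K] (A : FI K) {y : InfinitePlace K → ℝ} (hy : ∀ w, 0 < y w) :
    1 + th A y = (cov A * ∏ w, y w)⁻¹ * (1 + th (dualU A) (fun w => (y w)⁻¹)) := by
  obtain ⟨b, hb⟩ := theta_exists A
  rw [theta_one_add hb hy, theta_one_add (theta_dual hb) fun w => inv_pos.2 (hy w),
    poisson_posDef (theta_posDef b hy), theta_detG hb hy, theta_inv b hy]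

end

end Vale.Agent.P319E
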