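import Vale.Agent.P319E.Arch
import Vale.Agent.P319E.Theta
import Vale.Agent.P319E.Eul

namespace Vale.Agent.P319E

open NumberField Complex MeasureTheory Filter Topology IsDedekindDomain
open scoped Classical Real nonZeroDivisors

noncomputable section

variable {K : Type} [Field K] [NumberField K]

theorem unf_count : Countable K := (Module.finBasis ℚ K).equivFun.injective.countable

theorem unf_gs_pos (y : InfinitePlace K → ℝ) (a : K) : 0 < gs y a := Real.exp_pos _

theorem unf_cont (a : K) : Continuous fun c => gs (yy c) a := by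
  have := continuous_yy (K := K)
  unfold gs
  fun_prop

theorem unf_cont_lam (A : FI K) : Continuous (lam A) := by
  unfold lam
  fun_prop

theorem measurable_th [IsTotallyComplex K] (A : FI K) : Measurable fun c => th A (yy c) := by
  have := unf_count (K := K)
  refine Measurable.tsum fun a => ?_
  split_ifs
  exacts [(unf_cont a).measurable, measurable_const]

theorem th_nonneg (A : FI K) (y : InfinitePlace K → ℝ) : 0 ≤ th A y :=
  tsum_nonneg fun a => by split_ifs; exacts [(unf_gs_pos y a).le, le_rfl]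

/-- nonzero ideals in the class inverse to `A` -/
abbrev SS (A : FI K) : Type := {I : Ideal (𝓞 K) // I ≠ ⊥ ∧ Cl A I}

/-- a generator -/
def gen {A : FI K} (I : SS A) : K := I.2.2.choose

theorem unf_gen {A : FI K} (I : SS A) : (I.1 : FractionalIdeal (𝓞 K)⁰ K) * A.1 =
    FractionalIdeal.spanSingleton (𝓞 K)⁰ (gen I) := I.2.2.choose_spec

theorem unf_gen_ne {A : FI K} (I : SS A) : gen I ≠ 0 := fun h => by
  have := unf_gen I
  rw [h, FractionalIdeal.spanSingleton_zero] at this
  exact mul_ne_zero (FractionalIdeal.coeIdeal_ne_zero.2 I.2.1) A.ne_zero this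

/-- the unit with given exponents -/
def un (p : Units.torsion K × (Fin (Units.rank K) → ℤ)) : (𝓞 K)ˣ :=
  (p.1 : (𝓞 K)ˣ) * ∏ i, Units.fundSystem K i ^ p.2 i

theorem unf_un : Function.Bijective (un (K := K)) :=
  (Function.bijective_iff_existsUnique _).2 fun x => by
    simpa only [un, eq_comm] using Units.exist_unique_eq_mul_prod K x

/-- the parametrisation of the nonzero elements of `A` -/
def par (A : FI K) (p : SS A × Units.torsion K × (Fin (Units.rank K) → ℤ)) : K :=
  gen p.1 * ((un p.2 : 𝓞 K) : K)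

theorem unf_span (a : K) (u : (𝓞 K)ˣ) : FractionalIdeal.spanSingleton (𝓞 K)⁰ a =
    FractionalIdeal.spanSingleton (𝓞 K)⁰ (a * ((u : 𝓞 K) : K)) :=
  FractionalIdeal.spanSingleton_eq_spanSingleton.2 ⟨u, by
    rw [Units.smul_def, Algebra.smul_def, mul_comm]⟩

theorem unf_inj (A : FI K) : Function.Injective (par A) := by
  rintro ⟨I, p⟩ ⟨J, q⟩ h
  have e : I = J := by
    have := unf_gen I
    rw [unf_span _ (un p), show gen I * _ = _ from h, par, ← unf_span, ← unf_gen] at this
    exact Subtype.ext (FractionalIdeal.coeIdeal_injective (mul_right_cancel₀ A.ne_zero this))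
  subst e
  have := mul_left_cancel₀ (unf_gen_ne I) h
  exact Prod.ext rfl (unf_un.1 (Units.ext (RingOfIntegers.coe_injective this)))

theorem unf_range (A : FI K) (a : K) : a ∈ Set.range (par A) ↔ a ∈ A.1 ∧ a ≠ 0 := by
  constructor
  · rintro ⟨⟨I, p⟩, rfl⟩
    refine ⟨?_, mul_ne_zero (unf_gen_ne I) (Units.coe_ne_zero _)⟩
    rw [← FractionalIdeal.spanSingleton_le_iff_mem, par, ← unf_span, ← unf_gen]
    exact mul_le_of_le_one_left' FractionalIdeal.coeIdeal_le_one
  · rintro ⟨ha, h0⟩
    have : FractionalIdeal.spanSingleton (𝓞 K)⁰ a * (A⁻¹).1 ≤ 1 := by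
      rw [← A.mul_inv]
      exact mul_le_mul_left (FractionalIdeal.spanSingleton_le_iff_mem.2 ha) _
    obtain ⟨I, hI⟩ := FractionalIdeal.le_one_iff_exists_coeIdeal.1 this
    have e : (I : FractionalIdeal (𝓞 K)⁰ K) * A.1 = FractionalIdeal.spanSingleton (𝓞 K)⁰ a := by
      rw [hI, mul_assoc, A.inv_mul, mul_one]
    have hb : I ≠ ⊥ := fun h => by
      rw [h, FractionalIdeal.coeIdeal_bot, zero_mul, eq_comm,
        FractionalIdeal.spanSingleton_eq_zero_iff] at e
      exact h0 e
    obtain ⟨u, hu⟩ := FractionalIdeal.spanSingleton_eq_spanSingleton.1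
      ((unf_gen (A := A) ⟨I, hb, a, e⟩).symm.trans e)
    obtain ⟨p, rfl⟩ := unf_un.2 u
    refine ⟨⟨⟨I, hb, a, e⟩, p⟩, Eq.trans ?_ hu⟩
    rw [Units.smul_def, Algebra.smul_def]; exact mul_comm _ _

theorem unf_th [IsTotallyComplex K] (A : FI K) {y : InfinitePlace K → ℝ} (hy : ∀ w, 0 < y w) :
    HasSum (fun p => gs y (par A p)) (th A y) := by
  have := ((unf_inj A).hasSum_iff (f := fun a : K => if a ∈ A.1 ∧ a ≠ 0 then gs y a else 0)
    fun a ha => if_neg fun h => ha ((unf_range A a).2 h)).2 (summable_th A hy).hasSum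
  refine cast (congrArg (fun F => HasSum F _) (funext fun p => ?_)) this
  exact if_pos ((unf_range A _).1 ⟨p, rfl⟩)

theorem unf_lam (A : FI K) (c : InfinitePlace K → ℝ) (e : Fin (Units.rank K) → ℤ) :
    lam A (c + uv e) = lam A c := by simp [lam, uv]

theorem unf_sum_e (A : FI K) (σ : ℝ) (a : K) (ζ : Units.torsion K) :
    ∑' e : Fin (Units.rank K) → ℤ, ∫⁻ c, ENNReal.ofReal
      (bt c * gs (yy c) (a * ((un (ζ, e) : 𝓞 K) : K)) * Real.exp (σ * lam A c)) =
      ∫⁻ c, ENNReal.ofReal (gs (yy c) a * Real.exp (σ * lam A c)) := by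
  have e1 : ∀ e : Fin (Units.rank K) → ℤ, ∫⁻ c, ENNReal.ofReal
      (bt c * gs (yy c) (a * ((un (ζ, e) : 𝓞 K) : K)) * Real.exp (σ * lam A c)) =
      ∫⁻ c, ENNReal.ofReal (bt (c - uv e) * (gs (yy c) a * Real.exp (σ * lam A c))) := fun e => by
    rw [← lintegral_add_right_eq_self (fun c => ENNReal.ofReal
      (bt (c - uv e) * (gs (yy c) a * Real.exp (σ * lam A c)))) (uv e)]
    refine lintegral_congr fun c => ?_
    rw [add_sub_cancel_right, unf_lam, ← gs_unit c a ζ e, mul_assoc]; rfl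
  simp only [e1]
  rw [← lintegral_tsum fun e => ?_]
  · refine lintegral_congr fun c => ?_
    have h := (hasSum_bt c).mul_right (gs (yy c) a * Real.exp (σ * lam A c))
    rw [← ENNReal.ofReal_tsum_of_nonneg (fun e => mul_nonneg (bt_nonneg _)
      (mul_pos (unf_gs_pos _ _) (Real.exp_pos _)).le) h.summable, h.tsum_eq, one_mul]
  · exact (((measurable_bt.comp (measurable_sub_const _)).mul ((unf_cont a).mul
      ((continuous_const.mul (unf_cont_lam A)).rexp)).measurable).ennreal_ofReal).aemeasurable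

theorem unf_Z (A : FI K) {σ : ℝ} (hσ : 1 < σ) :
    HasSum (fun I : SS A => nm I.1 ^ (-σ)) (Zcl A σ) := by
  have hs : Summable fun I : Ideal (𝓞 K) => if Cl A I then nm I ^ (-σ) else 0 :=
    (summable_nm hσ).of_nonneg_of_le
      (fun I => by split_ifs; exacts [Real.rpow_nonneg (nm_nonneg I) _, le_rfl])
      fun I => by split_ifs; exacts [le_rfl, Real.rpow_nonneg (nm_nonneg I) _]
  have := ((Subtype.val_injective (p := fun I : Ideal (𝓞 K) => I ≠ ⊥ ∧ Cl A I)).hasSum_iff
    (f := fun I : Ideal (𝓞 K) => if Cl A I then nm I ^ (-σ) else 0) fun I hI => ?_).2 hs.hasSum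
  · refine cast (congrArg (fun F => HasSum F _) (funext fun p => ?_)) this
    exact if_pos p.2.2
  · split_ifs with h
    · have : I = ⊥ := by_contra fun h' => hI ⟨⟨I, h', h⟩, rfl⟩
      simp [this, nm, Real.zero_rpow (show -σ ≠ 0 by linarith)]
    · rfl

theorem unfold [IsTotallyComplex K] : ∃ J : ℝ, 0 < J ∧ ∀ (A : FI K) (σ : ℝ), 1 < σ →
    Integrable (fun c => bt c * th A (yy c) * Real.exp (σ * lam A c)) ∧
    ∫ c, bt c * th A (yy c) * Real.exp (σ * lam A c) = J * gam K σ * Zcl A σ := by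
  obtain ⟨J, hJ, H⟩ := arch (K := K)
  have hT : (0 : ℝ) < Nat.card (Units.torsion K) := Nat.cast_pos.2 Nat.card_pos
  refine ⟨J * Nat.card (Units.torsion K), mul_pos hJ hT, fun A σ hσ => ?_⟩
  have := unf_count (K := K)
  have := (unf_inj A).countable
  have hg : 0 ≤ J * gam K σ := by
    have := Real.Gamma_pos_of_pos (zero_lt_one.trans hσ)
    unfold gam; positivity
  have e1 : ∀ I : SS A, ∫⁻ c, ENNReal.ofReal (gs (yy c) (gen I) * Real.exp (σ * lam A c)) =
      ENNReal.ofReal (J * gam K σ * nm I.1 ^ (-σ)) := fun I => by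
    obtain ⟨i1, i2⟩ := H σ (gen I) (zero_lt_one.trans hσ) (unf_gen_ne I)
    have e : ∀ c, gs (yy c) (gen I) * Real.exp (σ * lam A c) = gs (yy c) (gen I) *
        Real.exp (σ * (Module.finrank ℚ K * c Units.dirichletUnitTheorem.w₀)) * cov A ^ σ :=
      fun c => by
        rw [lam, mul_add, Real.exp_add, Real.rpow_def_of_pos (cov_pos A), mul_comm (Real.log _),
          mul_assoc]
    simp only [e]
    rw [← ofReal_integral_eq_lintegral_ofReal (i1.mul_const _) (ae_of_all _ fun c =>
      mul_nonneg (mul_pos (unf_gs_pos _ _) (Real.exp_pos _)).le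
        (Real.rpow_nonneg (cov_pos A).le _)), integral_mul_const, i2]
    congr 1
    have n1 := congrArg FractionalIdeal.absNorm (unf_gen I)
    rw [map_mul, FractionalIdeal.absNorm_span_singleton, FractionalIdeal.coeIdeal_absNorm] at n1
    have p1 : (0 : ℝ) < ((FractionalIdeal.absNorm A.1 : ℚ) : ℝ) := Rat.cast_pos.2
      ((FractionalIdeal.absNorm_nonneg _).lt_of_ne' fun h =>
        A.ne_zero (FractionalIdeal.absNorm_eq_zero_iff.1 h))
    rw [← Rat.cast_abs, ← n1, Rat.cast_mul, Rat.cast_natCast,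
      Real.mul_rpow (Nat.cast_nonneg _) p1.le, cov, Real.mul_rpow p1.le (Real.sqrt_nonneg _),
      Real.sqrt_eq_rpow, ← Real.rpow_mul (abs_nonneg _), Real.rpow_neg p1.le, gam, nm,
      show 1 / 2 * σ = σ / 2 by ring]
    have := (Real.rpow_pos_of_pos p1 σ).ne'
    field_simp
  have p0 : ∀ c, 0 ≤ bt c * th A (yy c) * Real.exp (σ * lam A c) := fun c =>
    mul_nonneg (mul_nonneg (bt_nonneg c) (th_nonneg _ _)) (Real.exp_pos _).le
  have hZ := (unf_Z A hσ).mul_left (J * gam K σ)
  have pZ : ∀ I : SS A, 0 ≤ J * gam K σ * nm I.1 ^ (-σ) := fun I =>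
    mul_nonneg hg (Real.rpow_nonneg (nm_nonneg _) _)
  have key : ∫⁻ c, ENNReal.ofReal (bt c * th A (yy c) * Real.exp (σ * lam A c)) =
      ENNReal.ofReal (J * Nat.card (Units.torsion K) * gam K σ * Zcl A σ) := by
    have e2 : ∀ c, ENNReal.ofReal (bt c * th A (yy c) * Real.exp (σ * lam A c)) =
        ∑' p, ENNReal.ofReal (bt c * gs (yy c) (par A p) * Real.exp (σ * lam A c)) := fun c => by
      have h := ((unf_th A (yy_pos c)).mul_left (bt c)).mul_right (Real.exp (σ * lam A c))
      rw [← h.tsum_eq, ENNReal.ofReal_tsum_of_nonneg (fun p => mul_nonneg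
        (mul_nonneg (bt_nonneg c) (unf_gs_pos _ _).le) (Real.exp_pos _).le) h.summable]
    simp only [e2]
    refine (lintegral_tsum fun p => (((measurable_bt.mul (unf_cont _).measurable).mul
      ((continuous_const.mul (unf_cont_lam A)).rexp).measurable).ennreal_ofReal).aemeasurable).trans
      ?_
    rw [ENNReal.tsum_prod']
    simp only [ENNReal.tsum_prod' (α := Units.torsion K), par, Pi.mul_apply, unf_sum_e, e1,
      ENNReal.tsum_const, ENNReal.tsum_mul_left]
    rw [← ENNReal.ofReal_tsum_of_nonneg pZ hZ.summable, hZ.tsum_eq, ENat.card_eq_coe_natCard,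
      ENat.toENNReal_coe, ← ENNReal.ofReal_natCast, ← ENNReal.ofReal_mul hT.le]
    congr 1; ring
  have hm : AEStronglyMeasurable (fun c => bt c * th A (yy c) * Real.exp (σ * lam A c)) volume :=
    ((measurable_bt.mul (measurable_th A)).mul
      ((continuous_const.mul (unf_cont_lam A)).rexp).measurable).aestronglyMeasurable
  refine ⟨⟨hm, (hasFiniteIntegral_iff_ofReal (ae_of_all _ p0)).2 ?_⟩, ?_⟩
  · rw [key]; exact ENNReal.ofReal_lt_top
  · rw [integral_eq_lintegral_of_nonneg_ae (ae_of_all _ p0) hm, key, ENNReal.toReal_ofReal]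
    have := mul_nonneg hT.le (hZ.nonneg pZ)
    linarith

theorem sum_Zcl (A : ClassGroup (𝓞 K) → FI K)
    (hA : Function.Bijective fun C => ClassGroup.mk K (A C)) {σ : ℝ} (hσ : 1 < σ) :
    ∑ C, Zcl (A C) σ = Zr K σ := by
  unfold Zcl Zr
  rw [← Summable.tsum_finsetSum fun C _ => (summable_nm hσ).of_nonneg_of_le
      (fun I => by split_ifs; exacts [Real.rpow_nonneg (nm_nonneg I) _, le_rfl])
      fun I => by split_ifs; exacts [le_rfl, Real.rpow_nonneg (nm_nonneg I) _]]
  refine tsum_congr fun I => ?_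
  by_cases hI : I = ⊥
  · simp [hI, nm, Real.zero_rpow (show -σ ≠ 0 by linarith)]
  set U : FI K := Units.mk0 (I : FractionalIdeal (𝓞 K)⁰ K) (FractionalIdeal.coeIdeal_ne_zero.2 hI)
  obtain ⟨C₀, h₀⟩ := hA.2 (ClassGroup.mk K U)⁻¹
  beta_reduce at h₀
  have e : ∀ C, Cl (A C) I ↔ C = C₀ := fun C => by
    rw [← hA.1.eq_iff, h₀, eq_inv_iff_mul_eq_one, mul_comm, ← map_mul, ClassGroup.mk_eq_one_iff,
      FractionalIdeal.isPrincipal_iff]
    rfl
  simp [e]

theorem exists_reps : ∃ A : ClassGroup (𝓞 K) → FI K,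
    (Function.Bijective fun C => ClassGroup.mk K (A C)) ∧
    (Function.Bijective fun C => ClassGroup.mk K (dualU (A C))) := by
  have h : ∀ C : ClassGroup (𝓞 K), ∃ A : FI K, ClassGroup.mk K A = C :=
    ClassGroup.induction K fun I => ⟨I, rfl⟩
  choose A hA using h
  have e : ∀ B : FI K, dualU B = dualU 1 * B⁻¹ := fun B => Units.ext (by
    simpa [dualU] using FractionalIdeal.dual_eq_mul_inv ℤ ℚ (I := B.1))
  refine ⟨A, by simp only [hA]; exact Function.bijective_id, ?_⟩
  have : (fun C => ClassGroup.mk K (dualU (A C))) = fun C => ClassGroup.mk K (dualU 1) * C⁻¹ :=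
    funext fun C => by rw [e, map_mul, map_inv, hA]
  rw [this]
  exact (Group.mulLeft_bijective _).comp inv_involutive.bijective

end

end Vale.Agent.P319E
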